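import Vale.Agent.Lib.P165.Numeric

/-!
# Abstract criterion
-/

open MeasureTheory

namespace Vale.Agent.P165

variable {V : Type*} {G : SimpleGraph V}

theorem Num.percolates [Countable V] {hf : LF G} {D : ℕ} {g C t : ℝ}
    (h : Num hf D g C t) (hbig : (2 ^ 30 * C + 2 ^ 31 * C / g ^ 3) / D ≤ g / 4) :
    ∃ p1 : ℝ, 0 < p1 ∧ p1 < t ∧ p1 < 1 ∧
      ∀ o, 0 < (bm (Sym2 V) (pr p1)).real (infc G o) := by
  classical
  have hDp := h.Dpos
  have hgp := h.hg
  have hden := h.den_pos
  have hhalf := h.hhalf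
  have hD4 := h.hD4
  have hd1 : 0 < (D : ℝ) - 1 - 3 * g / 8 := by linarith
  have hd0 : 0 < (D : ℝ) - 1 - g / 4 := by linarith
  have hge : 1 < (D : ℝ) - 1 - 3 * g / 8 := by linarith
  refine ⟨1 / (D - 1 - 3 * g / 8), one_div_pos.2 hd1, ?_, ?_, ?_⟩
  · rw [h.ht]
    apply one_div_lt_one_div_of_lt hden
    linarith
  · rw [div_lt_one hd1]; exact hge
  · intro o
    set r : ℝ := (D - 1 - g / 2) / (D - 1 - 3 * g / 8) with hr
    have hrt : r * t = 1 / (D - 1 - 3 * g / 8) := by
      have haux : ∀ a b : ℝ, a ≠ 0 → a / b * (1 / a) = 1 / b := by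
        intro a b ha
        rw [mul_one_div, div_div, mul_comm b a, ← div_div, div_self ha]
      rw [hr, h.ht]
      exact haux _ _ hden.ne'
    have hr0 : 0 ≤ r := by positivity
    have hr1 : r ≤ 1 - g / (8 * D) := by
      rw [hr, div_le_iff₀ hd1]
      have e : (1 - g / (8 * (D : ℝ))) * (D - 1 - 3 * g / 8) =
          (D - 1 - 3 * g / 8) - g / 8 * ((D - 1 - 3 * g / 8) / D) := by field_simp
      rw [e]
      have h1 : ((D : ℝ) - 1 - 3 * g / 8) / D ≤ 1 := by
        rw [div_le_one hDp]; linarith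
      nlinarith
    apply infc_pos_of_cycles hf h.hreg (p0 := 1 / (D - 1 - g / 4)) (κ := g / 4)
      (one_div_pos.2 hd0)
    · apply one_div_lt_one_div_of_lt hd1
      linarith
    · rw [div_lt_one hd1]; exact hge
    · intro S N z
      rw [← hrt]
      exact (h.cyc_le hr0 hr1 S N z).trans hbig
    · rw [one_div_one_div]; linarith

theorem Num.nonunique [Countable V] [Infinite V] {hf : LF G} {D : ℕ} {g C t : ℝ}
    (h : Num hf D g C t) (hconn : G.Connected) (hqt : QT G) (p : unitInterval) (hp : (p : ℝ) < t) :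
    (bm (Sym2 V) p) (uniq G) ≠ 1 := by
  classical
  have hDp := h.Dpos
  have hgp := h.hg
  have hCp : 0 < C := by have := h.hC; linarith
  have htp := h.tpos
  have hp0 : 0 ≤ (p : ℝ) := p.2.1
  apply not_uniq hf hconn hqt (K := Real.sqrt (8 * C * D / g)) (r := (p : ℝ) / t)
    (Real.sqrt_nonneg _) (by positivity) (by rw [div_lt_one htp]; exact hp)
  intro n x y
  have h1 : (np hf n x y : ℝ) * t ^ n ≤ Real.sqrt (8 * C * D / g) := by
    apply Real.le_sqrt_of_sq_le
    have h2 : (np hf n x y : ℝ) * t ^ n ≤ useq hf (D - 1) t y n x := by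
      unfold useq
      rw [Finsupp.smul_apply, smul_eq_mul, mul_comm]
      exact mul_le_mul_of_nonneg_left (np_le_mseq hf h.hq y n x) (pow_nonneg htp.le n)
    have h3 := sum_le_ip (useq_nonneg hf htp.le h.hq y n) (useq_nonneg hf htp.le h.hq y n) {x}
    rw [Finset.sum_singleton] at h3
    have h4 := h.B_all y n
    have h5 : 0 ≤ (np hf n x y : ℝ) * t ^ n := by positivity
    nlinarith
  have h2 : (np hf n x y : ℝ) * (p : ℝ) ^ n = ((np hf n x y : ℝ) * t ^ n) * ((p : ℝ) / t) ^ n := by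
    rw [div_pow]
    field_simp
  rw [h2]
  exact mul_le_mul_of_nonneg_right h1 (by positivity)

end Vale.Agent.P165
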