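import Vale.Agent.Lib.P165.NB

/-!
# Counting closed walks in graphs whose edges are labelled by coordinates
-/

namespace Vale.Agent.P165

variable {X L : Type*} {P : SimpleGraph X}

/-- weighted number of walks to `z` with a given label sequence -/
noncomputable def Tw (N : L → X → Finset X) (z : X) : List L → X → ℝ
  | [] => fun x => Finsupp.single z (1 : ℝ) x
  | (c :: cs) => fun x => ∑ y ∈ N c x, Tw N z cs y

lemma Tw_nonneg (N : L → X → Finset X) (z : X) (cs : List L) : ∀ x, 0 ≤ Tw N z cs x := by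
  induction cs with
  | nil => exact single_nonneg' z
  | cons c cs ih => intro x; exact Finset.sum_nonneg fun y _ => ih y

lemma Tw_le (N : L → X → Finset X) (z : X) {Δ : ℕ} (hN : ∀ c x, (N c x).card ≤ Δ) (cs : List L) :
    ∀ x, Tw N z cs x ≤ (Δ : ℝ) ^ cs.length := by
  classical
  induction cs with
  | nil =>
    intro x
    change Finsupp.single z (1 : ℝ) x ≤ _
    rw [Finsupp.single_apply]
    split_ifs <;> simp
  | cons c cs ih =>
    intro x
    change ∑ y ∈ N c x, Tw N z cs y ≤ _
    refine (Finset.sum_le_card_nsmul _ _ _ fun y _ => ih y).trans ?_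
    rw [nsmul_eq_mul, List.length_cons, pow_succ, mul_comm]
    apply mul_le_mul_of_nonneg_left _ (by positivity)
    exact_mod_cast hN c x

variable {R : L → X → X → Prop}

lemma Tw_notMem (hR : ∀ c, Equivalence (R c)) {N : L → X → Finset X}
    (h2 : ∀ c c' x y, c' ≠ c → y ∈ N c' x → R c x y) {z : X} {c : L} (cs : List L) :
    ∀ x, Tw N z cs x ≠ 0 → c ∉ cs → R c x z := by
  classical
  induction cs with
  | nil =>
    intro x hx _
    change Finsupp.single z (1 : ℝ) x ≠ 0 at hx
    rw [Finsupp.single_apply] at hx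
    have : z = x := by
      by_contra hcon
      simp [hcon] at hx
    rw [this]; exact (hR c).refl x
  | cons c' cs ih =>
    intro x hx hc
    change ∑ y ∈ N c' x, Tw N z cs y ≠ 0 at hx
    obtain ⟨y, hy, hy0⟩ := Finset.exists_ne_zero_of_sum_ne_zero hx
    rw [List.mem_cons, not_or] at hc
    exact (hR c).trans (h2 c c' x y (fun h => hc.1 h.symm) hy) (ih y hy0 hc.2)

lemma Tw_count [DecidableEq L] (hR : ∀ c, Equivalence (R c)) {N : L → X → Finset X}
    (h1 : ∀ c x y, y ∈ N c x → ¬ R c x y)
    (h2 : ∀ c c' x y, c' ≠ c → y ∈ N c' x → R c x y) {z : X} {c : L} (cs : List L) :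
    ∀ x, Tw N z cs x ≠ 0 → R c x z → cs.count c ≠ 1 := by
  induction cs with
  | nil => intro x _ _; simp
  | cons c' cs ih =>
    intro x hx hxz
    have hx' := hx
    change ∑ y ∈ N c' x, Tw N z cs y ≠ 0 at hx
    obtain ⟨y, hy, hy0⟩ := Finset.exists_ne_zero_of_sum_ne_zero hx
    by_cases hc : c' = c
    · subst hc
      rw [List.count_cons_self]
      intro hcon
      have h0 : cs.count c' = 0 := by omega
      rw [List.count_eq_zero] at h0
      have h3 := Tw_notMem hR h2 cs y hy0 h0
      exact h1 c' x y hy ((hR c').trans hxz ((hR c').symm h3))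
    · rw [List.count_cons_of_ne hc]
      exact ih y hy0 ((hR c).trans ((hR c).symm (h2 c c' x y hc hy)) hxz)

lemma wseq_le_Tw [Fintype L] {hf : LF P} {N : L → X → Finset X}
    (hnb : ∀ x, ∀ F : X → ℝ, (∀ y, 0 ≤ F y) → ∑ y ∈ nb hf x, F y ≤ ∑ c, ∑ y ∈ N c x, F y)
    (z : X) (n : ℕ) : ∀ x, wseq hf z n x ≤ ∑ s : Fin n → L, Tw N z (List.ofFn s) x := by
  induction n with
  | zero =>
    intro x
    simp [wseq, Tw]
  | succ n ih =>
    intro x
    change adjOp hf (wseq hf z n) x ≤ _
    rw [adjOp_apply]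
    calc ∑ y ∈ nb hf x, wseq hf z n y
        ≤ ∑ y ∈ nb hf x, ∑ s : Fin n → L, Tw N z (List.ofFn s) y :=
          Finset.sum_le_sum fun y _ => ih y
      _ ≤ ∑ c, ∑ y ∈ N c x, ∑ s : Fin n → L, Tw N z (List.ofFn s) y :=
          hnb x _ fun y => Finset.sum_nonneg fun s _ => Tw_nonneg N z _ y
      _ = ∑ c, ∑ s : Fin n → L, Tw N z (c :: List.ofFn s) x := by
          apply Finset.sum_congr rfl
          intro c _
          rw [Finset.sum_comm]
          rfl
      _ = ∑ q : L × (Fin n → L), Tw N z (q.1 :: List.ofFn q.2) x := by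
          rw [Fintype.sum_prod_type]
      _ = ∑ s : Fin (n + 1) → L, Tw N z (List.ofFn s) x := by
          refine Fintype.sum_equiv (Fin.consEquiv (fun _ => L)) _ _ ?_
          intro q
          simp [Fin.consEquiv, List.ofFn_succ]

/-- number of label sequences without singly occurring labels -/
lemma card_good [Fintype L] [DecidableEq L] (n : ℕ) :
    ((Finset.univ : Finset (Fin n → L)).filter
      (fun s => ∀ c, (List.ofFn s).count c ≠ 1)).card ≤ Fintype.card L ^ (n / 2) * (n / 2) ^ n := by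
  classical
  have hsub : (Finset.univ : Finset (Fin n → L)).filter
      (fun s => ∀ c, (List.ofFn s).count c ≠ 1) ⊆
      (Finset.univ : Finset ((Fin (n / 2) → L) × (Fin n → Fin (n / 2)))).image
        (fun q => q.1 ∘ q.2) := by
    intro s hs
    rw [Finset.mem_filter] at hs
    have hs := hs.2
    rw [Finset.mem_image]
    rcases Nat.eq_zero_or_pos n with rfl | hn
    · exact ⟨(fun i => i.elim0, fun i => i.elim0), Finset.mem_univ _, by ext i; exact i.elim0⟩
    set I := (List.ofFn s).toFinset with hI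
    have h1 : 2 * I.card ≤ n := by
      have h2 : ∑ a ∈ I, (List.ofFn s).count a = n := by
        rw [hI, List.sum_toFinset_count_eq_length, List.length_ofFn]
      calc 2 * I.card = ∑ a ∈ I, 2 := by rw [Finset.sum_const, smul_eq_mul, mul_comm]
        _ ≤ ∑ a ∈ I, (List.ofFn s).count a := by
            apply Finset.sum_le_sum
            intro a ha
            rw [hI, List.mem_toFinset] at ha
            have h3 := List.count_pos_iff.2 ha
            have h4 := hs a
            omega
        _ = n := h2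
    have h5 : I.card ≤ n / 2 := by omega
    have hmem : ∀ i, s i ∈ I := by
      intro i
      rw [hI, List.mem_toFinset, List.mem_ofFn]
      exact ⟨i, rfl⟩
    let e := I.equivFin
    refine ⟨(fun j => if h : j.1 < I.card then (e.symm ⟨j.1, h⟩).1 else s ⟨0, hn⟩,
      fun i => Fin.castLE h5 (e ⟨s i, hmem i⟩)), Finset.mem_univ _, ?_⟩
    ext i
    simp
  refine (Finset.card_le_card hsub).trans (Finset.card_image_le.trans ?_)
  rw [Finset.card_univ, Fintype.card_prod, Fintype.card_fun, Fintype.card_fun, Fintype.card_fin,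
    Fintype.card_fin]

theorem closed_walks [Fintype L] (hf : LF P) {N : L → X → Finset X} {Δ : ℕ}
    (hnb : ∀ x, ∀ F : X → ℝ, (∀ y, 0 ≤ F y) → ∑ y ∈ nb hf x, F y ≤ ∑ c, ∑ y ∈ N c x, F y)
    (hN : ∀ c x, (N c x).card ≤ Δ) (hR : ∀ c, Equivalence (R c))
    (h1 : ∀ c x y, y ∈ N c x → ¬ R c x y)
    (h2 : ∀ c c' x y, c' ≠ c → y ∈ N c' x → R c x y) (z : X) (n : ℕ) :
    wseq hf z n z ≤ (Fintype.card L : ℝ) ^ (n / 2) * ((n / 2 : ℕ) : ℝ) ^ n * (Δ : ℝ) ^ n := by
  classical
  refine (wseq_le_Tw hnb z n z).trans ?_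
  have h3 : ∑ s : Fin n → L, Tw N z (List.ofFn s) z =
      ∑ s ∈ (Finset.univ : Finset (Fin n → L)).filter
        (fun s => ∀ c, (List.ofFn s).count c ≠ 1), Tw N z (List.ofFn s) z := by
    symm
    apply Finset.sum_subset (Finset.filter_subset _ _)
    intro s _ hs
    rw [Finset.mem_filter] at hs
    by_contra hne
    apply hs
    exact ⟨Finset.mem_univ _, fun c => Tw_count hR h1 h2 _ z hne ((hR c).refl z)⟩
  rw [h3]
  have h4 : ∀ s ∈ (Finset.univ : Finset (Fin n → L)).filter
        (fun s => ∀ c, (List.ofFn s).count c ≠ 1), Tw N z (List.ofFn s) z ≤ (Δ : ℝ) ^ n := by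
    intro s _
    have := Tw_le N z hN (List.ofFn s) z
    rwa [List.length_ofFn] at this
  refine (Finset.sum_le_card_nsmul _ _ _ h4).trans ?_
  rw [nsmul_eq_mul]
  apply mul_le_mul_of_nonneg_right _ (by positivity)
  exact_mod_cast card_good (L := L) n

end Vale.Agent.P165
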