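import Vale.Agent.Lib.P165.Cheeger
import Vale.Agent.Lib.P165.Labels

/-!
# Cartesian products: neighbours, spectral bound, expansion
-/

namespace Vale.Agent.P165

open SimpleGraph

section general
variable {X : Type*} {P P0 P1 : SimpleGraph X}

lemma specBd_add {hf : LF P} {hf0 : LF P0} {hf1 : LF P1}
    (hsub : ∀ x y, P.Adj x y → P0.Adj x y ∨ P1.Adj x y) {L0 L1 : ℝ} (h0 : SpecBd hf0 L0)
    (h1 : SpecBd hf1 L1) : SpecBd hf (L0 + L1) := by
  classical
  intro f hfn
  have e0 := h0 f hfn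
  have e1 := h1 f hfn
  rw [ip_adj_eq] at e0 e1 ⊢
  have h2 : ∑ x ∈ f.support, ∑ y ∈ nb hf x, f x * f y ≤
      ∑ x ∈ f.support, (∑ y ∈ nb hf0 x, f x * f y + ∑ y ∈ nb hf1 x, f x * f y) := by
    apply Finset.sum_le_sum
    intro x _
    have h3 : nb hf x ⊆ nb hf0 x ∪ nb hf1 x := by
      intro y hy
      rw [Finset.mem_union, mem_nb, mem_nb]
      exact hsub x y (mem_nb.1 hy)
    have h4 := Finset.sum_union_inter (s₁ := nb hf0 x) (s₂ := nb hf1 x) (f := fun y => f x * f y)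
    have h5 : 0 ≤ ∑ y ∈ nb hf0 x ∩ nb hf1 x, f x * f y :=
      Finset.sum_nonneg fun y _ => mul_nonneg (hfn x) (hfn y)
    have h6 : ∑ y ∈ nb hf x, f x * f y ≤ ∑ y ∈ nb hf0 x ∪ nb hf1 x, f x * f y :=
      Finset.sum_le_sum_of_subset_of_nonneg h3 fun y _ _ => mul_nonneg (hfn x) (hfn y)
    linarith
  refine h2.trans ?_
  rw [Finset.sum_add_distrib]
  linarith

lemma VExp.mono {hf : LF P} {hf0 : LF P0} (hle : P0 ≤ P) {h : ℝ} (h0 : VExp hf0 h) : VExp hf h := by
  intro A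
  refine (h0 A).trans ?_
  have : obF hf0 A ⊆ obF hf A := by
    intro v hv
    rw [mem_obF] at hv ⊢
    obtain ⟨hv, a, ha, hav⟩ := hv
    exact ⟨hv, a, ha, hle hav⟩
  exact_mod_cast Finset.card_le_card this

lemma sum_biUnion_le {ι : Type*} [DecidableEq X] (s : Finset ι) (N : ι → Finset X) (F : X → ℝ)
    (hF : ∀ x, 0 ≤ F x) : ∑ y ∈ s.biUnion N, F y ≤ ∑ c ∈ s, ∑ y ∈ N c, F y := by
  classical
  induction s using Finset.induction_on with
  | empty => simp
  | insert c s hc ih =>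
    rw [Finset.biUnion_insert, Finset.sum_insert hc]
    have h4 := Finset.sum_union_inter (s₁ := N c) (s₂ := s.biUnion N) (f := F)
    have h5 : 0 ≤ ∑ y ∈ N c ∩ s.biUnion N, F y := Finset.sum_nonneg fun y _ => hF y
    linarith

end general

section box
variable {V Y : Type*} {G : SimpleGraph V} {K : SimpleGraph Y}

lemma LF_bot : LF (⊥ : SimpleGraph Y) := by
  intro v
  have : (⊥ : SimpleGraph Y).neighborSet v = ∅ := by
    ext y; simp
  rw [this]; exact Set.finite_empty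

lemma LF_box (hG : LF G) (hK : LF K) : LF (G □ K) := by
  rintro ⟨v, y⟩
  apply (((hG v).image (fun v' => (v', y))).union ((hK y).image (fun y' => (v, y')))).subset
  rintro ⟨v', y'⟩ h
  rw [SimpleGraph.mem_neighborSet, SimpleGraph.boxProd_adj] at h
  simp only at h
  rcases h with ⟨h1, h2⟩ | ⟨h1, h2⟩
  · left; subst h2; exact ⟨v', h1, rfl⟩
  · right; subst h2; exact ⟨y', h1, rfl⟩

lemma nb_box [DecidableEq V] [DecidableEq Y] (hG : LF G) (hK : LF K) (hf : LF (G □ K)) (v : V)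
    (y : Y) : nb hf (v, y) = (nb hG v).image (fun v' => (v', y)) ∪ (nb hK y).image (fun y' => (v, y')) := by
  ext ⟨v', y'⟩
  rw [mem_nb, SimpleGraph.boxProd_adj, Finset.mem_union, Finset.mem_image, Finset.mem_image]
  simp only [Prod.mk.injEq]
  constructor
  · rintro (⟨h1, h2⟩ | ⟨h1, h2⟩)
    · left; exact ⟨v', mem_nb.2 h1, rfl, h2⟩
    · right; exact ⟨y', mem_nb.2 h1, h2, rfl⟩
  · rintro (⟨a, h1, rfl, h2⟩ | ⟨a, h1, h2, rfl⟩)
    · left; exact ⟨mem_nb.1 h1, h2⟩
    · right; exact ⟨mem_nb.1 h1, h2⟩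

lemma card_nb_box (hG : LF G) (hK : LF K) (hf : LF (G □ K)) (v : V)
    (y : Y) : (nb hf (v, y)).card = (nb hG v).card + (nb hK y).card := by
  classical
  rw [nb_box hG hK hf, Finset.card_union_of_disjoint, Finset.card_image_of_injective,
    Finset.card_image_of_injective]
  · intro a b h; simpa using h
  · intro a b h; simpa using h
  · rw [Finset.disjoint_left]
    intro a h1 h2
    rw [Finset.mem_image] at h1 h2
    obtain ⟨v', h1, rfl⟩ := h1
    obtain ⟨y', h2, h3⟩ := h2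
    rw [Prod.mk.injEq] at h3
    rw [mem_nb] at h1
    rw [h3.1] at h1
    exact h1.ne rfl

lemma card_nb_bot (hb : LF (⊥ : SimpleGraph Y)) (y : Y) : (nb hb y).card = 0 := by
  rw [Finset.card_eq_zero, Finset.eq_empty_iff_forall_notMem]
  intro a h
  rw [mem_nb] at h
  simp at h

lemma VExp_fiber (hG : LF G) {h : ℝ} (hexp : VExp hG h)
    (hf : LF (G □ (⊥ : SimpleGraph Y))) : VExp hf h := by
  classical
  intro A
  set T := A.image Prod.snd with hT
  set fib : Y → Finset V := fun y => (A.filter (fun x => x.2 = y)).image Prod.fst with hfib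
  have hcardfib : ∀ y, (fib y).card = (A.filter (fun x => x.2 = y)).card := by
    intro y
    apply Finset.card_image_of_injOn
    rintro ⟨a, b⟩ ha ⟨a', b'⟩ ha' hab
    rw [Finset.mem_coe, Finset.mem_filter] at ha ha'
    have h1 := ha.2; have h2 := ha'.2
    simp only at h1 h2 hab
    rw [hab, h1, h2]
  have hmemfib : ∀ y v, v ∈ fib y ↔ (v, y) ∈ A := by
    intro y v
    simp only [hfib, Finset.mem_image, Finset.mem_filter]
    constructor
    · rintro ⟨⟨a, b⟩, ⟨h1, h2⟩, h3⟩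
      simp only at h2 h3
      rw [← h2, ← h3]; exact h1
    · intro h1; exact ⟨(v, y), ⟨h1, rfl⟩, rfl⟩
  have h1 : A.card = ∑ y ∈ T, (fib y).card := by
    rw [Finset.card_eq_sum_card_fiberwise (f := Prod.snd) (t := T)]
    · exact Finset.sum_congr rfl fun y _ => (hcardfib y).symm
    · intro x hx
      rw [Finset.mem_coe] at hx ⊢
      exact Finset.mem_image_of_mem _ hx
  have h2 : ∑ y ∈ T, (obF hG (fib y)).card ≤ (obF hf A).card := by
    have h3 : ∀ y ∈ T, (obF hG (fib y)).card ≤ ((obF hf A).filter (fun x => x.2 = y)).card := by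
      intro y _
      have h4 : (obF hG (fib y)).image (fun v => (v, y)) ⊆ (obF hf A).filter (fun x => x.2 = y) := by
        intro x hx
        rw [Finset.mem_image] at hx
        obtain ⟨v, hv, rfl⟩ := hx
        rw [Finset.mem_filter, mem_obF]
        rw [mem_obF] at hv
        obtain ⟨hv, a, ha, hav⟩ := hv
        refine ⟨⟨?_, (a, y), (hmemfib y a).1 ha, ?_⟩, rfl⟩
        · intro hcon; exact hv ((hmemfib y v).2 hcon)
        · rw [SimpleGraph.boxProd_adj]; left; exact ⟨hav, rfl⟩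
      have h5 := Finset.card_le_card h4
      rwa [Finset.card_image_of_injective _ (by intro a b h; simpa using h)] at h5
    refine (Finset.sum_le_sum h3).trans ?_
    rw [Finset.card_eq_sum_card_fiberwise (s := obF hf A) (f := Prod.snd)
      (t := T ∪ (obF hf A).image Prod.snd)]
    · exact Finset.sum_le_sum_of_subset Finset.subset_union_left
    · intro x hx
      rw [Finset.mem_coe] at hx ⊢
      exact Finset.mem_union_right _ (Finset.mem_image_of_mem _ hx)
  calc h * A.card = ∑ y ∈ T, h * (fib y).card := by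
        rw [h1]; push_cast; rw [Finset.mul_sum]
    _ ≤ ∑ y ∈ T, ((obF hG (fib y)).card : ℝ) := Finset.sum_le_sum fun y _ => hexp _
    _ ≤ (obF hf A).card := by exact_mod_cast h2

lemma box_VExp (hG : LF G) {h : ℝ} (hexp : VExp hG h) (hf : LF (G □ K)) : VExp hf h := by
  refine VExp.mono (hf0 := LF_box hG LF_bot) ?_ (VExp_fiber hG hexp _)
  rintro ⟨a, b⟩ ⟨a', b'⟩ hab
  rw [SimpleGraph.boxProd_adj] at hab ⊢
  rcases hab with h1 | h1
  · left; exact h1
  · exact absurd h1.1 (by simp)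

lemma box_SpecBd (hG : LF G) (hK : LF K) (hf : LF (G □ K)) {d e : ℕ} (hd : 0 < d)
    (hreg : ∀ v, (nb hG v).card = d) (hdeg : ∀ y, (nb hK y).card ≤ e)
    {h : ℝ} (hh : 0 < h) (hexp : VExp hG h) : SpecBd hf ((d - h ^ 2 / (8 * d)) + e) := by
  have h0 : SpecBd (LF_box hG (LF_bot (Y := Y))) (d - h ^ 2 / (8 * d)) := by
    apply specBd_cheeger _ _ hd hh (VExp_fiber hG hexp _)
    rintro ⟨v, y⟩
    rw [card_nb_box hG LF_bot, card_nb_bot, hreg, add_zero]
  have h1 : SpecBd (LF_box (LF_bot (Y := V)) hK) (e : ℝ) := by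
    apply specBd_trivial
    rintro ⟨v, y⟩
    rw [card_nb_box LF_bot hK, card_nb_bot, zero_add]
    exact hdeg y
  refine specBd_add ?_ h0 h1
  rintro ⟨a, b⟩ ⟨a', b'⟩ hab
  rw [SimpleGraph.boxProd_adj] at hab
  rw [SimpleGraph.boxProd_adj, SimpleGraph.boxProd_adj]
  rcases hab with h2 | h2
  · left; left; exact h2
  · right; right; exact h2

lemma QT_box (hG : QT G) (hK : QT K) : QT (G □ K) := by
  classical
  obtain ⟨F, hF⟩ := hG
  obtain ⟨F', hF'⟩ := hK
  refine ⟨F ×ˢ F', ?_⟩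
  rintro ⟨v, y⟩
  obtain ⟨φ, hφ⟩ := hF v
  obtain ⟨ψ, hψ⟩ := hF' y
  refine ⟨⟨φ.toEquiv.prodCongr ψ.toEquiv, ?_⟩, ?_⟩
  · rintro ⟨a, b⟩ ⟨a', b'⟩
    simp only [SimpleGraph.boxProd_adj, Equiv.prodCongr_apply, Prod.map_apply,
      EmbeddingLike.apply_eq_iff_eq]
    have h1 : G.Adj (φ.toEquiv a) (φ.toEquiv a') ↔ G.Adj a a' := φ.map_adj_iff
    have h2 : K.Adj (ψ.toEquiv b) (ψ.toEquiv b') ↔ K.Adj b b' := ψ.map_adj_iff
    rw [h1, h2]
  · exact Finset.mem_product.2 ⟨hφ, hψ⟩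

end box

end Vale.Agent.P165
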