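import Mathlib

/-!
# Definitions used in the statements for P165
-/

open MeasureTheory ProbabilityTheory

namespace Vale.Agent.P165

variable {V : Type*}

/-- Bernoulli bond percolation on `G` with parameter `p`: a configuration assigns to every edge
`true` (open) or `false` (closed); the edges are independent and each one is open with
probability `p`. -/
noncomputable def percolation (G : SimpleGraph V) (p : unitInterval) :
    Measure (G.edgeSet → Bool) :=
  Measure.infinitePi fun _ => bernoulliMeasure true false p

/-- The open subgraph of a configuration. Its connected components are the clusters. -/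
def openGraph (G : SimpleGraph V) (ω : G.edgeSet → Bool) : SimpleGraph V :=
  SimpleGraph.fromEdgeSet {e | ∃ h : e ∈ G.edgeSet, ω ⟨e, h⟩ = true}

/-- The event that there is at least one infinite cluster. -/
def someInfiniteCluster (G : SimpleGraph V) : Set (G.edgeSet → Bool) :=
  {ω | ∃ C : (openGraph G ω).ConnectedComponent, C.supp.Infinite}

/-- The event that there is exactly one infinite cluster. -/
def uniqueInfiniteCluster (G : SimpleGraph V) : Set (G.edgeSet → Bool) :=
  {ω | ∃! C : (openGraph G ω).ConnectedComponent, C.supp.Infinite}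

/-- The critical parameter `p_c`. -/
noncomputable def pc (G : SimpleGraph V) : ℝ :=
  sInf {p : ℝ | ∃ hp : p ∈ unitInterval, 0 < percolation G ⟨p, hp⟩ (someInfiniteCluster G)}

/-- The uniqueness threshold `p_u`. -/
noncomputable def pu (G : SimpleGraph V) : ℝ :=
  sInf {p : ℝ | ∃ hp : p ∈ unitInterval, percolation G ⟨p, hp⟩ (uniqueInfiniteCluster G) = 1}

/-- Every vertex has finitely many neighbours. -/
def LocallyFinite (G : SimpleGraph V) : Prop := ∀ v, (G.neighborSet v).Finite

/-- Every vertex has exactly `d` neighbours. -/
def RegularOfDegree (G : SimpleGraph V) (d : ℕ) : Prop := ∀ v, (G.neighborSet v).encard = d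

/-- The automorphism group has finitely many orbits on vertices. -/
def QuasiTransitive (G : SimpleGraph V) : Prop :=
  ∃ F : Finset V, ∀ v, ∃ φ : G ≃g G, φ v ∈ F

/-- The vertices outside `A` with a neighbour in `A`. -/
def outerBoundary (G : SimpleGraph V) (A : Set V) : Set V :=
  {v | v ∉ A ∧ ∃ a ∈ A, G.Adj a v}

/-- The vertex isoperimetric constant `h_V`. -/
noncomputable def hV (G : SimpleGraph V) : ℝ :=
  sInf {r : ℝ | ∃ A : Finset V, A.Nonempty ∧
    r = ((outerBoundary G (A : Set V)).ncard : ℝ) / (A.card : ℝ)}

/-- Nonamenability. -/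
def Nonamenable (G : SimpleGraph V) : Prop := 0 < hV G

/-- The Cartesian product of a family of graphs: two points are adjacent when they differ in
exactly one coordinate, and are adjacent there. -/
def cartesianProduct {ι : Type*} {W : ι → Type*} (H : ∀ i, SimpleGraph (W i)) :
    SimpleGraph (∀ i, W i) where
  Adj x y := ∃ i, (H i).Adj (x i) (y i) ∧ ∀ j, j ≠ i → x j = y j
  symm := ⟨fun _ _ ⟨i, h, h'⟩ => ⟨i, h.symm, fun j hj => (h' j hj).symm⟩⟩
  loopless := ⟨fun _ ⟨i, h, _⟩ => (H i).loopless.irrefl _ h⟩

end Vale.Agent.P165
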