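import Vale.Agent.Lib.P165.L2
import Vale.Agent.Lib.P165.Defs

/-!
# Cheeger inequality from vertex expansion
-/

namespace Vale.Agent.P165

variable {V : Type*} {G : SimpleGraph V}

open Classical in
/-- outer boundary as a finite set -/
noncomputable def obF (hf : LF G) (A : Finset V) : Finset V := (A.biUnion (nb hf)) \ A

lemma mem_obF {hf : LF G} {A : Finset V} {v : V} :
    v ∈ obF hf A ↔ v ∉ A ∧ ∃ a ∈ A, G.Adj a v := by
  classical
  unfold obF
  rw [Finset.mem_sdiff, Finset.mem_biUnion]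
  constructor
  · rintro ⟨⟨a, ha, hav⟩, hv⟩
    exact ⟨hv, a, ha, mem_nb.1 hav⟩
  · rintro ⟨hv, a, ha, hav⟩
    exact ⟨⟨a, ha, mem_nb.2 hav⟩, hv⟩

lemma ncard_outerBoundary (hf : LF G) (A : Finset V) :
    (outerBoundary G (A : Set V)).ncard = (obF hf A).card := by
  rw [← Set.ncard_coe_finset]
  congr 1
  ext v
  rw [Finset.mem_coe, mem_obF]
  rfl

/-- vertex expansion with constant `h` -/
def VExp (hf : LF G) (h : ℝ) : Prop := ∀ A : Finset V, h * A.card ≤ ((obF hf A).card : ℝ)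

lemma obF_card_le [DecidableEq V] (hf : LF G) (A : Finset V) :
    (obF hf A).card ≤ ∑ x ∈ A, (nb hf x \ A).card := by
  refine (Finset.card_le_card ?_).trans Finset.card_biUnion_le
  intro v hv
  rw [mem_obF] at hv
  obtain ⟨hvA, a, ha, hav⟩ := hv
  rw [Finset.mem_biUnion]
  exact ⟨a, ha, Finset.mem_sdiff.2 ⟨mem_nb.2 hav, hvA⟩⟩

lemma coarea (hf : LF G) {h : ℝ} (hexp : VExp hf h) :
    ∀ (n : ℕ) (S : Finset V), S.card = n → ∀ F : V → ℝ, (∀ x, 0 ≤ F x) → (∀ x ∉ S, F x = 0) →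
    h * ∑ x ∈ S, F x ≤ ∑ x ∈ S, ∑ y ∈ nb hf x, max (F x - F y) 0 := by
  classical
  intro n
  induction n with
  | zero =>
    intro S hS F _ _
    rw [Finset.card_eq_zero] at hS
    subst hS; simp
  | succ n ih =>
    intro S hS F hF h0
    have hne : S.Nonempty := by
      rw [← Finset.card_pos]; omega
    obtain ⟨x₀, hx₀, hmin⟩ := Finset.exists_min_image S F hne
    set m := F x₀ with hm
    have hm0 : 0 ≤ m := hF x₀
    set F' : V → ℝ := fun x => if x ∈ S then F x - m else 0 with hF'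
    have hF'0 : ∀ x, 0 ≤ F' x := by
      intro x
      simp only [hF']
      split_ifs with hx
      · exact sub_nonneg.2 (hmin x hx)
      · exact le_refl _
    have hF'x₀ : F' x₀ = 0 := by simp [hF', hx₀, hm]
    have hF'out : ∀ x ∉ S.erase x₀, F' x = 0 := by
      intro x hx
      rw [Finset.mem_erase, not_and_or, not_not] at hx
      rcases hx with rfl | hx
      · exact hF'x₀
      · simp [hF', hx]
    have h1 := ih (S.erase x₀) (by rw [Finset.card_erase_of_mem hx₀, hS]; rfl) F' hF'0 hF'out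
    have h2 : ∑ x ∈ S.erase x₀, F' x = ∑ x ∈ S, F x - m * S.card := by
      have := Finset.sum_erase_add S F' hx₀
      rw [hF'x₀, add_zero] at this
      rw [this, mul_comm, ← nsmul_eq_mul, ← Finset.sum_const, ← Finset.sum_sub_distrib]
      apply Finset.sum_congr rfl
      intro x hx
      simp [hF', hx]
    have h3 : ∑ x ∈ S, ∑ y ∈ nb hf x, max (F x - F y) 0 =
        m * ∑ x ∈ S, ((nb hf x \ S).card : ℝ) + ∑ x ∈ S, ∑ y ∈ nb hf x, max (F' x - F' y) 0 := by
      rw [Finset.mul_sum, ← Finset.sum_add_distrib]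
      apply Finset.sum_congr rfl
      intro x hx
      have h4 : ∀ y ∈ nb hf x, max (F x - F y) 0 = (if y ∈ nb hf x \ S then m else 0) +
          max (F' x - F' y) 0 := by
        intro y hy
        by_cases hyS : y ∈ S
        · have : y ∉ nb hf x \ S := by simp [hyS]
          simp [hF', hx, hyS]
        · have h5 : y ∈ nb hf x \ S := Finset.mem_sdiff.2 ⟨hy, hyS⟩
          rw [if_pos h5, h0 y hyS]
          simp only [hF', hx, hyS, if_true, if_false, sub_zero]
          rw [max_eq_left (hF x), max_eq_left (sub_nonneg.2 (hmin x hx))]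
          ring
      rw [Finset.sum_congr rfl h4, Finset.sum_add_distrib]
      congr 1
      rw [← Finset.sum_filter, Finset.sum_const, nsmul_eq_mul, mul_comm]
      congr 3
      ext y
      rw [Finset.mem_filter, Finset.mem_sdiff]
      tauto
    have h6 : ∑ x ∈ S.erase x₀, ∑ y ∈ nb hf x, max (F' x - F' y) 0 =
        ∑ x ∈ S, ∑ y ∈ nb hf x, max (F' x - F' y) 0 := by
      have := Finset.sum_erase_add S (fun x => ∑ y ∈ nb hf x, max (F' x - F' y) 0) hx₀
      rw [← this]
      have h7 : ∑ y ∈ nb hf x₀, max (F' x₀ - F' y) 0 = 0 := by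
        apply Finset.sum_eq_zero
        intro y _
        rw [hF'x₀, zero_sub]
        exact max_eq_right (neg_nonpos.2 (hF'0 y))
      rw [h7, add_zero]
    rw [h6] at h1
    rw [h3]
    have h8 : h * S.card ≤ ∑ x ∈ S, ((nb hf x \ S).card : ℝ) := by
      refine (hexp S).trans ?_
      have := obF_card_le hf S
      exact_mod_cast this
    have h9 := mul_le_mul_of_nonneg_left h8 hm0
    rw [h2] at h1
    nlinarith

lemma sum_nb_le (hf : LF G) {d : ℕ} (hdeg : ∀ v, (nb hf v).card ≤ d) (S S' : Finset V)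
    (F : V → ℝ) (hF : ∀ x, 0 ≤ F x) (h0 : ∀ x ∉ S', F x = 0) :
    ∑ x ∈ S, ∑ y ∈ nb hf x, F y ≤ d * ∑ y ∈ S', F y := by
  classical
  have h1 : ∀ x, ∑ y ∈ nb hf x, F y = ∑ y ∈ S', if G.Adj x y then F y else 0 := by
    intro x
    rw [← Finset.sum_filter]
    symm
    apply Finset.sum_subset_zero_on_sdiff
    · intro y hy
      exact mem_nb.2 (Finset.mem_filter.1 hy).2
    · intro y hy
      rw [Finset.mem_sdiff, Finset.mem_filter, not_and_or] at hy
      rcases hy.2 with h | h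
      · exact h0 y h
      · exact absurd (mem_nb.1 hy.1) h
    · intro y _; rfl
  simp_rw [h1]
  rw [Finset.sum_comm, Finset.mul_sum]
  apply Finset.sum_le_sum
  intro y _
  rw [← Finset.sum_filter, Finset.sum_const, nsmul_eq_mul]
  apply mul_le_mul_of_nonneg_right _ (hF y)
  have : (S.filter (fun x => G.Adj x y)).card ≤ (nb hf y).card := by
    apply Finset.card_le_card
    intro x hx
    exact mem_nb.2 (Finset.mem_filter.1 hx).2.symm
  exact_mod_cast this.trans (hdeg y)

/-- quadratic form as a sum over the support -/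
lemma ip_adj_eq (hf : LF G) (f : V →₀ ℝ) :
    ip (adjOp hf f) f = ∑ x ∈ f.support, ∑ y ∈ nb hf x, f x * f y := by
  rw [ip_comm, ip_eq_sum f _ (Finset.Subset.refl _)]
  apply Finset.sum_congr rfl
  intro x _
  rw [adjOp_apply, Finset.mul_sum]

lemma ip_self_eq (f : V →₀ ℝ) : ip f f = ∑ x ∈ f.support, f x ^ 2 := by
  rw [ip_eq_sum f f (Finset.Subset.refl _)]
  apply Finset.sum_congr rfl
  intro x _; ring

lemma specBd_trivial (hf : LF G) {d : ℕ} (hdeg : ∀ v, (nb hf v).card ≤ d) : SpecBd hf d := by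
  intro f _
  rw [ip_adj_eq, ip_self_eq]
  have h1 := sum_nb_le hf hdeg f.support f.support (fun x => f x ^ 2) (fun x => sq_nonneg _)
    (by intro x hx; simp [Finsupp.notMem_support_iff.1 hx])
  have h2 : ∑ x ∈ f.support, ∑ y ∈ nb hf x, f x * f y ≤
      ∑ x ∈ f.support, ∑ y ∈ nb hf x, (1 / 2 * f x ^ 2 + 1 / 2 * f y ^ 2) := by
    apply Finset.sum_le_sum; intro x _
    apply Finset.sum_le_sum; intro y _
    nlinarith [sq_nonneg (f x - f y)]
  refine h2.trans ?_
  simp_rw [Finset.sum_add_distrib, ← Finset.mul_sum]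
  have h3 : ∑ x ∈ f.support, ∑ y ∈ nb hf x, f x ^ 2 ≤ d * ∑ x ∈ f.support, f x ^ 2 := by
    rw [Finset.mul_sum]
    apply Finset.sum_le_sum
    intro x _
    rw [Finset.sum_const, nsmul_eq_mul]
    apply mul_le_mul_of_nonneg_right _ (sq_nonneg _)
    exact_mod_cast hdeg x
  linarith

lemma specBd_cheeger (hf : LF G) {d : ℕ} (hreg : ∀ v, (nb hf v).card = d) (hd : 0 < d) {h : ℝ}
    (hh : 0 < h) (hexp : VExp hf h) : SpecBd hf (d - h ^ 2 / (8 * d)) := by
  intro f _
  have hd' : (0 : ℝ) < d := by exact_mod_cast hd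
  rw [ip_adj_eq, ip_self_eq]
  have h1 := sum_nb_le hf (fun v => (hreg v).le) f.support f.support (fun x => f x ^ 2)
    (fun x => sq_nonneg _) (by intro x hx; simp [Finsupp.notMem_support_iff.1 hx])
  have h2 := coarea hf hexp f.support.card f.support rfl (fun x => f x ^ 2) (fun x => sq_nonneg _)
    (by intro x hx; simp [Finsupp.notMem_support_iff.1 hx])
  set s : ℝ := 4 * d / h with hs
  have hs0 : 0 < s := by positivity
  have h3 : ∑ x ∈ f.support, ∑ y ∈ nb hf x, max (f x ^ 2 - f y ^ 2) 0 ≤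
      ∑ x ∈ f.support, ∑ y ∈ nb hf x,
        ((s / 2 + 1 / s) * f x ^ 2 - s * (f x * f y) + (s / 2 + 1 / s) * f y ^ 2) := by
    apply Finset.sum_le_sum; intro x _
    apply Finset.sum_le_sum; intro y _
    have e1 : (s / 2 + 1 / s) * f x ^ 2 - s * (f x * f y) + (s / 2 + 1 / s) * f y ^ 2 =
        s / 2 * (f x - f y) ^ 2 + 1 / (2 * s) * (f x + f y) ^ 2 + 1 / (2 * s) * (f x - f y) ^ 2 := by
      field_simp; ring
    rw [e1]
    have e2 : s / 2 * (f x - f y) ^ 2 + 1 / (2 * s) * (f x + f y) ^ 2 - (f x ^ 2 - f y ^ 2) =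
        1 / (2 * s) * (s * (f x - f y) - (f x + f y)) ^ 2 := by
      field_simp; ring
    have h4 : 0 ≤ 1 / (2 * s) * (s * (f x - f y) - (f x + f y)) ^ 2 := by positivity
    have h5 : 0 ≤ 1 / (2 * s) * (f x - f y) ^ 2 := by positivity
    apply max_le
    · linarith
    · positivity
  have h6 : ∑ x ∈ f.support, ∑ y ∈ nb hf x,
        ((s / 2 + 1 / s) * f x ^ 2 - s * (f x * f y) + (s / 2 + 1 / s) * f y ^ 2) =
      (s / 2 + 1 / s) * (d * ∑ x ∈ f.support, f x ^ 2)
        - s * ∑ x ∈ f.support, ∑ y ∈ nb hf x, f x * f y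
        + (s / 2 + 1 / s) * ∑ x ∈ f.support, ∑ y ∈ nb hf x, f y ^ 2 := by
    simp_rw [Finset.sum_add_distrib, Finset.sum_sub_distrib, ← Finset.mul_sum]
    congr 2
    rw [Finset.mul_sum, Finset.mul_sum, Finset.mul_sum]
    apply Finset.sum_congr rfl
    intro x _
    rw [Finset.sum_const, hreg, nsmul_eq_mul]
  rw [h6] at h3
  set Nn := ∑ x ∈ f.support, f x ^ 2
  set Q := ∑ x ∈ f.support, ∑ y ∈ nb hf x, f x * f y
  set R := ∑ x ∈ f.support, ∑ y ∈ nb hf x, f y ^ 2
  have hN : 0 ≤ Nn := Finset.sum_nonneg fun x _ => sq_nonneg _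
  have h7 : h * Nn ≤ (s / 2 + 1 / s) * (d * Nn) - s * Q + (s / 2 + 1 / s) * (d * Nn) := by
    have : (s / 2 + 1 / s) * R ≤ (s / 2 + 1 / s) * (d * Nn) :=
      mul_le_mul_of_nonneg_left h1 (by positivity)
    linarith
  have h8 : h * Nn ≤ s * (d * Nn - Q) + 2 / s * (d * Nn) := by
    refine h7.trans (le_of_eq ?_); ring
  have h9 : 2 / s * (d * Nn) = h / 2 * Nn := by
    rw [hs]; field_simp; norm_num
  rw [h9] at h8
  have h10 : h / 2 * Nn ≤ s * (d * Nn - Q) := by linarith
  have h11 : h / 2 * Nn / s ≤ d * Nn - Q := by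
    rw [div_le_iff₀ hs0]; linarith
  have h12 : h / 2 * Nn / s = h ^ 2 / (8 * d) * Nn := by
    rw [hs]; field_simp; ring
  rw [h12] at h11
  linarith

lemma SpecBd.mono {hf : LF G} {L L' : ℝ} (h : SpecBd hf L) (hL : L ≤ L') : SpecBd hf L' := by
  intro f h0
  exact (h f h0).trans (mul_le_mul_of_nonneg_right hL (ip_self_nonneg f))

end Vale.Agent.P165
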