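import Vale.Agent.Lib.P165.Russo

/-!
# Open graphs, clusters inside a finite set, and three deterministic lemmas
-/

open MeasureTheory ProbabilityTheory

namespace Vale.Agent.P165

variable {V : Type*}

/-- the open subgraph of `G` when every unordered pair carries a label -/
def og (G : SimpleGraph V) (ω : Sym2 V → Bool) : SimpleGraph V where
  Adj x y := G.Adj x y ∧ ω s(x, y) = true
  symm := ⟨fun _ _ h => ⟨h.1.symm, by rw [Sym2.eq_swap]; exact h.2⟩⟩
  loopless := ⟨fun x h => G.loopless.irrefl x h.1⟩

/-- restriction of a graph to a vertex set -/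
def restr (K : SimpleGraph V) (S : Set V) : SimpleGraph V where
  Adj x y := K.Adj x y ∧ x ∈ S ∧ y ∈ S
  symm := ⟨fun x y h => ⟨h.1.symm, h.2.2, h.2.1⟩⟩
  loopless := ⟨fun x h => K.loopless.irrefl x h.1⟩

lemma og_adj {G : SimpleGraph V} {ω : Sym2 V → Bool} {x y : V} :
    (og G ω).Adj x y ↔ G.Adj x y ∧ ω s(x, y) = true := Iff.rfl

lemma restr_adj {K : SimpleGraph V} {S : Set V} {x y : V} :
    (restr K S).Adj x y ↔ K.Adj x y ∧ x ∈ S ∧ y ∈ S := Iff.rfl

lemma restr_mono {K K' : SimpleGraph V} (h : K ≤ K') (S : Set V) : restr K S ≤ restr K' S :=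
  fun _ _ h' => ⟨h h'.1, h'.2⟩

lemma restr_le (K : SimpleGraph V) (S : Set V) : restr K S ≤ K := fun _ _ h => h.1

/-- the event that `x` is connected to `o` inside `S` -/
def conn (G : SimpleGraph V) (S : Set V) (o x : V) : Set (Sym2 V → Bool) :=
  {ω | (restr (og G ω) S).Reachable o x}

lemma mem_conn {G : SimpleGraph V} {S : Set V} {o x : V} {ω : Sym2 V → Bool} :
    ω ∈ conn G S o x ↔ (restr (og G ω) S).Reachable o x := Iff.rfl

lemma mem_of_reachable {K : SimpleGraph V} {S : Set V} {o x : V} (ho : o ∈ S)
    (h : (restr K S).Reachable o x) : x ∈ S := by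
  rw [SimpleGraph.reachable_iff_reflTransGen] at h
  induction h with
  | refl => exact ho
  | tail _ h2 _ => exact h2.2.2

lemma depOn_conn (G : SimpleGraph V) (S : Finset V) (o x : V) :
    DepOn (conn G (S : Set V) o x) (S.sym2 : Set (Sym2 V)) := by
  intro ω ω' h
  have : restr (og G ω) (S : Set V) = restr (og G ω') (S : Set V) := by
    ext a b
    simp only [restr_adj, og_adj]
    constructor
    · rintro ⟨⟨h1, h2⟩, h3, h4⟩
      refine ⟨⟨h1, ?_⟩, h3, h4⟩
      rw [← h s(a, b) (by rw [Finset.mem_coe, Finset.mk_mem_sym2_iff]; exact ⟨h3, h4⟩)]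
      exact h2
    · rintro ⟨⟨h1, h2⟩, h3, h4⟩
      refine ⟨⟨h1, ?_⟩, h3, h4⟩
      rw [h s(a, b) (by rw [Finset.mem_coe, Finset.mk_mem_sym2_iff]; exact ⟨h3, h4⟩)]
      exact h2
  rw [mem_conn, mem_conn, this]

section
variable [DecidableEq V]

/-- close all labels in `F` -/
def cl (F : Finset (Sym2 V)) (ω : Sym2 V → Bool) : Sym2 V → Bool :=
  fun e => if e ∈ F then false else ω e

lemma og_cl_le (G : SimpleGraph V) (F : Finset (Sym2 V)) (ω : Sym2 V → Bool) :
    og G (cl F ω) ≤ og G ω := by
  intro x y h
  refine ⟨h.1, ?_⟩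
  have := h.2
  unfold cl at this
  split_ifs at this
  exact this

lemma og_upd_le (G : SimpleGraph V) (e : Sym2 V) (ω : Sym2 V → Bool) :
    og G (Function.update ω e false) ≤ og G ω := by
  intro x y h
  refine ⟨h.1, ?_⟩
  have := h.2
  by_cases he : s(x, y) = e
  · rw [he, Function.update_self] at this
    exact absurd this (by simp)
  · rwa [Function.update_of_ne he] at this

lemma conn_upd_sub {G : SimpleGraph V} {S : Set V} {o x : V} {e : Sym2 V} :
    setB (conn G S o x) e false ⊆ conn G S o x := by
  intro ω h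
  exact SimpleGraph.Reachable.mono (restr_mono (og_upd_le G e ω) S) h

/-- Lemma A. -/
lemma lemA {G : SimpleGraph V} {S : Set V} {o x y : V} {ω : Sym2 V → Bool}
    (h1 : ω ∈ conn G S o x) (h2 : ω ∉ setB (conn G S o x) s(x, y) false) :
    ω ∈ setB (conn G S o y) s(x, y) false ∧ ω s(x, y) = true := by
  constructor
  · by_contra h3
    apply h2
    have key : ∀ z, (restr (og G ω) S).Reachable o z →
        (restr (og G (Function.update ω s(x, y) false)) S).Reachable o z := by
      intro z hz
      rw [SimpleGraph.reachable_iff_reflTransGen] at hz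
      induction hz with
      | refl => exact SimpleGraph.Reachable.refl _
      | @tail b c _ hbc ih =>
        by_cases he : s(b, c) = s(x, y)
        · exfalso
          rw [Sym2.eq_iff] at he
          rcases he with ⟨hb, _⟩ | ⟨hb, _⟩
          · subst hb; exact h2 ih
          · subst hb; exact h3 ih
        · refine ih.trans (SimpleGraph.Adj.reachable ?_)
          refine ⟨⟨hbc.1.1, ?_⟩, hbc.2⟩
          rw [Function.update_of_ne he]
          exact hbc.1.2
    exact key x h1
  · by_contra h3
    apply h2
    have : Function.update ω s(x, y) false = ω := by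
      rw [Function.update_eq_self_iff]
      simpa using h3
    rw [mem_setB, this]
    exact h1

/-- Lemma B. -/
lemma lemB {G : SimpleGraph V} {S : Set V} {o x x' y : V} {ω : Sym2 V → Bool}
    (hy : ω ∉ setB (conn G S o y) s(x, y) false)
    (hx' : ω ∈ setB (conn G S o x') s(x', y) false)
    (hy' : ω ∉ setB (conn G S o y) s(x', y) false)
    (hadj : G.Adj x' y) (hop : ω s(x', y) = true) (hS' : x' ∈ S) (hyS : y ∈ S) : x = x' := by
  by_contra hne
  have key : ∀ z, (restr (og G (Function.update ω s(x', y) false)) S).Reachable o z →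
      (restr (og G (Function.update ω s(x, y) false)) S).Reachable o z := by
    intro z hz
    rw [SimpleGraph.reachable_iff_reflTransGen] at hz
    induction hz with
    | refl => exact SimpleGraph.Reachable.refl _
    | @tail b c hb hbc ih =>
      rw [← SimpleGraph.reachable_iff_reflTransGen] at hb
      have hc := hb.trans (SimpleGraph.Adj.reachable hbc)
      by_cases he : s(b, c) = s(x, y)
      · exfalso
        rw [Sym2.eq_iff] at he
        rcases he with ⟨_, h⟩ | ⟨h, _⟩
        · subst h; exact hy' hc
        · subst h; exact hy' hb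
      · refine ih.trans (SimpleGraph.Adj.reachable ?_)
        refine ⟨⟨hbc.1.1, ?_⟩, hbc.2⟩
        rw [Function.update_of_ne he]
        exact (og_upd_le G _ ω hbc.1).2
  apply hy
  have h1 := key x' hx'
  refine h1.trans (SimpleGraph.Adj.reachable ?_)
  refine ⟨⟨hadj, ?_⟩, hS', hyS⟩
  have he : s(x', y) ≠ s(x, y) := by
    intro he
    rw [Sym2.eq_iff] at he
    rcases he with ⟨h, _⟩ | ⟨h, h'⟩
    · exact hne h.symm
    · exact hne (by rw [← h', h])
  rw [Function.update_of_ne he]
  exact hop

/-- Hitting lemma. -/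
lemma hitting {G : SimpleGraph V} {S : Set V} {ω : Sym2 V → Bool} {e : Sym2 V} {x y : V}
    (π : G.Walk x y) {u t : V} (ht : t ∈ π.support)
    (q : (restr (og G (Function.update ω e false)) S).Walk u t) :
    ∃ z ∈ π.support, (restr (og G (cl π.edges.toFinset ω)) S).Reachable u z := by
  induction q with
  | nil => exact ⟨_, ht, SimpleGraph.Reachable.refl _⟩
  | @cons u u' t h q ih =>
    by_cases hu : u ∈ π.support
    · exact ⟨u, hu, SimpleGraph.Reachable.refl _⟩
    · obtain ⟨z, hz, hr⟩ := ih ht
      refine ⟨z, hz, SimpleGraph.Reachable.trans (SimpleGraph.Adj.reachable ?_) hr⟩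
      refine ⟨⟨h.1.1, ?_⟩, h.2⟩
      have hF : s(u, u') ∉ π.edges.toFinset := by
        rw [List.mem_toFinset]
        intro hmem
        exact hu (SimpleGraph.Walk.fst_mem_support_of_mem_edges π hmem)
      unfold cl
      rw [if_neg hF]
      exact (og_upd_le G _ ω h.1).2

/-- Lemma C. -/
lemma lemC {G : SimpleGraph V} {S : Finset V} {o x y : V} {ω : Sym2 V → Bool}
    (hadj : G.Adj x y) (ho : o ∈ S)
    (hx : ω ∈ setB (conn G (S : Set V) o x) s(x, y) false)
    (hy : ω ∈ setB (conn G (S : Set V) o y) s(x, y) false) :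
    ∃ π : G.Walk x y, π.IsPath ∧ 2 ≤ π.length ∧ π.length < S.card ∧
      ω ∈ allOpen π.edges.toFinset ∧
      ∃ z ∈ S, z ∈ π.support ∧ cl π.edges.toFinset ω ∈ conn G (S : Set V) o z := by
  set K := restr (og G (Function.update ω s(x, y) false)) (S : Set V) with hK
  have hle : K ≤ G := fun a b h => h.1.1
  have hxy : K.Reachable x y := SimpleGraph.Reachable.trans (SimpleGraph.Reachable.symm hx) hy
  obtain ⟨q, hq⟩ := hxy.exists_isPath
  have hxS : x ∈ S := mem_of_reachable (K := og G (Function.update ω s(x, y) false)) ho hx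
  have hsupp : ∀ v ∈ q.support, v ∈ S := by
    intro v hv
    have : K.Reachable x v := ⟨q.takeUntil v hv⟩
    exact mem_of_reachable (K := og G (Function.update ω s(x, y) false)) hxS this
  let π : G.Walk x y := q.mapLe hle
  have hπs : π.support = q.support := by simp [π]
  have hπe : π.edges = q.edges := by simp [π]
  have hπl : π.length = q.length := by simp [π]
  have hπp : π.IsPath := (SimpleGraph.Walk.isPath_mapLe hle).2 hq
  have hopen : ∀ e ∈ q.edges, (Function.update ω s(x, y) false) e = true := by
    intro e he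
    have := SimpleGraph.Walk.edges_subset_edgeSet q he
    induction e with | h a b =>
    rw [SimpleGraph.mem_edgeSet] at this
    exact this.1.2
  refine ⟨π, hπp, ?_, ?_, ?_, ?_⟩
  · rw [hπl]
    by_contra hlt
    push Not at hlt
    have hne : x ≠ y := hadj.ne
    cases q with
    | nil => exact hne rfl
    | cons h q' =>
      cases q' with
      | nil =>
        have := h.1.2
        simp at this
      | cons h2 q'' =>
        simp at hlt
  · rw [hπl]
    have h1 : q.support.toFinset ⊆ S := by
      intro v hv
      exact hsupp v (List.mem_toFinset.1 hv)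
    have h2 := Finset.card_le_card h1
    rw [List.toFinset_card_of_nodup hq.support_nodup, SimpleGraph.Walk.length_support] at h2
    omega
  · intro e he
    rw [List.mem_toFinset, hπe] at he
    have h1 := hopen e he
    by_cases h : e = s(x, y)
    · rw [h, Function.update_self] at h1
      exact absurd h1 (by simp)
    · rwa [Function.update_of_ne h] at h1
  · obtain ⟨r⟩ := hx
    obtain ⟨z, hz, hr⟩ := hitting (S := (S : Set V)) (ω := ω) (e := s(x, y)) π
      (SimpleGraph.Walk.start_mem_support π) r
    refine ⟨z, ?_, hz, hr⟩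
    exact hsupp z (by rw [← hπs]; exact hz)

end

end Vale.Agent.P165
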