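import Vale.Agent.Lib.P165.Box

/-!
# Products of finitely many graphs
-/

namespace Vale.Agent.P165

open SimpleGraph

section cp
variable {ι : Type*} {W : ι → Type*} {H : ∀ i, SimpleGraph (W i)}

open Classical in
lemma cp_adj_iff {x y : ∀ i, W i} :
    (cartesianProduct H).Adj x y ↔ ∃ i, ∃ u, (H i).Adj (x i) u ∧ y = Function.update x i u := by
  constructor
  · rintro ⟨i, h1, h2⟩
    refine ⟨i, y i, h1, ?_⟩
    funext j
    by_cases hj : j = i
    · subst hj; simp
    · rw [Function.update_of_ne hj]; exact (h2 j hj).symm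
  · rintro ⟨i, u, h1, rfl⟩
    refine ⟨i, by simpa using h1, ?_⟩
    intro j hj
    rw [Function.update_of_ne hj]

open Classical in
/-- neighbours in direction `i` -/
noncomputable def nbi (hH : ∀ i, LF (H i)) (i : ι) (x : ∀ i, W i) : Finset (∀ i, W i) :=
  (nb (hH i) (x i)).image (fun u => Function.update x i u)

open Classical in
lemma mem_nbi {hH : ∀ i, LF (H i)} {i : ι} {x y : ∀ i, W i} :
    y ∈ nbi hH i x ↔ ∃ u, (H i).Adj (x i) u ∧ y = Function.update x i u := by
  unfold nbi
  rw [Finset.mem_image]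
  constructor
  · rintro ⟨u, hu, rfl⟩; exact ⟨u, mem_nb.1 hu, rfl⟩
  · rintro ⟨u, hu, rfl⟩; exact ⟨u, mem_nb.2 hu, rfl⟩

lemma card_nbi {hH : ∀ i, LF (H i)} {i : ι} {x : ∀ i, W i} :
    (nbi hH i x).card = (nb (hH i) (x i)).card := by
  classical
  unfold nbi
  apply Finset.card_image_of_injective
  intro u v h
  have := congrFun h i
  simpa using this

lemma LF_cp [Finite ι] (hH : ∀ i, LF (H i)) : LF (cartesianProduct H) := by
  classical
  intro x
  apply (Set.finite_iUnion fun i => (nbi hH i x).finite_toSet).subset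
  intro y hy
  rw [SimpleGraph.mem_neighborSet, cp_adj_iff] at hy
  obtain ⟨i, u, hu, rfl⟩ := hy
  rw [Set.mem_iUnion]
  exact ⟨i, Finset.mem_coe.2 (mem_nbi.2 ⟨u, hu, rfl⟩)⟩

lemma card_nb_cp [Fintype ι] (hH : ∀ i, LF (H i)) (hf : LF (cartesianProduct H)) (x : ∀ i, W i) :
    (nb hf x).card = ∑ i, (nb (hH i) (x i)).card := by
  classical
  have h1 : nb hf x = Finset.univ.biUnion (fun i => nbi hH i x) := by
    ext y
    rw [mem_nb, cp_adj_iff, Finset.mem_biUnion]
    simp only [Finset.mem_univ, true_and, mem_nbi]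
  rw [h1, Finset.card_biUnion]
  · exact Finset.sum_congr rfl fun i _ => card_nbi
  · intro i _ j _ hij
    change Disjoint (nbi hH i x) (nbi hH j x)
    rw [Finset.disjoint_left]
    intro y hy hy'
    rw [mem_nbi] at hy hy'
    obtain ⟨u, hu, rfl⟩ := hy
    obtain ⟨v, hv, h⟩ := hy'
    have h2 := congrFun h i
    rw [Function.update_self, Function.update_of_ne hij] at h2
    rw [h2] at hu
    exact hu.ne rfl

open Classical in
lemma reach_update {x : ∀ i, W i} {i : ι} {u : W i} (h : (H i).Reachable (x i) u) :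
    (cartesianProduct H).Reachable x (Function.update x i u) := by
  rw [SimpleGraph.reachable_iff_reflTransGen] at h
  induction h with
  | refl => rw [Function.update_eq_self]
  | @tail b c _ hbc ih =>
    refine ih.trans (SimpleGraph.Adj.reachable ?_)
    rw [cp_adj_iff]
    refine ⟨i, c, by simpa using hbc, ?_⟩
    rw [Function.update_idem]

lemma connected_cp [Fintype ι] (hH : ∀ i, (H i).Connected) : (cartesianProduct H).Connected := by
  classical
  have : ∀ i, Nonempty (W i) := fun i => (hH i).nonempty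
  have : Nonempty (∀ i, W i) := inferInstance
  refine SimpleGraph.Connected.mk ?_
  intro x y
  have key : ∀ s : Finset ι, (cartesianProduct H).Reachable x (s.piecewise y x) := by
    intro s
    induction s using Finset.induction_on with
    | empty => rw [Finset.piecewise_empty]
    | insert i s _ ih =>
      rw [Finset.piecewise_insert]
      exact ih.trans (reach_update ((hH i).preconnected _ _))
  have := key Finset.univ
  rwa [Finset.piecewise_univ] at this

lemma QT_cp [Fintype ι] (hH : ∀ i, QT (H i)) : QT (cartesianProduct H) := by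
  classical
  choose F hF using hH
  refine ⟨Fintype.piFinset F, ?_⟩
  intro x
  choose φ hφ using fun i => hF i (x i)
  refine ⟨⟨Equiv.piCongrRight (fun i => (φ i).toEquiv), ?_⟩, ?_⟩
  · intro a b
    have h1 : ∀ i, (H i).Adj ((φ i).toEquiv (a i)) ((φ i).toEquiv (b i)) ↔ (H i).Adj (a i) (b i) :=
      fun i => (φ i).map_adj_iff
    constructor
    · rintro ⟨i, h2, h3⟩
      refine ⟨i, (h1 i).1 h2, fun j hj => ?_⟩
      have := h3 j hj
      exact (φ j).toEquiv.injective this
    · rintro ⟨i, h2, h3⟩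
      refine ⟨i, (h1 i).2 h2, fun j hj => ?_⟩
      simp only [Equiv.piCongrRight_apply, Pi.map_apply]
      rw [h3 j hj]
  · rw [Fintype.mem_piFinset]
    intro i
    exact hφ i

end cp

section main
variable {V : Type*} {G : SimpleGraph V} {ι : Type*} {W : ι → Type*} {H : ∀ i, SimpleGraph (W i)}

/-- direction-labelled neighbours in `G □ ∏ H` -/
noncomputable def Nl (hG : LF G) (hH : ∀ i, LF (H i)) :
    Option ι → V × (∀ i, W i) → Finset (V × (∀ i, W i)) := by
  classical exact fun c x => match c with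
    | none => (nb hG x.1).image (fun v => (v, x.2))
    | some i => (nbi hH i x.2).image (fun y => (x.1, y))

lemma mem_Nl_none {hG : LF G} {hH : ∀ i, LF (H i)} {x y : V × (∀ i, W i)} :
    y ∈ Nl hG hH none x ↔ ∃ v', G.Adj x.1 v' ∧ y = (v', x.2) := by
  unfold Nl
  simp only [Finset.mem_image, mem_nb]
  constructor
  · rintro ⟨v, h, rfl⟩; exact ⟨v, h, rfl⟩
  · rintro ⟨v, h, rfl⟩; exact ⟨v, h, rfl⟩

open Classical in
lemma mem_Nl_some {hG : LF G} {hH : ∀ i, LF (H i)} {i : ι} {x y : V × (∀ i, W i)} :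
    y ∈ Nl hG hH (some i) x ↔
      ∃ u, (H i).Adj (x.2 i) u ∧ y = (x.1, Function.update x.2 i u) := by
  unfold Nl
  simp only [Finset.mem_image, mem_nbi]
  constructor
  · rintro ⟨v, ⟨u, hu, rfl⟩, rfl⟩; exact ⟨u, hu, rfl⟩
  · rintro ⟨u, hu, rfl⟩; exact ⟨_, ⟨u, hu, rfl⟩, rfl⟩

lemma card_Nl_none {hG : LF G} {hH : ∀ i, LF (H i)} {x : V × (∀ i, W i)} :
    (Nl hG hH none x).card ≤ (nb hG x.1).card := by
  classical
  unfold Nl
  exact Finset.card_image_le

lemma card_Nl_some {hG : LF G} {hH : ∀ i, LF (H i)} {i : ι} {x : V × (∀ i, W i)} :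
    (Nl hG hH (some i) x).card ≤ (nb (hH i) (x.2 i)).card := by
  classical
  unfold Nl
  refine Finset.card_image_le.trans ?_
  rw [card_nbi]

/-- agreement of coordinates -/
def Rl : Option ι → V × (∀ i, W i) → V × (∀ i, W i) → Prop
  | none => fun x y => x.1 = y.1
  | some i => fun x y => x.2 i = y.2 i

lemma box_closed_walks [Fintype ι] (hG : LF G) (hH : ∀ i, LF (H i))
    (hf : LF (G □ cartesianProduct H)) {Δ : ℕ} (hGd : ∀ v, (nb hG v).card ≤ Δ)
    (hHd : ∀ i w, (nb (hH i) w).card ≤ Δ) (z : V × (∀ i, W i)) (n : ℕ) :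
    wseq hf z n z ≤ (Fintype.card (Option ι) : ℝ) ^ (n / 2) * ((n / 2 : ℕ) : ℝ) ^ n * (Δ : ℝ) ^ n := by
  classical
  apply closed_walks hf (N := Nl hG hH) (R := Rl)
  · rintro ⟨v, w⟩ F hF
    have hsub : nb hf (v, w) ⊆ Finset.univ.biUnion (fun c => Nl hG hH c (v, w)) := by
      rintro ⟨v', w'⟩ h
      rw [mem_nb, SimpleGraph.boxProd_adj] at h
      simp only at h
      rw [Finset.mem_biUnion]
      rcases h with ⟨h1, h2⟩ | ⟨h1, h2⟩
      · refine ⟨none, Finset.mem_univ _, ?_⟩
        subst h2
        exact mem_Nl_none.2 ⟨v', h1, rfl⟩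
      · subst h2
        rw [cp_adj_iff] at h1
        obtain ⟨i, u, hu, rfl⟩ := h1
        refine ⟨some i, Finset.mem_univ _, ?_⟩
        exact mem_Nl_some.2 ⟨u, hu, rfl⟩
    exact (Finset.sum_le_sum_of_subset_of_nonneg hsub fun y _ _ => hF y).trans
      (sum_biUnion_le _ _ F hF)
  · intro c x
    cases c with
    | none => exact card_Nl_none.trans (hGd _)
    | some i => exact card_Nl_some.trans (hHd i _)
  · intro c
    cases c with
    | none => exact ⟨fun _ => rfl, fun h => Eq.symm h, fun h h' => Eq.trans h h'⟩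
    | some i => exact ⟨fun _ => rfl, fun h => Eq.symm h, fun h h' => Eq.trans h h'⟩
  · intro c x y hy hR
    cases c with
    | none =>
      obtain ⟨v', hv', rfl⟩ := mem_Nl_none.1 hy
      simp only [Rl] at hR
      rw [hR] at hv'
      exact hv'.ne rfl
    | some i =>
      obtain ⟨u, hu, rfl⟩ := mem_Nl_some.1 hy
      simp only [Rl] at hR
      rw [Function.update_self] at hR
      rw [hR] at hu
      exact hu.ne rfl
  · intro c c' x y hcc hy
    cases c' with
    | none =>
      obtain ⟨v', hv', rfl⟩ := mem_Nl_none.1 hy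
      cases c with
      | none => exact absurd rfl hcc
      | some j => rfl
    | some i =>
      obtain ⟨u, hu, rfl⟩ := mem_Nl_some.1 hy
      cases c with
      | none => rfl
      | some j =>
        have hij : j ≠ i := by
          rintro rfl; exact hcc rfl
        change x.2 j = Function.update x.2 i u j
        rw [Function.update_of_ne hij]

end main

end Vale.Agent.P165
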