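import Vale.Agent.Lib.P165.Transfer
import Vale.Agent.Lib.P165.Prod
import Vale.Agent.Lib.P165.Abstract

/-!
# Main theorem
-/

open MeasureTheory ProbabilityTheory SimpleGraph

namespace Vale.Agent.P165

universe u v w

theorem pc_lt_pu_of_num {V : Type*} [Infinite V] {G : SimpleGraph V} {hf : LF G} {D : ℕ}
    {g C t : ℝ} (h : Num hf D g C t) (hbig : (2 ^ 30 * C + 2 ^ 31 * C / g ^ 3) / D ≤ g / 4)
    (hconn : G.Connected) (hqt : QT G) : pc G < pu G := by
  have := countable_of_connected hf hconn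
  obtain ⟨p1, h0, h1, h2, h3⟩ := h.percolates hbig
  obtain ⟨o⟩ := hconn.nonempty
  have h4 : pc G ≤ p1 := by
    have hp : p1 ∈ unitInterval := ⟨h0.le, h2.le⟩
    apply pc_le hp (o := o)
    have h5 := h3 o
    have h6 : pr p1 = ⟨p1, hp⟩ := by
      apply Subtype.ext
      exact coe_pr h0.le h2.le
    rwa [h6] at h5
  have h5 : t ≤ pu G := le_pu hf hconn fun p hp => h.nonunique hconn hqt p hp
  linarith

lemma LF_of_regular {V : Type*} {G : SimpleGraph V} {d : ℕ} (h : RegularOfDegree G d) : LF G :=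
  fun v => Set.finite_of_encard_eq_coe (h v)

lemma card_nb_of_regular {V : Type*} {G : SimpleGraph V} {d : ℕ} (h : RegularOfDegree G d)
    (hf : LF G) (v : V) : (nb hf v).card = d := by
  have h1 := h v
  rw [(hf v).encard_eq_coe_toFinset_card] at h1
  exact_mod_cast h1

lemma bddBelow_hV {V : Type*} (G : SimpleGraph V) : BddBelow {r : ℝ | ∃ A : Finset V, A.Nonempty ∧
    r = ((outerBoundary G (A : Set V)).ncard : ℝ) / (A.card : ℝ)} := by
  refine ⟨0, ?_⟩
  rintro r ⟨A, _, rfl⟩
  positivity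

lemma VExp_of_hV {V : Type*} {G : SimpleGraph V} (hf : LF G) {h : ℝ} (hh : h ≤ hV G) :
    VExp hf h := by
  intro A
  rcases A.eq_empty_or_nonempty with rfl | hA
  · simp
  · have h1 : hV G ≤ ((outerBoundary G (A : Set V)).ncard : ℝ) / (A.card : ℝ) :=
      csInf_le (bddBelow_hV G) ⟨A, hA, rfl⟩
    have h2 : (0 : ℝ) < A.card := by exact_mod_cast hA.card_pos
    have h3 := hh.trans h1
    rw [le_div_iff₀ h2, ncard_outerBoundary hf] at h3
    exact h3

lemma le_hV {V : Type*} [Nonempty V] {G : SimpleGraph V} {hf : LF G} {h : ℝ} (hexp : VExp hf h) :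
    h ≤ hV G := by
  unfold hV
  apply le_csInf
  · obtain ⟨v⟩ := ‹Nonempty V›
    exact ⟨_, {v}, Finset.singleton_nonempty v, rfl⟩
  · rintro r ⟨A, hA, rfl⟩
    have h2 : (0 : ℝ) < A.card := by exact_mod_cast hA.card_pos
    rw [le_div_iff₀ h2, ncard_outerBoundary hf]
    exact hexp A

lemma degree_pos_of_VExp {V : Type*} [Nonempty V] {G : SimpleGraph V} {hf : LF G} {h : ℝ}
    (hh : 0 < h) (hexp : VExp hf h) {d : ℕ} (hreg : ∀ v, (nb hf v).card = d) : 0 < d := by
  classical
  obtain ⟨v⟩ := ‹Nonempty V›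
  by_contra hcon
  have hd : d = 0 := by omega
  have h1 := hexp {v}
  have h2 := obF_card_le hf ({v} : Finset V)
  rw [Finset.sum_singleton] at h2
  have h3 : (nb hf v \ {v}).card ≤ (nb hf v).card := Finset.card_le_card Finset.sdiff_subset
  rw [hreg, hd] at h3
  have h4 : (obF hf {v}).card = 0 := by omega
  rw [h4] at h1
  simp at h1
  linarith

theorem product_main (Δ : ℕ) (h : ℝ) (hh : 0 < h) :
    ∃ k₀ : ℕ, ∀ (V : Type u) (G : SimpleGraph V) (ι : Type v) [Fintype ι] (W : ι → Type w)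
      (H : ∀ i, SimpleGraph (W i)),
      Infinite V → G.Connected → QuasiTransitive G → (∃ d ≤ Δ, RegularOfDegree G d) → h ≤ hV G →
      (∀ i, (H i).Connected ∧ QuasiTransitive (H i) ∧
        ∃ e, 1 ≤ e ∧ e ≤ Δ ∧ RegularOfDegree (H i) e) →
      k₀ ≤ Fintype.card ι →
      Infinite (V × ∀ i, W i) ∧ (G □ cartesianProduct H).Connected ∧
        LocallyFinite (G □ cartesianProduct H) ∧ QuasiTransitive (G □ cartesianProduct H) ∧
        Nonamenable (G □ cartesianProduct H) ∧
        pc (G □ cartesianProduct H) < pu (G □ cartesianProduct H) := by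
  classical
  set Δ' : ℕ := max Δ 1 with hΔ'
  have hΔ1 : (1 : ℝ) ≤ Δ' := by
    have : 1 ≤ Δ' := le_max_right _ _
    exact_mod_cast this
  set g : ℝ := h ^ 2 / (8 * Δ') with hg
  have hg0 : 0 < g := by positivity
  set C : ℝ := (12 * Δ') ^ 24 with hC
  have hC1 : 1 ≤ C := one_le_pow₀ (by linarith)
  set M : ℝ := 4 * (2 ^ 30 * C + 2 ^ 31 * C / g ^ 3) / g with hM
  have hM0 : 0 ≤ M := by positivity
  obtain ⟨k₀, hk₀⟩ := exists_nat_ge (M + 4 + (2 + g))
  refine ⟨k₀, ?_⟩
  intro V G ι _ W H hinf hconn hqt hreg hhV hH hk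
  obtain ⟨d, hdΔ, hd⟩ := hreg
  choose hHc hHqt e he1 heΔ hHreg using hH
  have hG : LF G := LF_of_regular hd
  have hHf : ∀ i, LF (H i) := fun i => LF_of_regular (hHreg i)
  have hGd := card_nb_of_regular hd hG
  have hHd : ∀ i w, (nb (hHf i) w).card = e i := fun i => card_nb_of_regular (hHreg i) (hHf i)
  have hexpG : VExp hG h := VExp_of_hV hG hhV
  have hne : Nonempty V := hconn.nonempty
  have hWne : ∀ i, Nonempty (W i) := fun i => (hHc i).nonempty
  have hWne' : Nonempty (∀ i, W i) := inferInstance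
  have hd0 : 0 < d := degree_pos_of_VExp hh hexpG hGd
  have hcp : LF (cartesianProduct H) := LF_cp hHf
  have hP : LF (G □ cartesianProduct H) := LF_box hG hcp
  have hPinf : Infinite (V × ∀ i, W i) := Prod.infinite_of_left
  have hPconn : (G □ cartesianProduct H).Connected := hconn.boxProd (connected_cp hHc)
  have hPqt : QT (G □ cartesianProduct H) := QT_box hqt (QT_cp hHqt)
  have hPexp : VExp hP h := box_VExp hG hexpG hP
  refine ⟨hPinf, hPconn, hP, hPqt, hh.trans_le (le_hV hPexp), ?_⟩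
  set D : ℕ := d + ∑ i, e i with hD
  have hcard : Fintype.card (Option ι) ≤ D := by
    rw [Fintype.card_option]
    have h1 : Fintype.card ι ≤ ∑ i, e i := by
      calc Fintype.card ι = ∑ _i : ι, 1 := by simp
        _ ≤ ∑ i, e i := Finset.sum_le_sum fun i _ => he1 i
    omega
  have hDbig : M + 4 + (2 + g) ≤ (D : ℝ) := by
    refine hk₀.trans ?_
    have h1 : k₀ ≤ D := by
      rw [Fintype.card_option] at hcard
      omega
    exact_mod_cast h1
  have hDpos : (0 : ℝ) < D := by linarith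
  have hPreg : ∀ x, (nb hP x).card = D := by
    rintro ⟨x, y⟩
    rw [card_nb_box hG hcp, hGd, card_nb_cp hHf]
    simp only [hHd]
    rfl
  have hspec : SpecBd hP (D - g) := by
    have h1 := box_SpecBd hG hcp hP hd0 hGd (e := ∑ i, e i)
      (by intro y; rw [card_nb_cp hHf]; simp only [hHd]; exact le_refl _) hh hexpG
    refine h1.mono ?_
    have h2 : g ≤ h ^ 2 / (8 * d) := by
      rw [hg]
      apply div_le_div_of_nonneg_left (sq_nonneg h) (by positivity)
      have : d ≤ Δ' := hdΔ.trans (le_max_left _ _)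
      have h3 : (d : ℝ) ≤ Δ' := by exact_mod_cast this
      linarith
    rw [hD]
    push_cast
    linarith
  have hcw : ∀ z, ∀ n ≤ 24, wseq hP z n z ≤ C * (D : ℝ) ^ (n / 2) := by
    intro z n hn
    have h1 := box_closed_walks hG hHf hP (Δ := Δ')
      (fun v => by rw [hGd]; exact hdΔ.trans (le_max_left _ _))
      (fun i w => by rw [hHd]; exact (heΔ i).trans (le_max_left _ _)) z n
    refine h1.trans ?_
    have h2 : (Fintype.card (Option ι) : ℝ) ^ (n / 2) ≤ (D : ℝ) ^ (n / 2) := by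
      apply pow_le_pow_left₀ (by positivity)
      exact_mod_cast hcard
    have h3 : ((n / 2 : ℕ) : ℝ) ^ n * (Δ' : ℝ) ^ n ≤ C := by
      rw [← mul_pow, hC]
      have h4 : ((n / 2 : ℕ) : ℝ) ≤ 12 := by
        have : n / 2 ≤ 12 := by omega
        exact_mod_cast this
      calc (((n / 2 : ℕ) : ℝ) * (Δ' : ℝ)) ^ n ≤ (12 * (Δ' : ℝ)) ^ n := by
            apply pow_le_pow_left₀ (by positivity)
            exact mul_le_mul_of_nonneg_right h4 (by positivity)
        _ ≤ (12 * (Δ' : ℝ)) ^ 24 := pow_le_pow_right₀ (by linarith) hn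
    rw [mul_assoc, mul_comm]
    exact mul_le_mul h3 h2 (by positivity) (by positivity)
  have hnum : Num hP D g C (1 / (D - 1 - g / 2)) :=
    { hreg := hPreg
      hg := hg0
      hC := hC1
      hD4 := by linarith
      hDg := by linarith
      spec := hspec
      cw := hcw
      ht := rfl }
  apply pc_lt_pu_of_num hnum _ hPconn hPqt
  rw [div_le_iff₀ hDpos]
  have h1 : M ≤ D := by linarith
  have h2 := mul_le_mul_of_nonneg_left h1 (by positivity : 0 ≤ g / 4)
  have h3 : g / 4 * M = 2 ^ 30 * C + 2 ^ 31 * C / g ^ 3 := by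
    rw [hM]; field_simp
  linarith

end Vale.Agent.P165
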