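import Vale.Agent.Lib.P165.Defs2
import Vale.Agent.Lib.P165.Main

/-!
# General criterion
-/

open MeasureTheory ProbabilityTheory SimpleGraph

namespace Vale.Agent.P165

universe u

variable {V : Type u}

lemma wseq_le_walks {G : SimpleGraph V} (hf : LF G) (z : V) (n : ℕ) :
    ∀ x, wseq hf z n x ≤ ({w : G.Walk x z | w.length = n}.ncard : ℝ) := by
  classical
  induction n with
  | zero =>
    intro x
    change Finsupp.single z (1 : ℝ) x ≤ _
    rw [Finsupp.single_apply]
    split_ifs with h
    · subst h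
      have h1 : {w : G.Walk z z | w.length = 0} = {SimpleGraph.Walk.nil} := by
        ext w
        rw [Set.mem_singleton_iff, Set.mem_ofPred_eq]
        constructor
        · intro hw
          cases w with
          | nil => rfl
          | cons _ _ => simp at hw
        · rintro rfl; rfl
      rw [h1, Set.ncard_singleton]; simp
    · positivity
  | succ n ih =>
    intro x
    change adjOp hf (wseq hf z n) x ≤ _
    rw [adjOp_apply]
    refine (Finset.sum_le_sum fun y _ => ih y).trans ?_
    have hfin : ∀ m x, {w : G.Walk x z | w.length = m}.Finite := fun m x => finite_walks hf m x z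
    have h1 : ∑ y ∈ nb hf x, {w : G.Walk y z | w.length = n}.ncard =
        ((nb hf x).attach.biUnion (fun y => (hfin n y.1).toFinset.image
          (fun w => SimpleGraph.Walk.cons (mem_nb.1 y.2) w))).card := by
      rw [Finset.card_biUnion]
      · rw [← Finset.sum_attach (nb hf x)]
        apply Finset.sum_congr rfl
        intro y _
        rw [Finset.card_image_of_injective, Set.ncard_eq_toFinset_card _ (hfin n y.1)]
        intro a b hab
        simpa using hab
      · intro a _ b _ hab
        change Disjoint _ _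
        rw [Finset.disjoint_left]
        intro w hw hw'
        rw [Finset.mem_image] at hw hw'
        obtain ⟨w1, _, rfl⟩ := hw
        obtain ⟨w2, _, h2⟩ := hw'
        apply hab
        have h3 := congrArg (fun w => SimpleGraph.Walk.getVert w 1) h2
        simp at h3
        exact h3.symm
    have h2 : ∑ y ∈ nb hf x, {w : G.Walk y z | w.length = n}.ncard ≤
        {w : G.Walk x z | w.length = n + 1}.ncard := by
      rw [h1, Set.ncard_eq_toFinset_card _ (hfin (n + 1) x)]
      apply Finset.card_le_card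
      intro w hw
      rw [Finset.mem_biUnion] at hw
      obtain ⟨y, _, hw⟩ := hw
      rw [Finset.mem_image] at hw
      obtain ⟨w', hw', rfl⟩ := hw
      rw [Set.Finite.mem_toFinset, Set.mem_ofPred_eq] at hw' ⊢
      rw [SimpleGraph.Walk.length_cons, hw']
    exact_mod_cast h2

lemma specBd_of_form {G : SimpleGraph V} (hf : LF G) {L : ℝ} (h : AdjacencyFormLE G L) :
    SpecBd hf L := by
  classical
  intro f _
  rw [ip_adj_eq, ip_self_eq]
  refine le_trans (le_of_eq ?_) (h f)
  apply Finset.sum_congr rfl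
  intro x _
  rw [← Finset.sum_filter]
  symm
  have h2 : f.support.filter (fun y => G.Adj x y) = f.support ∩ nb hf x := by
    ext y
    rw [Finset.mem_filter, Finset.mem_inter, mem_nb]
  have h1 : ∑ y ∈ f.support.filter (fun y => G.Adj x y), f x * f y =
      ∑ y ∈ f.support ∩ nb hf x, f x * f y := by rw [h2]
  convert h1.trans _ using 1
  apply Finset.sum_subset Finset.inter_subset_right
  intro y hy hy'
  rw [Finset.mem_inter, not_and] at hy'
  have : y ∉ f.support := fun hc => hy' hc hy
  rw [Finsupp.notMem_support_iff.1 this, mul_zero]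

theorem criterion_main (V : Type u) (G : SimpleGraph V) (D : ℕ) (g C : ℝ)
    (hinf : Infinite V) (hconn : G.Connected) (hqt : QuasiTransitive G)
    (hreg : RegularOfDegree G D) (hg : 0 < g) (hg1 : g ≤ 1) (hC : 1 ≤ C)
    (hspec : SpecBd (LF_of_regular hreg) (D - g))
    (hwalks : ∀ v, ∀ n ≤ 24, (closedWalks G v n : ℝ) ≤ C * (D : ℝ) ^ (n / 2))
    (hlarge : 2 ^ 34 * C ≤ D * g ^ 4) : pc G < pu G := by
  have hg4 : g ^ 4 ≤ 1 := pow_le_one₀ hg.le hg1
  have hg3 : g ^ 3 ≤ 1 := pow_le_one₀ hg.le hg1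
  have hDn : (0 : ℝ) ≤ D := Nat.cast_nonneg D
  have hD : (2 : ℝ) ^ 34 ≤ D := by nlinarith
  have hDp : (0 : ℝ) < D := by linarith [show (0 : ℝ) < 2 ^ 34 by norm_num]
  have hnum : Num (LF_of_regular hreg) D g C (1 / (D - 1 - g / 2)) :=
    { hreg := card_nb_of_regular hreg _
      hg := hg
      hC := hC
      hD4 := le_trans (by norm_num) hD
      hDg := by linarith [show (4 : ℝ) ≤ 2 ^ 34 by norm_num]
      spec := hspec
      cw := fun z n hn => (wseq_le_walks _ z n z).trans (hwalks z n hn)
      ht := rfl }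
  apply pc_lt_pu_of_num hnum _ hconn hqt
  rw [div_le_iff₀ hDp]
  have h1 : 2 ^ 30 * C + 2 ^ 31 * C / g ^ 3 = (2 ^ 30 * C * g ^ 3 + 2 ^ 31 * C) / g ^ 3 := by
    field_simp
  rw [h1, div_le_iff₀ (by positivity)]
  have h2 : g / 4 * D * g ^ 3 = (D * g ^ 4) / 4 := by ring
  rw [h2]
  have h3 : 2 ^ 30 * C * g ^ 3 ≤ 2 ^ 30 * C := by
    have : 2 ^ 30 * C * g ^ 3 ≤ 2 ^ 30 * C * 1 := mul_le_mul_of_nonneg_left hg3 (by positivity)
    linarith
  nlinarith

theorem isoperimetric_main (V : Type u) (G : SimpleGraph V) (D : ℕ) (h C : ℝ)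
    (hinf : Infinite V) (hconn : G.Connected) (hqt : QuasiTransitive G)
    (hreg : RegularOfDegree G D) (hh : 0 < h) (hC : 1 ≤ C) (hV' : h ≤ hV G)
    (hwalks : ∀ v, ∀ n ≤ 24, (closedWalks G v n : ℝ) ≤ C * (D : ℝ) ^ (n / 2))
    (hD : 2 ^ 38 * C ≤ D) (hlarge : 2 ^ 46 * C * (D : ℝ) ^ 3 ≤ h ^ 8) : pc G < pu G := by
  have hf := LF_of_regular hreg
  have hne : Nonempty V := hconn.nonempty
  have hexp : VExp hf h := VExp_of_hV hf hV'
  have hcard := card_nb_of_regular hreg hf
  have hD0 : 0 < D := degree_pos_of_VExp hh hexp hcard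
  have hDp : (0 : ℝ) < D := by exact_mod_cast hD0
  set k := min h (2 * Real.sqrt D) with hk
  have hsq : 0 < Real.sqrt D := Real.sqrt_pos.2 hDp
  have hk0 : 0 < k := lt_min hh (by positivity)
  have hkh : k ≤ h := min_le_left _ _
  have hk2 : k ^ 2 ≤ 4 * D := by
    have h1 : k ≤ 2 * Real.sqrt D := min_le_right _ _
    have h2 := pow_le_pow_left₀ hk0.le h1 2
    rw [mul_pow, Real.sq_sqrt hDp.le] at h2
    linarith
  have hexpk : VExp hf k := fun A => (mul_le_mul_of_nonneg_right hkh (by positivity)).trans (hexp A)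
  apply criterion_main V G D (k ^ 2 / (8 * D)) C hinf hconn hqt hreg (by positivity) _ hC
    (specBd_cheeger _ hcard hD0 hk0 hexpk) hwalks
  · have h3 : (D : ℝ) * (k ^ 2 / (8 * D)) ^ 4 = k ^ 8 / (2 ^ 12 * (D : ℝ) ^ 3) := by
      field_simp; norm_num
    rw [h3, le_div_iff₀ (by positivity)]
    calc 2 ^ 34 * C * (2 ^ 12 * (D : ℝ) ^ 3) = 2 ^ 46 * C * (D : ℝ) ^ 3 := by ring
      _ ≤ k ^ 8 := by
        rcases min_choice h (2 * Real.sqrt D) with h4 | h4
        · rw [hk, h4]; exact hlarge
        · rw [hk, h4, mul_pow, show (Real.sqrt D) ^ 8 = ((Real.sqrt D) ^ 2) ^ 4 by ring,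
            Real.sq_sqrt hDp.le]
          have h5 : (0 : ℝ) ≤ (D : ℝ) ^ 3 := by positivity
          have h6 := mul_le_mul_of_nonneg_right hD h5
          nlinarith
  · rw [div_le_one (by positivity)]
    linarith

end Vale.Agent.P165
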