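import Vale.Agent.Lib.P165.PhiBound

/-!
# The Duminil-Copin–Tassion differential inequality
-/

open MeasureTheory ProbabilityTheory

namespace Vale.Agent.P165

variable {V : Type*}

/-- neighbours as a finset -/
noncomputable def nb {G : SimpleGraph V} (hf : LF G) (v : V) : Finset V := (hf v).toFinset

lemma mem_nb {G : SimpleGraph V} {hf : LF G} {v w : V} : w ∈ nb hf v ↔ G.Adj v w := by
  simp [nb]

/-- open graph with the edges touching `Λ` -/
def hg (G : SimpleGraph V) (Λ : Set V) (ω : Sym2 V → Bool) : SimpleGraph V where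
  Adj x y := (og G ω).Adj x y ∧ (x ∈ Λ ∨ y ∈ Λ)
  symm := ⟨fun _ _ h => ⟨h.1.symm, h.2.symm⟩⟩
  loopless := ⟨fun x h => (og G ω).loopless.irrefl x h.1⟩

/-- `x` is connected to the outside of `Λ` -/
def esc (G : SimpleGraph V) (Λ : Set V) (x : V) : Set (Sym2 V → Bool) :=
  {ω | ∃ y ∉ Λ, (hg G Λ ω).Reachable x y}

/-- the set of vertices of `Λ` not connected to the outside is `S` -/
def sev (G : SimpleGraph V) (Λ : Set V) (S : Set V) : Set (Sym2 V → Bool) :=
  {ω | ∀ x ∈ Λ, (x ∈ S ↔ ω ∉ esc G Λ x)}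

lemma hg_mono {G : SimpleGraph V} {Λ : Set V} {ω ω' : Sym2 V → Bool} (h : og G ω ≤ og G ω') :
    hg G Λ ω ≤ hg G Λ ω' := fun _ _ h' => ⟨h h'.1, h'.2⟩

section
variable [DecidableEq V]

/-- the edges touching `Λ` are in this set -/
noncomputable def Tset {G : SimpleGraph V} (hf : LF G) (Λ : Finset V) : Finset (Sym2 V) :=
  (Λ ∪ Λ.biUnion (nb hf)).sym2

lemma mem_Tset {G : SimpleGraph V} (hf : LF G) {Λ : Finset V} {x y : V} (h : G.Adj x y)
    (hx : x ∈ Λ ∨ y ∈ Λ) : s(x, y) ∈ Tset hf Λ := by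
  unfold Tset
  rw [Finset.mk_mem_sym2_iff]
  simp only [Finset.mem_union, Finset.mem_biUnion, mem_nb]
  rcases hx with hx | hx
  · exact ⟨Or.inl hx, Or.inr ⟨x, hx, h⟩⟩
  · exact ⟨Or.inr ⟨y, hx, h.symm⟩, Or.inl hx⟩

lemma depOn_esc {G : SimpleGraph V} (hf : LF G) (Λ : Finset V) (x : V) :
    DepOn (esc G (Λ : Set V) x) (Tset hf Λ : Set (Sym2 V)) := by
  intro ω ω' h
  have : hg G (Λ : Set V) ω = hg G (Λ : Set V) ω' := by
    ext a b
    constructor
    · rintro ⟨⟨h1, h2⟩, h3⟩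
      refine ⟨⟨h1, ?_⟩, h3⟩
      rw [← h s(a, b) (mem_Tset hf h1 h3)]
      exact h2
    · rintro ⟨⟨h1, h2⟩, h3⟩
      refine ⟨⟨h1, ?_⟩, h3⟩
      rw [h s(a, b) (mem_Tset hf h1 h3)]
      exact h2
  unfold esc
  simp only [Set.mem_ofPred_eq, this]

omit [DecidableEq V] in
lemma sev_closed {G : SimpleGraph V} {Λ S : Set V} (hS : S ⊆ Λ) {ω : Sym2 V → Bool}
    (h : ω ∈ sev G Λ S) {u v : V} (hu : u ∈ S) (hv : v ∉ S) (hadj : G.Adj u v) :
    ω s(u, v) = false := by
  by_contra hc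
  have hc' : ω s(u, v) = true := by simpa using hc
  have huv : (hg G Λ ω).Adj u v := ⟨⟨hadj, hc'⟩, Or.inl (hS hu)⟩
  have h1 := (h u (hS hu)).1 hu
  apply h1
  by_cases hvΛ : v ∈ Λ
  · have h2 : ω ∈ esc G Λ v := by
      by_contra h3
      exact hv ((h v hvΛ).2 h3)
    obtain ⟨y, hy, hr⟩ := h2
    exact ⟨y, hy, (SimpleGraph.Adj.reachable huv).trans hr⟩
  · exact ⟨v, hvΛ, SimpleGraph.Adj.reachable huv⟩

lemma sev_aux {G : SimpleGraph V} (hf : LF G) {Λ S : Finset V} (hS : S ⊆ Λ)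
    {ω ω' : Sym2 V → Bool}
    (hag : ∀ e ∈ ((Tset hf Λ \ S.sym2 : Finset (Sym2 V)) : Set (Sym2 V)), ω e = ω' e)
    (h : ω ∈ sev G (Λ : Set V) (S : Set V)) : ω' ∈ sev G (Λ : Set V) (S : Set V) := by
  have hS' : (S : Set V) ⊆ (Λ : Set V) := by exact_mod_cast hS
  have hag' : ∀ u v, G.Adj u v → (u ∈ Λ ∨ v ∈ Λ) → (u ∉ S ∨ v ∉ S) → ω s(u, v) = ω' s(u, v) := by
    intro u v h1 h2 h3
    apply hag
    rw [Finset.mem_coe, Finset.mem_sdiff, Finset.mk_mem_sym2_iff]
    refine ⟨mem_Tset hf h1 h2, ?_⟩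
    tauto
  have hcl : ∀ u v, u ∈ S → v ∉ S → G.Adj u v → ω' s(u, v) = false := by
    intro u v hu hv hadj
    rw [← hag' u v hadj (Or.inl (hS hu)) (Or.inr hv)]
    exact sev_closed hS' h hu hv hadj
  intro x hx
  constructor
  · intro hxS hesc
    obtain ⟨y, hy, hr⟩ := hesc
    have key : ∀ z, (hg G (Λ : Set V) ω').Reachable x z → z ∈ S := by
      intro z hz
      rw [SimpleGraph.reachable_iff_reflTransGen] at hz
      induction hz with
      | refl => exact hxS
      | @tail b c _ hbc ih =>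
        by_contra hc
        have := hcl b c ih hc hbc.1.1
        rw [hbc.1.2] at this
        exact absurd this (by simp)
    exact hy (hS (key y hr))
  · intro hne
    by_contra hxS
    apply hne
    have h1 : ω ∈ esc G (Λ : Set V) x := by
      by_contra h3
      exact hxS ((h x hx).2 h3)
    obtain ⟨y, hy, hr⟩ := h1
    refine ⟨y, hy, ?_⟩
    have key : ∀ z, (hg G (Λ : Set V) ω).Reachable x z →
        z ∉ S ∧ (hg G (Λ : Set V) ω').Reachable x z := by
      intro z hz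
      rw [SimpleGraph.reachable_iff_reflTransGen] at hz
      induction hz with
      | refl => exact ⟨hxS, SimpleGraph.Reachable.refl _⟩
      | @tail b c _ hbc ih =>
        have hc : c ∉ S := by
          intro hc
          have := sev_closed hS' h hc (by exact_mod_cast ih.1) hbc.1.1.symm
          rw [Sym2.eq_swap, hbc.1.2] at this
          exact absurd this (by simp)
        refine ⟨hc, ih.2.trans (SimpleGraph.Adj.reachable ⟨⟨hbc.1.1, ?_⟩, hbc.2⟩)⟩
        rw [← hag' b c hbc.1.1 hbc.2 (Or.inl ih.1)]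
        exact hbc.1.2
    exact (key y hr).2

lemma depOn_sev {G : SimpleGraph V} (hf : LF G) {Λ S : Finset V} (hS : S ⊆ Λ) :
    DepOn (sev G (Λ : Set V) (S : Set V)) ((Tset hf Λ \ S.sym2 : Finset (Sym2 V)) : Set (Sym2 V)) :=
  fun _ _ h => ⟨sev_aux hf hS h, sev_aux hf hS fun e he => (h e he).symm⟩

lemma og_upd_true (G : SimpleGraph V) (e : Sym2 V) (ω : Sym2 V → Bool) :
    og G ω ≤ og G (Function.update ω e true) := by
  intro x y h
  refine ⟨h.1, ?_⟩
  by_cases he : s(x, y) = e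
  · rw [he, Function.update_self]
  · rw [Function.update_of_ne he]; exact h.2

/-- pivotality event -/
def piv (A : Set (Sym2 V → Bool)) (e : Sym2 V) : Set (Sym2 V → Bool) :=
  setB A e true \ setB A e false

lemma esc_increasing (G : SimpleGraph V) (Λ : Set V) (o : V) (e : Sym2 V) :
    setB (esc G Λ o) e false ⊆ setB (esc G Λ o) e true := by
  rintro ω ⟨y, hy, hr⟩
  refine ⟨y, hy, SimpleGraph.Reachable.mono (hg_mono ?_) hr⟩
  exact (og_upd_le G e ω).trans (og_upd_true G e ω)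

lemma piv_of_sev {G : SimpleGraph V} {Λ S : Set V} (hS : S ⊆ Λ) {o x y : V} (ho : o ∈ S)
    (hx : x ∈ S) (hy : y ∉ S) (hadj : G.Adj x y) :
    sev G Λ S ∩ conn G S o x ⊆ piv (esc G Λ o) s(x, y) ∩ {ω | ω s(x, y) = false} := by
  rintro ω ⟨h1, h2⟩
  have hcl := sev_closed hS h1 hx hy hadj
  refine ⟨⟨?_, ?_⟩, hcl⟩
  · rw [mem_setB]
    have hle : restr (og G ω) S ≤ hg G Λ (Function.update ω s(x, y) true) := by
      intro a b hab
      exact ⟨og_upd_true G _ ω hab.1, Or.inl (hS hab.2.1)⟩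
    have hox : (hg G Λ (Function.update ω s(x, y) true)).Reachable o x :=
      SimpleGraph.Reachable.mono hle h2
    have hxy : (hg G Λ (Function.update ω s(x, y) true)).Reachable x y := by
      apply SimpleGraph.Adj.reachable
      refine ⟨⟨hadj, ?_⟩, Or.inl (hS hx)⟩
      rw [Function.update_self]
    by_cases hyΛ : y ∈ Λ
    · have h3 : ω ∈ esc G Λ y := by
        by_contra h4
        exact hy ((h1 y hyΛ).2 h4)
      obtain ⟨z, hz, hr⟩ := h3
      exact ⟨z, hz, (hox.trans hxy).trans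
        (SimpleGraph.Reachable.mono (hg_mono (og_upd_true G _ ω)) hr)⟩
    · exact ⟨y, hyΛ, hox.trans hxy⟩
  · rw [mem_setB]
    have : Function.update ω s(x, y) false = ω := by
      rw [Function.update_eq_self_iff]; exact hcl.symm
    rw [this]
    exact (h1 o (hS ho)).1 ho

end

end Vale.Agent.P165
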