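import Vale.Agent.Lib.P165.Dct

/-!
# Summation over the random set, and the resulting lower bound on the escape probability
-/

open MeasureTheory ProbabilityTheory

namespace Vale.Agent.P165

variable {V : Type*} [DecidableEq V]

open Classical in
/-- index set of triples `(S, x, y)` -/
noncomputable def Idx {G : SimpleGraph V} (hf : LF G) (Λ : Finset V) (o : V) :
    Finset (Finset V × V × V) :=
  ((Λ.powerset ×ˢ (Λ ×ˢ (Λ ∪ Λ.biUnion (nb hf))))).filter
    (fun i => o ∈ i.1 ∧ i.2.1 ∈ i.1 ∧ i.2.2 ∉ i.1 ∧ G.Adj i.2.1 i.2.2)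

lemma mem_Idx {G : SimpleGraph V} {hf : LF G} {Λ : Finset V} {o : V} {S : Finset V} {x y : V} :
    (S, x, y) ∈ Idx hf Λ o ↔ S ⊆ Λ ∧ o ∈ S ∧ x ∈ S ∧ y ∉ S ∧ G.Adj x y := by
  unfold Idx
  simp only [Finset.mem_filter, Finset.mem_product, Finset.mem_powerset, Finset.mem_union,
    Finset.mem_biUnion, mem_nb]
  constructor
  · rintro ⟨⟨h1, -⟩, h2⟩; exact ⟨h1, h2⟩
  · rintro ⟨h1, h2, h3, h4, h5⟩
    exact ⟨⟨h1, h1 h3, Or.inr ⟨x, h1 h3, h5⟩⟩, h2, h3, h4, h5⟩

/-- the event attached to an index -/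
def Ev (G : SimpleGraph V) (Λ : Finset V) (o : V) (i : Finset V × V × V) : Set (Sym2 V → Bool) :=
  sev G (Λ : Set V) (i.1 : Set V) ∩ conn G (i.1 : Set V) o i.2.1

lemma prob_Ev {G : SimpleGraph V} (hf : LF G) {Λ : Finset V} {o : V} {i : Finset V × V × V}
    (hi : i ∈ Idx hf Λ o) (p : unitInterval) :
    (bm (Sym2 V) p).real (Ev G Λ o i) =
      (bm (Sym2 V) p).real (sev G (Λ : Set V) (i.1 : Set V)) * tau G p i.1 o i.2.1 := by
  obtain ⟨S, x, y⟩ := i
  exact (depOn_sev hf (mem_Idx.1 hi).1).indep (depOn_conn G S o x) Finset.sdiff_disjoint p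

lemma meas_Ev {G : SimpleGraph V} (hf : LF G) {Λ : Finset V} {o : V} {i : Finset V × V × V}
    (hi : i ∈ Idx hf Λ o) : MeasurableSet (Ev G Λ o i) := by
  obtain ⟨S, x, y⟩ := i
  exact (depOn_sev hf (mem_Idx.1 hi).1).measurableSet.inter (depOn_conn G S o x).measurableSet

omit [DecidableEq V] in
lemma sev_unique {G : SimpleGraph V} {Λ S S' : Finset V} (hS : S ⊆ Λ) (hS' : S' ⊆ Λ)
    {ω : Sym2 V → Bool} (h : ω ∈ sev G (Λ : Set V) (S : Set V))
    (h' : ω ∈ sev G (Λ : Set V) (S' : Set V)) : S = S' := by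
  ext v
  constructor
  · intro hv
    have h1 := (h v (by exact_mod_cast hS hv)).1 (by exact_mod_cast hv)
    exact_mod_cast (h' v (by exact_mod_cast hS hv)).2 h1
  · intro hv
    have h1 := (h' v (by exact_mod_cast hS' hv)).1 (by exact_mod_cast hv)
    exact_mod_cast (h v (by exact_mod_cast hS' hv)).2 h1

lemma sum_piv {G : SimpleGraph V} (hf : LF G) (Λ : Finset V) (o : V) (p : unitInterval) :
    ∑ i ∈ Idx hf Λ o, (bm (Sym2 V) p).real (Ev G Λ o i) ≤
      ∑ e ∈ Tset hf Λ, (bm (Sym2 V) p).real (piv (esc G (Λ : Set V) o) e ∩ {ω | ω e = false}) := by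
  have hmap : ∀ i ∈ Idx hf Λ o, s(i.2.1, i.2.2) ∈ Tset hf Λ := by
    rintro ⟨S, x, y⟩ hi
    have h := mem_Idx.1 hi
    exact mem_Tset hf h.2.2.2.2 (Or.inl (h.1 h.2.2.1))
  rw [← Finset.sum_fiberwise_of_maps_to hmap]
  apply Finset.sum_le_sum
  intro e _
  rw [← measureReal_biUnion_finset]
  · apply measureReal_mono _ (measure_ne_top _ _)
    intro ω hω
    simp only [Set.mem_iUnion] at hω
    obtain ⟨⟨S, x, y⟩, hi, hEv⟩ := hω
    rw [Finset.mem_filter] at hi
    obtain ⟨h1, h2, h3, h4, h5⟩ := mem_Idx.1 hi.1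
    rw [← hi.2]
    exact piv_of_sev (by exact_mod_cast h1) (by exact_mod_cast h2) (by exact_mod_cast h3)
      (by exact_mod_cast h4) h5 hEv
  · rintro ⟨S, x, y⟩ hi ⟨S', x', y'⟩ hi' hne
    rw [Function.onFun, Set.disjoint_left]
    rintro ω ⟨ha, _⟩ ⟨hb, _⟩
    rw [Finset.mem_coe, Finset.mem_filter] at hi hi'
    obtain ⟨h1, h2, h3, h4, h5⟩ := mem_Idx.1 hi.1
    obtain ⟨h1', h2', h3', h4', h5'⟩ := mem_Idx.1 hi'.1
    have hSS : S = S' := sev_unique h1 h1' ha hb
    subst hSS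
    have he : s(x, y) = s(x', y') := hi.2.trans hi'.2.symm
    rw [Sym2.eq_iff] at he
    rcases he with ⟨h, h'⟩ | ⟨h, h'⟩
    · exact hne (by rw [h, h'])
    · exact h4' (h ▸ h3)
  · intro i hi
    rw [Finset.mem_filter] at hi
    exact meas_Ev hf hi.1

open Classical in
lemma sum_Idx {G : SimpleGraph V} (hf : LF G) (Λ : Finset V) (o : V)
    (f : Finset V → ℝ) (g : Finset V → V → ℝ) :
    ∑ i ∈ Idx hf Λ o, f i.1 * g i.1 i.2.1 =
      ∑ S ∈ Λ.powerset.filter (fun S => o ∈ S), f S *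
        ∑ x ∈ S, ((nb hf x \ S).card : ℝ) * g S x := by
  rw [← Finset.sum_fiberwise_of_maps_to (g := fun i : Finset V × V × V => i.1)
    (t := Λ.powerset.filter (fun S => o ∈ S))]
  · apply Finset.sum_congr rfl
    intro S hS
    rw [Finset.mem_filter, Finset.mem_powerset] at hS
    rw [Finset.mul_sum, ← Finset.sum_fiberwise_of_maps_to (g := fun i : Finset V × V × V => i.2.1)
      (t := S)]
    · apply Finset.sum_congr rfl
      intro x hx
      have h1 : ∀ i ∈ ((Idx hf Λ o).filter (fun i => i.1 = S)).filter (fun i => i.2.1 = x),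
          f i.1 * g i.1 i.2.1 = f S * g S x := by
        intro i hi
        simp only [Finset.mem_filter] at hi
        rw [hi.1.2, hi.2]
      rw [Finset.sum_congr rfl h1, Finset.sum_const, nsmul_eq_mul]
      have h2 : (((Idx hf Λ o).filter (fun i => i.1 = S)).filter (fun i => i.2.1 = x)).card =
          (nb hf x \ S).card := by
        refine Finset.card_bij' (fun i _ => i.2.2) (fun y _ => (S, x, y)) ?_ ?_ ?_ ?_
        · rintro ⟨S', x', y'⟩ hi
          simp only [Finset.mem_filter] at hi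
          obtain ⟨⟨h3, rfl⟩, rfl⟩ := hi
          have h4 := mem_Idx.1 h3
          rw [Finset.mem_sdiff, mem_nb]
          exact ⟨h4.2.2.2.2, h4.2.2.2.1⟩
        · intro y hy
          rw [Finset.mem_sdiff, mem_nb] at hy
          rw [Finset.mem_filter, Finset.mem_filter]
          exact ⟨⟨mem_Idx.2 ⟨hS.1, hS.2, hx, hy.2, hy.1⟩, rfl⟩, rfl⟩
        · rintro ⟨S', x', y'⟩ hi
          simp only [Finset.mem_filter] at hi
          obtain ⟨⟨h3, rfl⟩, rfl⟩ := hi
          rfl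
        · intro y hy; rfl
      rw [h2]; ring
    · rintro ⟨S', x, y⟩ hi
      rw [Finset.mem_filter] at hi
      have h3 := mem_Idx.1 hi.1
      have h4 := hi.2
      simp only at h4
      subst h4
      exact h3.2.2.1
  · rintro ⟨S, x, y⟩ hi
    have h3 := mem_Idx.1 hi
    rw [Finset.mem_filter, Finset.mem_powerset]
    exact ⟨h3.1, h3.2.1⟩

lemma prob_piv_closed {G : SimpleGraph V} (hf : LF G) (Λ : Finset V) (o : V) (e : Sym2 V)
    (p : unitInterval) :
    (bm (Sym2 V) p).real (piv (esc G (Λ : Set V) o) e ∩ {ω | ω e = false}) =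
      ((bm (Sym2 V) p).real (setB (esc G (Λ : Set V) o) e true) -
        (bm (Sym2 V) p).real (setB (esc G (Λ : Set V) o) e false)) * (1 - p) := by
  have hd := ((depOn_esc hf Λ o).setB' e true).diff ((depOn_esc hf Λ o).setB' e false)
  have h1 := prob_inter_false hd e (Finset.notMem_erase _ _) p
  unfold piv
  rw [h1, measureReal_sdiff (esc_increasing G _ o e)]
  exact ((depOn_esc hf Λ o).setB' e false).measurableSet

open Classical in
theorem dct_ineq {G : SimpleGraph V} (hf : LF G) (Λ : Finset V) {o : V} (ho : o ∈ Λ)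
    (p : unitInterval) (hp0 : 0 < (p : ℝ)) (hp1 : (p : ℝ) < 1)
    (hφ : ∀ S ⊆ Λ, o ∈ S → 1 ≤ p * ∑ x ∈ S, ((nb hf x \ S).card : ℝ) * tau G p S o x) :
    (1 - (bm (Sym2 V) p).real (esc G (Λ : Set V) o)) / (p * (1 - p)) ≤
      ∑ e ∈ Tset hf Λ, ((bm (Sym2 V) p).real (setB (esc G (Λ : Set V) o) e true) -
        (bm (Sym2 V) p).real (setB (esc G (Λ : Set V) o) e false)) := by
  have h1 := sum_piv hf Λ o p
  simp_rw [prob_piv_closed hf] at h1
  rw [← Finset.sum_mul] at h1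
  have h2 : ∑ i ∈ Idx hf Λ o, (bm (Sym2 V) p).real (Ev G Λ o i) =
      ∑ S ∈ Λ.powerset.filter (fun S => o ∈ S), (bm (Sym2 V) p).real (sev G (Λ : Set V) (S : Set V)) *
        ∑ x ∈ S, ((nb hf x \ S).card : ℝ) * tau G p S o x := by
    rw [← sum_Idx hf Λ o (fun S => (bm (Sym2 V) p).real (sev G (Λ : Set V) (S : Set V)))
      (fun S x => tau G p S o x)]
    exact Finset.sum_congr rfl fun i hi => prob_Ev hf hi p
  have h3 : (1 - (bm (Sym2 V) p).real (esc G (Λ : Set V) o)) ≤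
      ∑ S ∈ Λ.powerset.filter (fun S => o ∈ S),
        (bm (Sym2 V) p).real (sev G (Λ : Set V) (S : Set V)) := by
    rw [← probReal_compl_eq_one_sub (depOn_esc hf Λ o).measurableSet]
    refine le_trans (measureReal_mono ?_ (measure_ne_top _ _)) (measureReal_biUnion_finset_le _ _)
    intro ω hω
    simp only [Set.mem_iUnion]
    refine ⟨Λ.filter (fun x => ω ∉ esc G (Λ : Set V) x), ?_, ?_⟩
    · rw [Finset.mem_filter, Finset.mem_powerset, Finset.mem_filter]
      exact ⟨Finset.filter_subset _ _, ho, hω⟩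
    · intro x hx
      rw [Finset.mem_coe] at hx
      simp [hx]
  have h4 : (1 - (bm (Sym2 V) p).real (esc G (Λ : Set V) o)) ≤
      p * ∑ S ∈ Λ.powerset.filter (fun S => o ∈ S), (bm (Sym2 V) p).real (sev G (Λ : Set V) (S : Set V)) *
        ∑ x ∈ S, ((nb hf x \ S).card : ℝ) * tau G p S o x := by
    refine h3.trans ?_
    rw [Finset.mul_sum]
    apply Finset.sum_le_sum
    intro S hS
    rw [Finset.mem_filter, Finset.mem_powerset] at hS
    have h5 := hφ S hS.1 hS.2
    have h6 : 0 ≤ (bm (Sym2 V) p).real (sev G (Λ : Set V) (S : Set V)) := measureReal_nonneg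
    nlinarith
  rw [div_le_iff₀ (mul_pos hp0 (by linarith))]
  rw [h2] at h1
  nlinarith [mul_le_mul_of_nonneg_left h1 hp0.le]

end Vale.Agent.P165
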