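import Vale.Agent.Lib.P165.Defs

/-!
# Further definitions used in the statements for P165
-/

namespace Vale.Agent.P165

variable {V : Type*}

open Classical in
/-- `⟨A f, f⟩ ≤ L ⟨f, f⟩` for all finitely supported real functions `f` on the vertices, `A` being
the adjacency operator. -/
def AdjacencyFormLE (G : SimpleGraph V) (L : ℝ) : Prop :=
  ∀ f : V →₀ ℝ, ∑ x ∈ f.support, ∑ y ∈ f.support, (if G.Adj x y then f x * f y else 0) ≤
    L * ∑ x ∈ f.support, f x ^ 2

/-- The number of closed walks of length `n` from `v` to `v`. -/
noncomputable def closedWalks (G : SimpleGraph V) (v : V) (n : ℕ) : ℕ :=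
  {w : G.Walk v v | w.length = n}.ncard

end Vale.Agent.P165
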