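import Mathlib

/-!
# P165: vocabulary of the question
-/

open MeasureTheory ProbabilityTheory

namespace Vale.Agent.P165.Draw

variable {V : Type*}

/-- `∂A`: the vertices outside `A` with a neighbour in `A` -/
def boundary (G : SimpleGraph V) (A : Finset V) : Set V := {v | v ∉ A ∧ ∃ a ∈ A, G.Adj a v}

/-- `h_V(G) ≥ h`: `|∂A| ≥ h |A|` for all finite sets `A` of vertices -/
def ExpandsBy (G : SimpleGraph V) (h : ℝ) : Prop :=
  ∀ A : Finset V, h * (A.card : ℝ) ≤ ((boundary G A).ncard : ℝ)

/-- the automorphism group has finitely many orbits on the vertices -/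
def FinitelyManyOrbits (G : SimpleGraph V) : Prop :=
  ∃ F : Finset V, ∀ v, ∃ φ : G ≃g G, φ v ∈ F

/-- the hypotheses of Q1: `G` is an infinite, connected, locally finite, nonamenable,
quasi-transitive graph -/
structure Hypotheses (G : SimpleGraph V) : Prop where
  infinite : Infinite V
  connected : G.Connected
  locallyFinite : ∀ v, (G.neighborSet v).Finite
  nonamenable : ∃ h : ℝ, 0 < h ∧ ExpandsBy G h
  quasiTransitive : FinitelyManyOrbits G

/-- `P_p`: the edges are open (`true`) independently, each with probability `p` -/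
noncomputable def bondPercolation (G : SimpleGraph V) (p : unitInterval) :
    Measure (G.edgeSet → Bool) :=
  Measure.infinitePi fun _ => bernoulliMeasure true false p

/-- `N_∞`: the number of infinite connected components of the graph of the open edges -/
noncomputable def infiniteClusters (G : SimpleGraph V) (ω : G.edgeSet → Bool) : ℕ∞ :=
  {K : (SimpleGraph.fromEdgeSet (Subtype.val '' {e | ω e = true})).ConnectedComponent |
    K.supp.Infinite}.encard

/-- the conclusion of Q1: `p_c < p_u`, where `p_c = inf {p : P_p(N_∞ ≥ 1) > 0}` and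
`p_u = inf {p : P_p(N_∞ = 1) = 1}` -/
def NonuniquenessPhase (G : SimpleGraph V) : Prop :=
  ∃ pc pu : ℝ, pc < pu ∧
    IsGLB {p : ℝ | ∃ hp : p ∈ unitInterval,
      0 < bondPercolation G ⟨p, hp⟩ {ω | 1 ≤ infiniteClusters G ω}} pc ∧
    IsGLB {p : ℝ | ∃ hp : p ∈ unitInterval,
      bondPercolation G ⟨p, hp⟩ {ω | infiniteClusters G ω = 1} = 1} pu

/-- the Cartesian product of the graphs `H i`: one coordinate moves along an edge -/
def productGraph {ι : Type*} {W : ι → Type*} (H : ∀ i, SimpleGraph (W i)) :
    SimpleGraph (∀ i, W i) :=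
  SimpleGraph.fromRel fun x y => ∃ i, (H i).Adj (x i) (y i) ∧ ∀ j, j ≠ i → x j = y j

end Vale.Agent.P165.Draw
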