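import Vale.Agent.Lib.P165.Crit
import Vale.Agent.Lib.P165.Draw

/-!
# P165: both partial results in the vocabulary of the question
-/

open MeasureTheory ProbabilityTheory SimpleGraph

namespace Vale.Agent.P165.Draw

universe u v w

variable {V : Type*}

theorem open_eq (G : SimpleGraph V) (ω : G.edgeSet → Bool) :
    SimpleGraph.fromEdgeSet (Subtype.val '' {e | ω e = true}) = openGraph G ω := by
  unfold openGraph
  congr 1
  ext e
  constructor
  · rintro ⟨⟨e', he'⟩, h1, rfl⟩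
    exact ⟨he', h1⟩
  · rintro ⟨he, h1⟩
    exact ⟨⟨e, he⟩, h1, rfl⟩

theorem num_eq (G : SimpleGraph V) (ω : G.edgeSet → Bool) :
    infiniteClusters G ω = {K : (openGraph G ω).ConnectedComponent | K.supp.Infinite}.encard := by
  unfold infiniteClusters
  rw [open_eq]

theorem some_eq (G : SimpleGraph V) :
    {ω | 1 ≤ infiniteClusters G ω} = someInfiniteCluster G := by
  ext ω
  rw [Set.mem_setOf_eq, num_eq, Set.one_le_encard_iff_nonempty]
  rfl

theorem unique_eq (G : SimpleGraph V) :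
    {ω | infiniteClusters G ω = 1} = uniqueInfiniteCluster G := by
  ext ω
  rw [Set.mem_setOf_eq, num_eq, Set.encard_eq_one]
  constructor
  · rintro ⟨K, hK⟩
    have h1 : K ∈ {K : (openGraph G ω).ConnectedComponent | K.supp.Infinite} := by
      rw [hK]
      rfl
    refine ⟨K, h1, fun K' h' => ?_⟩
    have h2 : K' ∈ {K : (openGraph G ω).ConnectedComponent | K.supp.Infinite} := h'
    rw [hK] at h2
    exact h2
  · rintro ⟨K, hK, hu⟩
    refine ⟨K, ?_⟩
    ext K'
    constructor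
    · exact fun h' => hu K' h'
    · rintro rfl
      exact hK

theorem phase_of_lt {G : SimpleGraph V} (h : pc G < pu G) : NonuniquenessPhase G := by
  have hbd : ∀ (P : ℝ → Prop), BddBelow {p : ℝ | ∃ _ : p ∈ unitInterval, P p} := fun P =>
    ⟨0, fun p hp => hp.1.1⟩
  have hb1 : BddBelow {p : ℝ | ∃ hp : p ∈ unitInterval,
      0 < percolation G ⟨p, hp⟩ (someInfiniteCluster G)} := ⟨0, fun p hp => hp.1.1⟩
  have hb2 : BddBelow {p : ℝ | ∃ hp : p ∈ unitInterval,
      percolation G ⟨p, hp⟩ (uniqueInfiniteCluster G) = 1} := ⟨0, fun p hp => hp.1.1⟩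
  have h0 : 0 ≤ pc G := Real.sInf_nonneg fun p hp => hp.1.1
  have hn2 : {p : ℝ | ∃ hp : p ∈ unitInterval,
      percolation G ⟨p, hp⟩ (uniqueInfiniteCluster G) = 1}.Nonempty := by
    by_contra hne
    rw [Set.not_nonempty_iff_eq_empty] at hne
    have h1 : pu G = 0 := by
      unfold pu
      rw [hne, Real.sInf_empty]
    linarith
  have hn1 : {p : ℝ | ∃ hp : p ∈ unitInterval,
      0 < percolation G ⟨p, hp⟩ (someInfiniteCluster G)}.Nonempty := by
    obtain ⟨p, hp, h1⟩ := hn2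
    refine ⟨p, hp, lt_of_lt_of_le ?_ (measure_mono (s := uniqueInfiniteCluster G) ?_)⟩
    · rw [h1]
      exact one_pos
    · rintro ω ⟨K, hK, -⟩
      exact ⟨K, hK⟩
  refine ⟨pc G, pu G, h, ?_, ?_⟩
  · rw [some_eq]
    exact isGLB_csInf hn1 hb1
  · rw [unique_eq]
    exact isGLB_csInf hn2 hb2

theorem le_hV {G : SimpleGraph V} (hne : Nonempty V) {h : ℝ} (hG : ExpandsBy G h) : h ≤ hV G := by
  refine le_csInf ?_ ?_
  · obtain ⟨v⟩ := hne
    exact ⟨_, {v}, Finset.singleton_nonempty v, rfl⟩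
  · rintro r ⟨A, hA, rfl⟩
    rw [le_div_iff₀ (by exact_mod_cast hA.card_pos)]
    exact hG A

theorem expands_hV (G : SimpleGraph V) : ExpandsBy G (hV G) := by
  intro A
  rcases A.eq_empty_or_nonempty with rfl | hA
  · simp
  · have h1 : hV G ≤ ((outerBoundary G (A : Set V)).ncard : ℝ) / (A.card : ℝ) := by
      refine csInf_le ⟨0, ?_⟩ ⟨A, hA, rfl⟩
      rintro r ⟨B, -, rfl⟩
      positivity
    rw [le_div_iff₀ (by exact_mod_cast hA.card_pos)] at h1
    exact h1

theorem product_eq {ι : Type*} {W : ι → Type*} (H : ∀ i, SimpleGraph (W i)) :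
    productGraph H = cartesianProduct H := by
  ext x y
  unfold productGraph
  rw [SimpleGraph.fromRel_adj]
  constructor
  · rintro ⟨-, h | ⟨i, h1, h2⟩⟩
    · exact h
    · exact ⟨i, h1.symm, fun j hj => (h2 j hj).symm⟩
  · rintro ⟨i, h1, h2⟩
    exact ⟨fun h => h1.ne (by rw [h]), Or.inl ⟨i, h1, h2⟩⟩

open Classical in
theorem combined :
    (∀ (Δ : ℕ) (h : ℝ), 0 < h → ∃ k₀ : ℕ, ∀ (V : Type u) (G : SimpleGraph V) (ι : Type v)
        [Fintype ι] (W : ι → Type w) (H : ∀ i, SimpleGraph (W i)),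
      Infinite V → G.Connected → FinitelyManyOrbits G → ExpandsBy G h →
      (∃ d ≤ Δ, ∀ x, (G.neighborSet x).encard = d) →
      (∀ i, (H i).Connected ∧ FinitelyManyOrbits (H i) ∧
        ∃ d, 1 ≤ d ∧ d ≤ Δ ∧ ∀ x, ((H i).neighborSet x).encard = d) →
      k₀ ≤ Fintype.card ι →
      Hypotheses (G □ productGraph H) ∧ NonuniquenessPhase (G □ productGraph H)) ∧
    (∀ (V : Type u) (G : SimpleGraph V) (D : ℕ) (C : ℝ), Infinite V → G.Connected →
      FinitelyManyOrbits G → (∀ x, (G.neighborSet x).encard = D) → 1 ≤ C →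
      (∀ x, ∀ n ≤ 24, ({w : G.Walk x x | w.length = n}.ncard : ℝ) ≤ C * (D : ℝ) ^ (n / 2)) →
      (∀ g : ℝ, 0 < g → g ≤ 1 → 2 ^ 34 * C ≤ D * g ^ 4 →
        (∀ (S : Finset V) (f : V → ℝ),
          ∑ x ∈ S, ∑ y ∈ S with G.Adj x y, f x * f y ≤ (D - g) * ∑ x ∈ S, f x ^ 2) →
        NonuniquenessPhase G) ∧
      (∀ h : ℝ, 0 < h → ExpandsBy G h → 2 ^ 38 * C ≤ D → 2 ^ 46 * C * (D : ℝ) ^ 3 ≤ h ^ 8 →
        NonuniquenessPhase G)) := by
  constructor
  · intro Δ h hh
    obtain ⟨k₀, hk₀⟩ := product_main.{u, v, w} Δ h hh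
    refine ⟨k₀, fun V G ι _ W H hinf hconn hqt hexp hreg hH hk => ?_⟩
    have hne : Nonempty V := hconn.nonempty
    obtain ⟨h1, h2, h3, h4, h5, h6⟩ := hk₀ V G ι W H hinf hconn hqt hreg (le_hV hne hexp) hH hk
    rw [product_eq]
    exact ⟨⟨h1, h2, h3, ⟨_, h5, expands_hV _⟩, h4⟩, phase_of_lt h6⟩
  · intro V G D C hinf hconn hqt hreg hC hw
    have hne : Nonempty V := hconn.nonempty
    refine ⟨fun g hg hg1 hl hform => ?_, fun h hh hexp hD hl => ?_⟩
    · refine phase_of_lt (criterion_main V G D g C hinf hconn hqt hreg hg hg1 hC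
        (specBd_of_form _ fun f => ?_) hw hl)
      have h1 := hform f.support f
      simp only [Finset.sum_filter] at h1
      exact h1
    · exact phase_of_lt (isoperimetric_main V G D h C hinf hconn hqt hreg hh hC (le_hV hne hexp)
        hw hD hl)

end Vale.Agent.P165.Draw
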