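import Vale.Agent.Lib.P165.DctSum

/-!
# Existence of an infinite cluster from the cycle criterion
-/

open MeasureTheory ProbabilityTheory

namespace Vale.Agent.P165

variable {V : Type*}

section calculus
variable [DecidableEq V]

theorem esc_lower {G : SimpleGraph V} (hf : LF G) (Λ : Finset V) {o : V} (ho : o ∈ Λ)
    {p0 p1 : ℝ} (h0 : 0 < p0) (h01 : p0 < p1) (h1 : p1 < 1)
    (hφ : ∀ t, p0 ≤ t → t ≤ p1 → ∀ S ⊆ Λ, o ∈ S →
      1 ≤ t * ∑ x ∈ S, ((nb hf x \ S).card : ℝ) * tau G (pr t) S o x) :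
    1 - p0 * (1 - p1) / ((1 - p0) * p1) ≤ (bm (Sym2 V) (pr p1)).real (esc G (Λ : Set V) o) := by
  set f : ℝ → ℝ := fun t => (bm (Sym2 V) (pr t)).real (esc G (Λ : Set V) o) with hfdef
  set f' : ℝ → ℝ := fun t => ∑ e ∈ Tset hf Λ,
    ((bm (Sym2 V) (pr t)).real (setB (esc G (Λ : Set V) o) e true) -
      (bm (Sym2 V) (pr t)).real (setB (esc G (Λ : Set V) o) e false)) with hf'def
  have hder : ∀ t, 0 < t → t < 1 → HasDerivAt f (f' t) t := fun t ht0 ht1 =>
    russo (depOn_esc hf Λ o) ht0 ht1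
  set g : ℝ → ℝ := fun t => (1 - f t) * (t / (1 - t)) with hg
  have hgder : ∀ t, 0 < t → t < 1 →
      HasDerivAt g ((0 - f' t) * (t / (1 - t)) + (1 - f t) * ((1 * (1 - t) - t * (0 - 1)) / (1 - t) ^ 2)) t := by
    intro t ht0 ht1
    have ha : HasDerivAt (fun t => 1 - f t) (0 - f' t) t :=
      (hasDerivAt_const t (1:ℝ)).sub (hder t ht0 ht1)
    have hne : (1 : ℝ) - t ≠ 0 := by
      have : 0 < 1 - t := by linarith
      exact this.ne'
    have hb : HasDerivAt (fun t : ℝ => t / (1 - t)) ((1 * (1 - t) - t * (0 - 1)) / (1 - t) ^ 2) t :=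
      (hasDerivAt_id t).div ((hasDerivAt_const t (1:ℝ)).sub (hasDerivAt_id t)) hne
    exact ha.mul hb
  have hanti : AntitoneOn g (Set.Icc p0 p1) := by
    apply antitoneOn_of_deriv_nonpos (convex_Icc p0 p1)
    · intro t ht
      exact (hgder t (by linarith [ht.1]) (by linarith [ht.2])).continuousAt.continuousWithinAt
    · intro t ht
      rw [interior_Icc] at ht
      exact (hgder t (by linarith [ht.1]) (by linarith [ht.2])).differentiableAt.differentiableWithinAt
    · intro t ht
      rw [interior_Icc] at ht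
      have ht0 : 0 < t := by linarith [ht.1]
      have ht1 : t < 1 := by linarith [ht.2]
      rw [(hgder t ht0 ht1).deriv]
      have hc : ((pr t : unitInterval) : ℝ) = t := coe_pr ht0.le ht1.le
      have hin := dct_ineq hf Λ ho (pr t) (by rw [hc]; exact ht0) (by rw [hc]; exact ht1)
        (by intro S hS hoS; rw [hc]; exact hφ t ht.1.le ht.2.le S hS hoS)
      rw [hc] at hin
      have hin' : (1 - f t) / (t * (1 - t)) ≤ f' t := hin
      have h1t : 0 < 1 - t := by linarith
      have e1 : (0 - f' t) * (t / (1 - t)) ≤ (0 - (1 - f t) / (t * (1 - t))) * (t / (1 - t)) :=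
        mul_le_mul_of_nonneg_right (by linarith) (by positivity)
      have e2 : (0 - (1 - f t) / (t * (1 - t))) * (t / (1 - t)) +
        (1 - f t) * ((1 * (1 - t) - t * (0 - 1)) / (1 - t) ^ 2) = 0 := by
        field_simp
        ring
      linarith
  have hle := hanti (Set.left_mem_Icc.2 h01.le) (Set.right_mem_Icc.2 h01.le) h01.le
  have hf0 : 0 ≤ f p0 := measureReal_nonneg
  simp only [hg] at hle
  have hp1 : 0 < p1 := by linarith
  have h1p1 : 0 < 1 - p1 := by linarith
  have h1p0 : 0 < 1 - p0 := by linarith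
  have h2 : (1 - f p0) * (p0 / (1 - p0)) ≤ p0 / (1 - p0) := by
    have : 0 ≤ p0 / (1 - p0) := by positivity
    nlinarith
  have h3 : (1 - f p1) * (p1 / (1 - p1)) ≤ p0 / (1 - p0) := hle.trans h2
  have h4 : 1 - f p1 ≤ p0 * (1 - p1) / ((1 - p0) * p1) := by
    have h5 : 0 < (1 - p1) / p1 := by positivity
    have h6 := mul_le_mul_of_nonneg_right h3 h5.le
    have h7 : (1 - f p1) * (p1 / (1 - p1)) * ((1 - p1) / p1) = 1 - f p1 := by
      field_simp
    have h8 : p0 / (1 - p0) * ((1 - p1) / p1) = p0 * (1 - p1) / ((1 - p0) * p1) := by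
      field_simp
    rw [h7, h8] at h6
    exact h6
  linarith

omit [DecidableEq V] in
lemma cyc_mono {G : SimpleGraph V} (hf : LF G) {p q : ℝ} (h0 : 0 ≤ p) (h : p ≤ q)
    (S : Finset V) (N : ℕ) (z : V) : cyc hf p S N z ≤ cyc hf q S N z := by
  unfold cyc
  apply Finset.sum_le_sum
  intro n _
  apply mul_le_mul_of_nonneg_right (pow_le_pow_left₀ h0 h n)
  positivity

theorem phi_ge_one {G : SimpleGraph V} (hf : LF G) {D : ℕ} (hreg : ∀ v, (nb hf v).card = D)
    {p0 p1 κ t : ℝ} (h0 : 0 < p0) (h1 : p1 < 1) (ht0 : p0 ≤ t) (ht1 : t ≤ p1)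
    (hκ : ∀ (S : Finset V) (N : ℕ) (z : V), cyc hf p1 S N z ≤ κ)
    (hD : κ ≤ D - 1 - 1 / p0) (S : Finset V) {o : V} (ho : o ∈ S) :
    1 ≤ t * ∑ x ∈ S, ((nb hf x \ S).card : ℝ) * tau G (pr t) S o x := by
  classical
  have htpos : 0 < t := by linarith
  have hc : ((pr t : unitInterval) : ℝ) = t := coe_pr htpos.le (by linarith)
  have hb := phi_bound hf S ho (pr t) κ (by
    intro z; rw [hc]; exact (cyc_mono hf htpos.le ht1 S _ z).trans (hκ S _ z))
  rw [hc] at hb
  have hcard : ∀ x ∈ S, ((nb hf x \ S).card : ℝ) * tau G (pr t) S o x =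
      D * tau G (pr t) S o x - ((S.filter (fun y => G.Adj x y)).card : ℝ) * tau G (pr t) S o x := by
    intro x _
    have h2 : (nb hf x \ S).card + (S.filter (fun y => G.Adj x y)).card = D := by
      have h3 : S.filter (fun y => G.Adj x y) = nb hf x ∩ S := by
        ext y
        rw [Finset.mem_filter, Finset.mem_inter, mem_nb]
        tauto
      rw [h3, Finset.card_sdiff_add_card_inter, hreg]
    have h4 : ((nb hf x \ S).card : ℝ) = D - ((S.filter (fun y => G.Adj x y)).card : ℝ) := by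
      rw [← h2]; push_cast; ring
    rw [h4]; ring
  rw [Finset.sum_congr rfl hcard, Finset.sum_sub_distrib, ← Finset.mul_sum]
  have hT : 0 ≤ ∑ z ∈ S, tau G (pr t) S o z := Finset.sum_nonneg fun z _ => measureReal_nonneg
  have hk : 0 ≤ t * D - 1 - t - t * κ := by
    have h5 : 1 / t ≤ 1 / p0 := one_div_le_one_div_of_le h0 ht0
    have h6 : κ ≤ D - 1 - 1 / t := by linarith
    have h7 := mul_le_mul_of_nonneg_left h6 htpos.le
    have h8 : t * ((D : ℝ) - 1 - 1 / t) = t * D - t - 1 := by field_simp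
    linarith
  nlinarith [mul_nonneg hT hk]

end calculus

lemma hg_le (G : SimpleGraph V) (Λ : Set V) (ω : Sym2 V → Bool) : hg G Λ ω ≤ og G ω :=
  fun _ _ h => h.1

/-- full connection event -/
def fconn (G : SimpleGraph V) (x y : V) : Set (Sym2 V → Bool) := {ω | (og G ω).Reachable x y}

lemma meas_fconn [Countable V] (G : SimpleGraph V) (x y : V) : MeasurableSet (fconn G x y) := by
  classical
  obtain ⟨f, hf⟩ := exists_injective_nat V
  have hfin : ∀ n, {v | f v < n}.Finite := fun n =>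
    Set.Finite.preimage hf.injOn (Set.finite_lt_nat n)
  have heq : fconn G x y = ⋃ n, conn G ((hfin n).toFinset : Set V) x y := by
    ext ω
    simp only [Set.mem_iUnion, mem_conn, fconn, Set.mem_ofPred_eq]
    constructor
    · intro h
      rw [SimpleGraph.reachable_iff_reflTransGen] at h
      induction h with
      | refl => exact ⟨0, SimpleGraph.Reachable.refl _⟩
      | @tail b c _ hbc ih =>
        obtain ⟨n, hn⟩ := ih
        refine ⟨n + f b + f c + 1, ?_⟩
        have h1 : (restr (og G ω) ((hfin (n + f b + f c + 1)).toFinset : Set V)).Reachable x b := by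
          refine SimpleGraph.Reachable.mono ?_ hn
          intro u v huv
          refine ⟨huv.1, ?_, ?_⟩
          · have := huv.2.1
            simp only [Set.Finite.coe_toFinset, Set.mem_ofPred_eq] at this ⊢
            omega
          · have := huv.2.2
            simp only [Set.Finite.coe_toFinset, Set.mem_ofPred_eq] at this ⊢
            omega
        refine h1.trans (SimpleGraph.Adj.reachable ⟨hbc, ?_, ?_⟩)
        · simp only [Set.Finite.coe_toFinset, Set.mem_ofPred_eq]; omega
        · simp only [Set.Finite.coe_toFinset, Set.mem_ofPred_eq]; omega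
    · rintro ⟨n, hn⟩
      exact SimpleGraph.Reachable.mono (restr_le _ _) hn
  rw [heq]
  exact MeasurableSet.iUnion fun n => (depOn_conn G _ x y).measurableSet

/-- cluster of `o` is infinite -/
def infc (G : SimpleGraph V) (o : V) : Set (Sym2 V → Bool) :=
  {ω | {x | (og G ω).Reachable o x}.Infinite}

theorem infc_pos_of_esc [Countable V] {G : SimpleGraph V} {p : unitInterval} {c : ℝ} (o : V)
    (h : ∀ Λ : Finset V, o ∈ Λ → c ≤ (bm (Sym2 V) p).real (esc G (Λ : Set V) o)) :
    c ≤ (bm (Sym2 V) p).real (infc G o) := by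
  classical
  obtain ⟨f, hf⟩ := exists_injective_nat V
  have hfin : ∀ n, {v | f v < n}.Finite := fun n =>
    Set.Finite.preimage hf.injOn (Set.finite_lt_nat n)
  set En : ℕ → Set (Sym2 V → Bool) := fun n => ⋃ y ∈ {y | n ≤ f y}, fconn G o y with hEn
  have hmeas : ∀ n, MeasurableSet (En n) := by
    intro n
    exact MeasurableSet.biUnion (Set.to_countable _) fun y _ => meas_fconn G o y
  have hanti : Antitone En := by
    intro m n hmn ω hω
    simp only [hEn, Set.mem_iUnion, Set.mem_ofPred_eq] at hω ⊢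
    obtain ⟨y, hy, hr⟩ := hω
    exact ⟨y, hmn.trans hy, hr⟩
  have hsub : ⋂ n, En n ⊆ infc G o := by
    intro ω hω hfin2
    have hb : ∃ N, ∀ x, (og G ω).Reachable o x → f x < N := by
      have himg := (hfin2.image f).bddAbove
      obtain ⟨N, hN⟩ := himg
      refine ⟨N + 1, fun x hx => Nat.lt_succ_of_le (hN ⟨x, hx, rfl⟩)⟩
    obtain ⟨N, hN⟩ := hb
    have h1 := Set.mem_iInter.1 hω N
    simp only [hEn, Set.mem_iUnion, Set.mem_ofPred_eq] at h1
    obtain ⟨y, hy, hr⟩ := h1
    exact absurd (hN y hr) (not_lt.2 hy)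
  have hlow : ∀ n, c ≤ (bm (Sym2 V) p).real (En n) := by
    intro n
    have h1 : o ∈ (hfin (n + f o + 1)).toFinset := by
      simp only [Set.Finite.mem_toFinset, Set.mem_ofPred_eq]; omega
    refine (h _ h1).trans (measureReal_mono ?_ (measure_ne_top _ _))
    rintro ω ⟨y, hy, hr⟩
    simp only [Set.Finite.coe_toFinset, Set.mem_ofPred_eq, not_lt] at hy
    simp only [hEn, Set.mem_iUnion, Set.mem_ofPred_eq]
    exact ⟨y, by omega, SimpleGraph.Reachable.mono (hg_le _ _ _) hr⟩
  have hlim := tendsto_measure_iInter_atTop (μ := bm (Sym2 V) p)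
    (fun n => (hmeas n).nullMeasurableSet) hanti ⟨0, measure_ne_top _ _⟩
  have hlim2 : Filter.Tendsto (fun n => (bm (Sym2 V) p).real (En n)) Filter.atTop
      (nhds ((bm (Sym2 V) p).real (⋂ n, En n))) :=
    (ENNReal.tendsto_toReal (measure_ne_top _ _)).comp hlim
  have h2 : c ≤ (bm (Sym2 V) p).real (⋂ n, En n) :=
    ge_of_tendsto' hlim2 hlow
  exact h2.trans (measureReal_mono hsub (measure_ne_top _ _))

theorem infc_pos_of_cycles [Countable V] {G : SimpleGraph V} (hf : LF G) {D : ℕ}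
    (hreg : ∀ v, (nb hf v).card = D)
    {p0 p1 κ : ℝ} (h0 : 0 < p0) (h01 : p0 < p1) (h1 : p1 < 1)
    (hκ : ∀ (S : Finset V) (N : ℕ) (z : V), cyc hf p1 S N z ≤ κ)
    (hD : κ ≤ D - 1 - 1 / p0) (o : V) :
    0 < (bm (Sym2 V) (pr p1)).real (infc G o) := by
  classical
  have hpos : 0 < 1 - p0 * (1 - p1) / ((1 - p0) * p1) := by
    have h2 : 0 < (1 - p0) * p1 := mul_pos (by linarith) (by linarith)
    rw [sub_pos, div_lt_one h2]
    nlinarith
  refine hpos.trans_le (infc_pos_of_esc o ?_)
  intro Λ ho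
  exact esc_lower hf Λ ho h0 h01 h1 fun t ht0 ht1 S _ hoS =>
    phi_ge_one hf hreg h0 h1 ht0 ht1 hκ hD S hoS

end Vale.Agent.P165
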