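import Vale.Agent.Lib.P165.Uniq2

/-!
# Adjacency operator on finitely supported functions
-/

namespace Vale.Agent.P165

variable {V : Type*}

/-- inner product of finitely supported functions -/
noncomputable def ip (f g : V →₀ ℝ) : ℝ := f.sum fun x a => a * g x

lemma ip_eq_sum (f g : V →₀ ℝ) {s : Finset V} (hs : f.support ⊆ s) :
    ip f g = ∑ x ∈ s, f x * g x :=
  Finsupp.sum_of_support_subset f hs _ (by simp)

lemma ip_comm (f g : V →₀ ℝ) : ip f g = ip g f := by
  classical
  rw [ip_eq_sum f g (Finset.subset_union_left (s₂ := g.support)),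
    ip_eq_sum g f (Finset.subset_union_right (s₁ := f.support))]
  exact Finset.sum_congr rfl fun x _ => mul_comm _ _

lemma ip_add_left (f f' g : V →₀ ℝ) : ip (f + f') g = ip f g + ip f' g := by
  unfold ip
  rw [Finsupp.sum_add_index']
  · simp
  · intro a b c; ring

lemma ip_smul_left (c : ℝ) (f g : V →₀ ℝ) : ip (c • f) g = c * ip f g := by
  unfold ip
  rw [Finsupp.sum_smul_index (by simp), Finsupp.mul_sum]
  simp_rw [mul_assoc]

lemma ip_sub_left (f f' g : V →₀ ℝ) : ip (f - f') g = ip f g - ip f' g := by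
  have : f - f' = f + (-1 : ℝ) • f' := by ext; simp [sub_eq_add_neg]
  rw [this, ip_add_left, ip_smul_left]; ring

lemma ip_add_right (f g g' : V →₀ ℝ) : ip f (g + g') = ip f g + ip f g' := by
  rw [ip_comm, ip_add_left, ip_comm g f, ip_comm g' f]

lemma ip_smul_right (c : ℝ) (f g : V →₀ ℝ) : ip f (c • g) = c * ip f g := by
  rw [ip_comm, ip_smul_left, ip_comm]

lemma ip_sub_right (f g g' : V →₀ ℝ) : ip f (g - g') = ip f g - ip f g' := by
  rw [ip_comm, ip_sub_left, ip_comm g f, ip_comm g' f]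

lemma ip_single_left (x : V) (a : ℝ) (g : V →₀ ℝ) : ip (Finsupp.single x a) g = a * g x := by
  unfold ip
  rw [Finsupp.sum_single_index]
  simp

lemma ip_self_nonneg (f : V →₀ ℝ) : 0 ≤ ip f f := by
  rw [ip_eq_sum f f (Finset.Subset.refl _)]
  exact Finset.sum_nonneg fun x _ => mul_self_nonneg _

lemma sum_le_ip {f g : V →₀ ℝ} (hf : ∀ x, 0 ≤ f x) (hg : ∀ x, 0 ≤ g x) (s : Finset V) :
    ∑ x ∈ s, f x * g x ≤ ip f g := by
  classical
  rw [ip_eq_sum f g (Finset.subset_union_left (s₂ := s))]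
  exact Finset.sum_le_sum_of_subset_of_nonneg Finset.subset_union_right
    fun x _ _ => mul_nonneg (hf x) (hg x)

lemma ip_mono {f f' g g' : V →₀ ℝ} (hf : ∀ x, 0 ≤ f x) (hff : ∀ x, f x ≤ f' x)
    (hg : ∀ x, 0 ≤ g x) (hgg : ∀ x, g x ≤ g' x) : ip f g ≤ ip f' g' := by
  classical
  rw [ip_eq_sum f g (Finset.subset_union_left (s₂ := f'.support)),
    ip_eq_sum f' g' (Finset.subset_union_right (s₁ := f.support))]
  exact Finset.sum_le_sum fun x _ => mul_le_mul (hff x) (hgg x) (hg x) ((hf x).trans (hff x))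

lemma ip_nonneg {f g : V →₀ ℝ} (hf : ∀ x, 0 ≤ f x) (hg : ∀ x, 0 ≤ g x) : 0 ≤ ip f g := by
  have := sum_le_ip hf hg ∅
  simpa using this

variable {G : SimpleGraph V}

/-- adjacency operator -/
noncomputable def adjOp (hf : LF G) : (V →₀ ℝ) →ₗ[ℝ] (V →₀ ℝ) :=
  Finsupp.linearCombination ℝ (fun x : V => ∑ y ∈ nb hf x, Finsupp.single y (1 : ℝ))

lemma adjOp_single (hf : LF G) (x : V) (a : ℝ) :
    adjOp hf (Finsupp.single x a) = a • ∑ y ∈ nb hf x, Finsupp.single y (1 : ℝ) := by
  unfold adjOp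
  rw [Finsupp.linearCombination_single]

lemma adjOp_apply (hf : LF G) (f : V →₀ ℝ) (y : V) :
    adjOp hf f y = ∑ x ∈ nb hf y, f x := by
  classical
  induction f using Finsupp.induction_linear with
  | zero => simp
  | add f g h1 h2 =>
    rw [map_add, Finsupp.add_apply, h1, h2, ← Finset.sum_add_distrib]
    rfl
  | single x a =>
    rw [adjOp_single, Finsupp.smul_apply, Finsupp.finsetSum_apply]
    simp only [Finsupp.single_apply, smul_eq_mul]
    rw [Finset.sum_ite_eq' (nb hf x) y, Finset.sum_ite_eq (nb hf y) x]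
    simp only [mem_nb, G.adj_comm x y]
    split_ifs <;> simp

lemma adjOp_symm (hf : LF G) (f g : V →₀ ℝ) : ip (adjOp hf f) g = ip f (adjOp hf g) := by
  classical
  induction f using Finsupp.induction_linear with
  | zero => simp [ip]
  | add f f' h1 h2 => rw [map_add, ip_add_left, ip_add_left, h1, h2]
  | single x a =>
    rw [adjOp_single, ip_smul_left, ip_single_left, adjOp_apply]
    congr 1
    induction nb hf x using Finset.induction_on with
    | empty => simp [ip]
    | insert z s hz ih => rw [Finset.sum_insert hz, Finset.sum_insert hz, ip_add_left, ip_single_left,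
        ih, one_mul]

lemma adjOp_nonneg (hf : LF G) {f : V →₀ ℝ} (h : ∀ x, 0 ≤ f x) (x : V) : 0 ≤ adjOp hf f x := by
  rw [adjOp_apply]
  exact Finset.sum_nonneg fun y _ => h y

lemma adjOp_mono (hf : LF G) {f g : V →₀ ℝ} (h : ∀ x, f x ≤ g x) (x : V) :
    adjOp hf f x ≤ adjOp hf g x := by
  rw [adjOp_apply, adjOp_apply]
  exact Finset.sum_le_sum fun y _ => h y

/-- pointwise absolute value -/
noncomputable def fabs (f : V →₀ ℝ) : V →₀ ℝ := f.mapRange abs abs_zero

lemma fabs_apply (f : V →₀ ℝ) (x : V) : fabs f x = |f x| := by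
  simp [fabs]

lemma ip_fabs (f : V →₀ ℝ) : ip (fabs f) (fabs f) = ip f f := by
  classical
  rw [ip_eq_sum f f (Finset.subset_union_left (s₂ := (fabs f).support)),
    ip_eq_sum (fabs f) (fabs f) (Finset.subset_union_right (s₁ := f.support))]
  apply Finset.sum_congr rfl
  intro x _
  rw [fabs_apply, abs_mul_abs_self]

lemma abs_ip_adj (hf : LF G) (f : V →₀ ℝ) :
    |ip (adjOp hf f) f| ≤ ip (adjOp hf (fabs f)) (fabs f) := by
  classical
  rw [ip_comm, ip_comm (adjOp hf (fabs f))]
  rw [ip_eq_sum f _ (Finset.subset_union_left (s₂ := (fabs f).support)),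
    ip_eq_sum (fabs f) _ (Finset.subset_union_right (s₁ := f.support))]
  refine (Finset.abs_sum_le_sum_abs _ _).trans (Finset.sum_le_sum fun x _ => ?_)
  rw [abs_mul, fabs_apply]
  apply mul_le_mul_of_nonneg_left _ (abs_nonneg _)
  rw [adjOp_apply, adjOp_apply]
  refine (Finset.abs_sum_le_sum_abs _ _).trans (Finset.sum_le_sum fun y _ => ?_)
  rw [fabs_apply]

/-- spectral bound on nonnegative functions -/
def SpecBd (hf : LF G) (L : ℝ) : Prop :=
  ∀ f : V →₀ ℝ, (∀ x, 0 ≤ f x) → ip (adjOp hf f) f ≤ L * ip f f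

lemma SpecBd.abs {hf : LF G} {L : ℝ} (h : SpecBd hf L) (f : V →₀ ℝ) :
    |ip (adjOp hf f) f| ≤ L * ip f f := by
  refine (abs_ip_adj hf f).trans ?_
  have := h (fabs f) (fun x => by rw [fabs_apply]; exact abs_nonneg _)
  rwa [ip_fabs] at this

lemma SpecBd.two {hf : LF G} {L : ℝ} (h : SpecBd hf L) (f g : V →₀ ℝ) :
    2 * ip (adjOp hf f) g ≤ L * (ip f f + ip g g) := by
  have h1 := (le_abs_self _).trans (h.abs (f + g))
  have h2 := (neg_le_abs _).trans (h.abs (f - g))
  simp only [map_add, map_sub, ip_add_left, ip_add_right, ip_sub_left, ip_sub_right] at h1 h2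
  have h3 : ip (adjOp hf g) f = ip (adjOp hf f) g := by rw [adjOp_symm, ip_comm]
  have h4 : ip g f = ip f g := ip_comm _ _
  rw [h3, h4] at h1 h2
  linarith

end Vale.Agent.P165
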