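import Vale.Agent.Lib.P165.L2

/-!
# Non-backtracking type recursion, domination of simple path counts, Lyapunov functional
-/

namespace Vale.Agent.P165

variable {V : Type*} {G : SimpleGraph V}

/-- the sequence `m_0 = δ_y`, `m_1 = A δ_y`, `m_{n+2} = A m_{n+1} - q m_n` -/
noncomputable def mseq (hf : LF G) (q : ℝ) (y : V) : ℕ → (V →₀ ℝ)
  | 0 => Finsupp.single y 1
  | 1 => adjOp hf (Finsupp.single y 1)
  | (n + 2) => adjOp hf (mseq hf q y (n + 1)) - q • mseq hf q y n

lemma mseq_succ_succ (hf : LF G) (q : ℝ) (y : V) (n : ℕ) :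
    mseq hf q y (n + 2) = adjOp hf (mseq hf q y (n + 1)) - q • mseq hf q y n := rfl

/-- dart masses -/
noncomputable def Nseq (hf : LF G) (q : ℝ) (y : V) : ℕ → V → V → ℝ
  | 0 => fun _ _ => 0
  | (n + 1) => fun x z => mseq hf q y n x - Nseq hf q y n z x

/-- fresh masses -/
noncomputable def Fseq (hf : LF G) (q : ℝ) (y : V) : ℕ → V → ℝ
  | 0 => fun x => Finsupp.single y (1 : ℝ) x
  | 1 => fun _ => 0
  | (n + 2) => fun x => Fseq hf q y n x + ((nb hf x).card - 1 - q) * mseq hf q y n x

lemma single_nonneg' (y x : V) : 0 ≤ Finsupp.single y (1 : ℝ) x := by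
  classical
  rw [Finsupp.single_apply]; split_ifs <;> norm_num

lemma NF_main (hf : LF G) {q : ℝ} (hq : ∀ x, q ≤ (nb hf x).card - 1) (y : V) : ∀ n : ℕ,
    (∀ x, ∑ w ∈ nb hf x, Nseq hf q y n w x + Fseq hf q y n x = mseq hf q y n x) ∧
    (∀ x, 0 ≤ Fseq hf q y n x) ∧ (∀ x, 0 ≤ mseq hf q y n x) ∧
    (∀ w x, G.Adj w x → 0 ≤ Nseq hf q y n w x) := by
  intro n
  induction n using Nat.strong_induction_on with
  | _ n ih =>
    match n with
    | 0 =>
      refine ⟨?_, ?_, ?_, ?_⟩
      · intro x; simp [Nseq, Fseq, mseq]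
      · intro x; exact single_nonneg' y x
      · intro x; exact single_nonneg' y x
      · intro w x _; simp [Nseq]
    | 1 =>
      refine ⟨?_, ?_, ?_, ?_⟩
      · intro x
        simp only [Nseq, Fseq, mseq, sub_zero, add_zero]
        rw [adjOp_apply]
      · intro x; simp [Fseq]
      · intro x; exact adjOp_nonneg hf (single_nonneg' y) x
      · intro w x _
        simp only [Nseq, mseq, sub_zero]
        exact single_nonneg' y w
    | (n + 2) =>
      obtain ⟨a0, b0, c0, d0⟩ := ih n (by omega)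
      obtain ⟨a1, b1, c1, d1⟩ := ih (n + 1) (by omega)
      have hN : ∀ w x, G.Adj w x → 0 ≤ Nseq hf q y (n + 2) w x := by
        intro w x hwx
        have h1 : Nseq hf q y (n + 1) x w ≤ ∑ v ∈ nb hf w, Nseq hf q y (n + 1) v w := by
          apply Finset.single_le_sum (f := fun v => Nseq hf q y (n + 1) v w)
          · intro v hv
            exact d1 v w (mem_nb.1 hv).symm
          · exact mem_nb.2 hwx
        have h2 := a1 w
        have h3 := b1 w
        change 0 ≤ mseq hf q y (n + 1) w - Nseq hf q y (n + 1) x w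
        linarith
      have hF : ∀ x, 0 ≤ Fseq hf q y (n + 2) x := by
        intro x
        change 0 ≤ Fseq hf q y n x + ((nb hf x).card - 1 - q) * mseq hf q y n x
        have := mul_nonneg (sub_nonneg.2 (hq x)) (c0 x)
        linarith [b0 x]
      have ha : ∀ x, ∑ w ∈ nb hf x, Nseq hf q y (n + 2) w x + Fseq hf q y (n + 2) x =
          mseq hf q y (n + 2) x := by
        intro x
        have e1 : ∑ w ∈ nb hf x, Nseq hf q y (n + 2) w x =
            ∑ w ∈ nb hf x, mseq hf q y (n + 1) w - ∑ w ∈ nb hf x, Nseq hf q y (n + 1) x w := by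
          rw [← Finset.sum_sub_distrib]; rfl
        have e2 : ∑ w ∈ nb hf x, Nseq hf q y (n + 1) x w =
            (nb hf x).card * mseq hf q y n x - ∑ w ∈ nb hf x, Nseq hf q y n w x := by
          have : ∑ w ∈ nb hf x, Nseq hf q y (n + 1) x w =
            ∑ w ∈ nb hf x, (mseq hf q y n x - Nseq hf q y n w x) := rfl
          rw [this, Finset.sum_sub_distrib, Finset.sum_const, nsmul_eq_mul]
        have e3 : Fseq hf q y (n + 2) x =
            Fseq hf q y n x + ((nb hf x).card - 1 - q) * mseq hf q y n x := rfl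
        rw [e1, e2, e3, mseq_succ_succ, Finsupp.sub_apply, Finsupp.smul_apply, adjOp_apply,
          smul_eq_mul]
        have := a0 x
        linarith
      refine ⟨ha, hF, ?_, hN⟩
      intro x
      rw [← ha x]
      exact add_nonneg (Finset.sum_nonneg fun w hw => hN w x (mem_nb.1 hw).symm) (hF x)

lemma mseq_nonneg (hf : LF G) {q : ℝ} (hq : ∀ x, q ≤ (nb hf x).card - 1) (y : V) (n : ℕ) (x : V) :
    0 ≤ mseq hf q y n x := (NF_main hf hq y n).2.2.1 x

section
variable [DecidableEq V]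

/-- number of simple paths of length `n` from `w` to `y` avoiding `x` -/
noncomputable def Pc (hf : LF G) (y : V) (n : ℕ) (x w : V) : ℕ :=
  ((paths hf n w y).filter (fun π => x ∉ π.support)).card

lemma Pc_le (hf : LF G) (y : V) (n : ℕ) (x w : V) : Pc hf y n x w ≤ np hf n w y :=
  Finset.card_filter_le _ _

lemma Pc_succ (hf : LF G) (y : V) (n : ℕ) (z x : V) :
    Pc hf y (n + 1) z x ≤ ∑ w ∈ (nb hf x).erase z, Pc hf y n x w := by
  have hsub : (paths hf (n + 1) x y).filter (fun π => z ∉ π.support) ⊆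
      ((nb hf x).erase z).attach.biUnion (fun w =>
        ((paths hf n w.1 y).filter (fun π => x ∉ π.support)).image
          (fun π => SimpleGraph.Walk.cons (mem_nb.1 (Finset.mem_of_mem_erase w.2)) π)) := by
    intro π hπ
    rw [Finset.mem_filter, mem_paths] at hπ
    obtain ⟨⟨hp, hl⟩, hz⟩ := hπ
    cases π with
    | nil => simp at hl
    | @cons _ w _ h π' =>
      rw [SimpleGraph.Walk.cons_isPath_iff] at hp
      rw [Finset.mem_biUnion]
      have hwz : w ≠ z := by
        rintro rfl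
        apply hz
        rw [SimpleGraph.Walk.support_cons]
        exact List.mem_cons_of_mem _ (SimpleGraph.Walk.start_mem_support π')
      refine ⟨⟨w, Finset.mem_erase.2 ⟨hwz, mem_nb.2 h⟩⟩, Finset.mem_attach _ _, ?_⟩
      rw [Finset.mem_image]
      refine ⟨π', ?_, rfl⟩
      rw [Finset.mem_filter, mem_paths]
      refine ⟨⟨hp.1, ?_⟩, hp.2⟩
      simpa using hl
  refine (Finset.card_le_card hsub).trans (Finset.card_biUnion_le.trans ?_)
  rw [← Finset.sum_attach ((nb hf x).erase z) (fun w => Pc hf y n x w)]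
  exact Finset.sum_le_sum fun w _ => Finset.card_image_le

lemma np_succ (hf : LF G) (y : V) (n : ℕ) (x : V) :
    np hf (n + 1) x y ≤ ∑ w ∈ nb hf x, Pc hf y n x w := by
  have hsub : (paths hf (n + 1) x y) ⊆
      (nb hf x).attach.biUnion (fun w =>
        ((paths hf n w.1 y).filter (fun π => x ∉ π.support)).image
          (fun π => SimpleGraph.Walk.cons (mem_nb.1 w.2) π)) := by
    intro π hπ
    rw [mem_paths] at hπ
    obtain ⟨hp, hl⟩ := hπ
    cases π with
    | nil => simp at hl
    | @cons _ w _ h π' =>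
      rw [SimpleGraph.Walk.cons_isPath_iff] at hp
      rw [Finset.mem_biUnion]
      refine ⟨⟨w, mem_nb.2 h⟩, Finset.mem_attach _ _, ?_⟩
      rw [Finset.mem_image]
      refine ⟨π', ?_, rfl⟩
      rw [Finset.mem_filter, mem_paths]
      refine ⟨⟨hp.1, ?_⟩, hp.2⟩
      simpa using hl
  refine (Finset.card_le_card hsub).trans (Finset.card_biUnion_le.trans ?_)
  rw [← Finset.sum_attach (nb hf x) (fun w => Pc hf y n x w)]
  exact Finset.sum_le_sum fun w _ => Finset.card_image_le

lemma np_zero (hf : LF G) (x y : V) : (np hf 0 x y : ℝ) ≤ Finsupp.single y (1 : ℝ) x := by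
  rw [Finsupp.single_apply]
  split_ifs with h
  · subst h
    have : paths hf 0 y y ⊆ {SimpleGraph.Walk.nil} := by
      intro π hπ
      rw [mem_paths] at hπ
      rw [Finset.mem_singleton]
      cases π with
      | nil => rfl
      | cons h π' => simp at hπ
    have h2 := Finset.card_le_card this
    rw [Finset.card_singleton] at h2
    exact_mod_cast h2
  · have : paths hf 0 x y = ∅ := by
      rw [Finset.eq_empty_iff_forall_notMem]
      intro π hπ
      rw [mem_paths] at hπ
      exact h (SimpleGraph.Walk.eq_of_length_eq_zero hπ.2).symm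
    unfold np
    rw [this]; simp

lemma Pc_le_N (hf : LF G) {q : ℝ} (hq : ∀ x, q ≤ (nb hf x).card - 1) (y : V) (n : ℕ) :
    ∀ z x, G.Adj z x → (Pc hf y n z x : ℝ) ≤ Nseq hf q y (n + 1) x z := by
  induction n with
  | zero =>
    intro z x _
    have h1 : (Pc hf y 0 z x : ℝ) ≤ np hf 0 x y := by exact_mod_cast Pc_le hf y 0 z x
    refine h1.trans ((np_zero hf x y).trans ?_)
    simp [Nseq, mseq]
  | succ n ih =>
    intro z x hzx
    have h1 : (Pc hf y (n + 1) z x : ℝ) ≤ ∑ w ∈ (nb hf x).erase z, (Pc hf y n x w : ℝ) := by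
      exact_mod_cast Pc_succ hf y n z x
    refine h1.trans ?_
    have h2 : ∑ w ∈ (nb hf x).erase z, (Pc hf y n x w : ℝ) ≤
        ∑ w ∈ (nb hf x).erase z, Nseq hf q y (n + 1) w x := by
      apply Finset.sum_le_sum
      intro w hw
      exact ih x w (mem_nb.1 (Finset.mem_of_mem_erase hw))
    refine h2.trans ?_
    have h3 := Finset.sum_erase_add (nb hf x) (fun w => Nseq hf q y (n + 1) w x)
      (mem_nb.2 hzx.symm)
    have h4 := (NF_main hf hq y (n + 1)).1 x
    have h5 := (NF_main hf hq y (n + 1)).2.1 x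
    change _ ≤ mseq hf q y (n + 1) x - Nseq hf q y (n + 1) z x
    linarith

end

lemma np_le_mseq (hf : LF G) {q : ℝ} (hq : ∀ x, q ≤ (nb hf x).card - 1) (y : V) (n : ℕ) (x : V) :
    (np hf n x y : ℝ) ≤ mseq hf q y n x := by
  classical
  cases n with
  | zero => exact np_zero hf x y
  | succ n =>
    have h1 : (np hf (n + 1) x y : ℝ) ≤ ∑ w ∈ nb hf x, (Pc hf y n x w : ℝ) := by
      exact_mod_cast np_succ hf y n x
    refine h1.trans ?_
    have h2 : ∑ w ∈ nb hf x, (Pc hf y n x w : ℝ) ≤ ∑ w ∈ nb hf x, Nseq hf q y (n + 1) w x := by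
      apply Finset.sum_le_sum
      intro w hw
      exact Pc_le_N hf hq y n x w (mem_nb.1 hw)
    have h4 := (NF_main hf hq y (n + 1)).1 x
    have h5 := (NF_main hf hq y (n + 1)).2.1 x
    linarith

/-- powers of the adjacency operator applied to a delta -/
noncomputable def wseq (hf : LF G) (y : V) : ℕ → (V →₀ ℝ)
  | 0 => Finsupp.single y 1
  | (n + 1) => adjOp hf (wseq hf y n)

lemma wseq_nonneg (hf : LF G) (y : V) (n : ℕ) : ∀ x, 0 ≤ wseq hf y n x := by
  induction n with
  | zero => exact single_nonneg' y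
  | succ n ih => exact adjOp_nonneg hf ih

lemma mseq_le_wseq (hf : LF G) {q : ℝ} (hq0 : 0 ≤ q) (hq : ∀ x, q ≤ (nb hf x).card - 1) (y : V) :
    ∀ n : ℕ, ∀ x, mseq hf q y n x ≤ wseq hf y n x := by
  intro n
  induction n with
  | zero => intro x; exact le_refl _
  | succ n ih =>
    intro x
    cases n with
    | zero => exact le_refl _
    | succ n =>
      rw [mseq_succ_succ, Finsupp.sub_apply, Finsupp.smul_apply, smul_eq_mul]
      have h1 := mul_nonneg hq0 (mseq_nonneg hf hq y n x)
      have h2 := adjOp_mono hf ih x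
      change _ ≤ adjOp hf (wseq hf y (n + 1)) x
      linarith

lemma ip_wseq (hf : LF G) (y : V) : ∀ i j : ℕ, ip (wseq hf y i) (wseq hf y j) = wseq hf y (i + j) y := by
  intro i
  induction i with
  | zero =>
    intro j
    change ip (Finsupp.single y 1) _ = _
    rw [ip_single_left, one_mul, zero_add]
  | succ i ih =>
    intro j
    change ip (adjOp hf (wseq hf y i)) _ = _
    rw [adjOp_symm]
    have := ih (j + 1)
    rw [show i + 1 + j = i + (j + 1) by ring]
    exact this

lemma ip_mseq_le (hf : LF G) {q : ℝ} (hq0 : 0 ≤ q) (hq : ∀ x, q ≤ (nb hf x).card - 1) (y : V)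
    (n : ℕ) : ip (mseq hf q y n) (mseq hf q y n) ≤ wseq hf y (2 * n) y := by
  rw [two_mul, ← ip_wseq]
  exact ip_mono (mseq_nonneg hf hq y n) (mseq_le_wseq hf hq0 hq y n) (mseq_nonneg hf hq y n)
    (mseq_le_wseq hf hq0 hq y n)

lemma ip_mseq_adj_le (hf : LF G) {q : ℝ} (hq0 : 0 ≤ q) (hq : ∀ x, q ≤ (nb hf x).card - 1) (y : V)
    (i j : ℕ) : ip (mseq hf q y i) (adjOp hf (mseq hf q y j)) ≤ wseq hf y (i + j + 1) y := by
  rw [add_assoc, ← ip_wseq]
  exact ip_mono (mseq_nonneg hf hq y i) (mseq_le_wseq hf hq0 hq y i)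
    (adjOp_nonneg hf (mseq_nonneg hf hq y j)) (adjOp_mono hf (mseq_le_wseq hf hq0 hq y j))

open Classical in
lemma cyc_term_le (hf : LF G) {q : ℝ} (hq : ∀ x, q ≤ (nb hf x).card - 1) (z : V)
    (i j : ℕ) (S : Finset V) :
    ∑ x ∈ S, ∑ y ∈ S.filter (fun y => G.Adj x y), (np hf i x z : ℝ) * (np hf j z y : ℝ) ≤
      ip (mseq hf q z i) (adjOp hf (mseq hf q z j)) := by
  refine le_trans ?_ (sum_le_ip (mseq_nonneg hf hq z i) (adjOp_nonneg hf (mseq_nonneg hf hq z j)) S)
  apply Finset.sum_le_sum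
  intro x _
  rw [← Finset.mul_sum, adjOp_apply]
  apply mul_le_mul (np_le_mseq hf hq z i x) _ (by positivity) (mseq_nonneg hf hq z i x)
  calc ∑ y ∈ S.filter (fun y => G.Adj x y), (np hf j z y : ℝ)
      ≤ ∑ y ∈ nb hf x, (np hf j z y : ℝ) := by
        apply Finset.sum_le_sum_of_subset_of_nonneg
        · intro y hy
          exact mem_nb.2 (Finset.mem_filter.1 hy).2
        · intro y _ _; positivity
    _ ≤ _ := by
        apply Finset.sum_le_sum
        intro y _
        rw [np_symm]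
        exact np_le_mseq hf hq z j y

/-! ### Lyapunov functional -/

/-- scaled sequence -/
noncomputable def useq (hf : LF G) (q t : ℝ) (y : V) (n : ℕ) : V →₀ ℝ := t ^ n • mseq hf q y n

lemma useq_rec (hf : LF G) (q t : ℝ) (y : V) (n : ℕ) :
    useq hf q t y (n + 2) = t • adjOp hf (useq hf q t y (n + 1)) - (q * t ^ 2) • useq hf q t y n := by
  unfold useq
  rw [mseq_succ_succ, map_smul, smul_sub, smul_smul, smul_smul, smul_smul]
  congr 2 <;> ring

/-- the Lyapunov functional -/
noncomputable def Lya (hf : LF G) (q t : ℝ) (y : V) (n : ℕ) : ℝ :=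
  (1 + q * t ^ 2) * (ip (useq hf q t y (n + 1)) (useq hf q t y (n + 1))
    + ip (useq hf q t y n) (useq hf q t y n))
  - 2 * t * ip (adjOp hf (useq hf q t y (n + 1))) (useq hf q t y n)

lemma Lya_anti (hf : LF G) {q t : ℝ} (y : V) (hb : q * t ^ 2 ≤ 1) : Antitone (Lya hf q t y) := by
  apply antitone_nat_of_succ_le
  intro n
  unfold Lya
  rw [useq_rec hf q t y n]
  set u := useq hf q t y (n + 1)
  set v := useq hf q t y n
  set b := q * t ^ 2
  have hw := ip_self_nonneg (t • adjOp hf u - (1 + b) • v)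
  have h1 : ip (adjOp hf (adjOp hf u)) u = ip (adjOp hf u) (adjOp hf u) := adjOp_symm hf _ _
  have h2 : ip (adjOp hf v) u = ip (adjOp hf u) v := by rw [adjOp_symm, ip_comm]
  have h3 : ip v (adjOp hf u) = ip (adjOp hf u) v := ip_comm _ _
  simp only [map_sub, map_smul, ip_sub_left, ip_sub_right, ip_smul_left, ip_smul_right, h1, h2, h3] at hw ⊢
  nlinarith [mul_nonneg (sub_nonneg.2 hb) hw]

lemma Lya_lower (hf : LF G) {q t L : ℝ} (ht : 0 ≤ t) (y : V) (hL : SpecBd hf L) (n : ℕ) :
    (1 + q * t ^ 2 - t * L) * (ip (useq hf q t y (n + 1)) (useq hf q t y (n + 1))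
    + ip (useq hf q t y n) (useq hf q t y n)) ≤ Lya hf q t y n := by
  unfold Lya
  have := mul_le_mul_of_nonneg_left (hL.two (useq hf q t y (n + 1)) (useq hf q t y n)) ht
  nlinarith

lemma useq_nonneg (hf : LF G) {q t : ℝ} (ht : 0 ≤ t) (hq : ∀ x, q ≤ (nb hf x).card - 1) (y : V)
    (n : ℕ) (x : V) : 0 ≤ useq hf q t y n x := by
  unfold useq
  rw [Finsupp.smul_apply, smul_eq_mul]
  exact mul_nonneg (pow_nonneg ht n) (mseq_nonneg hf hq y n x)

lemma Lya_upper (hf : LF G) {q t : ℝ} (ht : 0 ≤ t) (hq : ∀ x, q ≤ (nb hf x).card - 1) (y : V)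
    (n : ℕ) : Lya hf q t y n ≤ (1 + q * t ^ 2) * (ip (useq hf q t y (n + 1)) (useq hf q t y (n + 1))
    + ip (useq hf q t y n) (useq hf q t y n)) := by
  unfold Lya
  have := ip_nonneg (adjOp_nonneg hf (useq_nonneg hf ht hq y (n + 1))) (useq_nonneg hf ht hq y n)
  nlinarith [mul_nonneg ht this]

end Vale.Agent.P165
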