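import Vale.Agent.Lib.P165.NB

/-!
# Numerical part: few cycles and spectral gap imply `p_c < p_u`
-/

open MeasureTheory

namespace Vale.Agent.P165

variable {V : Type*} {G : SimpleGraph V}

/-- standing numerical assumptions -/
structure Num (hf : LF G) (D : ℕ) (g C t : ℝ) : Prop where
  hreg : ∀ v, (nb hf v).card = D
  hg : 0 < g
  hC : 1 ≤ C
  hD4 : (4 : ℝ) ≤ D
  hDg : 2 + g ≤ (D : ℝ)
  spec : SpecBd hf (D - g)
  cw : ∀ z, ∀ n ≤ 24, wseq hf z n z ≤ C * (D : ℝ) ^ (n / 2)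
  ht : t = 1 / (D - 1 - g / 2)

namespace Num

variable {hf : LF G} {D : ℕ} {g C t : ℝ}

lemma hhalf (h : Num hf D g C t) : (D : ℝ) / 2 ≤ D - 1 - g / 2 := by
  have := h.hDg; linarith

lemma Dpos (h : Num hf D g C t) : (0 : ℝ) < D := by
  have := h.hD4; linarith

lemma den_pos (h : Num hf D g C t) : (0 : ℝ) < D - 1 - g / 2 := by
  have := h.hhalf; have := h.hD4; linarith

lemma tpos (h : Num hf D g C t) : 0 < t := by
  rw [h.ht]; exact one_div_pos.2 h.den_pos

lemma t_le (h : Num hf D g C t) : t ≤ 2 / D := by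
  rw [h.ht, show (2 : ℝ) / D = 1 / (D / 2) by field_simp]
  exact one_div_le_one_div_of_le (half_pos h.Dpos) h.hhalf

lemma le_t (h : Num hf D g C t) : 1 / (D : ℝ) ≤ t := by
  rw [h.ht]
  apply one_div_le_one_div_of_le h.den_pos
  have := h.hg; linarith

lemma hq (h : Num hf D g C t) : ∀ x, ((D : ℝ) - 1) ≤ (nb hf x).card - 1 := by
  intro x; rw [h.hreg]

lemma hq0 (h : Num hf D g C t) : (0 : ℝ) ≤ (D : ℝ) - 1 := by
  have := h.hD4; linarith

lemma hb (h : Num hf D g C t) : ((D : ℝ) - 1) * t ^ 2 ≤ 1 := by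
  have h1 : t * (D - 1 - g / 2) = 1 := by
    rw [h.ht]; exact one_div_mul_cancel h.den_pos.ne'
  have h2 := h.hhalf
  have h3 := h.hD4
  have h4 : (D : ℝ) - 1 ≤ (D - 1 - g / 2) ^ 2 := by nlinarith
  have h5 : (t * (D - 1 - g / 2)) ^ 2 = 1 := by rw [h1]; norm_num
  have h6 := mul_le_mul_of_nonneg_right h4 (sq_nonneg t)
  nlinarith

lemma gamma (h : Num hf D g C t) : t * g / 2 ≤ 1 + ((D : ℝ) - 1) * t ^ 2 - t * (D - g) := by
  have h1 : t * (D - 1 - g / 2) = 1 := by
    rw [h.ht]; exact one_div_mul_cancel h.den_pos.ne'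
  have h2 : ((D : ℝ) - 1) * t ^ 2 ≥ t := by
    have h3 : ((D : ℝ) - 1) * t ≥ 1 := by
      have := mul_nonneg h.tpos.le h.hg.le
      nlinarith
    have := mul_le_mul_of_nonneg_left h3 h.tpos.le
    nlinarith
  nlinarith

/-- squared norms -/
lemma B_small (h : Num hf D g C t) (z : V) (n : ℕ) (hn : 2 * n ≤ 24) :
    ip (useq hf (D - 1) t z n) (useq hf (D - 1) t z n) ≤ 4 ^ n * C / (D : ℝ) ^ n := by
  unfold useq
  rw [ip_smul_left, ip_smul_right]
  have h1 := ip_mseq_le hf h.hq0 h.hq z n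
  have h2 := h.cw z (2 * n) hn
  rw [Nat.mul_div_cancel_left n (by norm_num)] at h2
  have h3 : t ^ n ≤ (2 / (D : ℝ)) ^ n := pow_le_pow_left₀ h.tpos.le h.t_le n
  have h4 : 0 ≤ t ^ n := pow_nonneg h.tpos.le n
  have hDp := h.Dpos
  calc t ^ n * (t ^ n * ip (mseq hf (D - 1) z n) (mseq hf (D - 1) z n))
      ≤ (2 / (D : ℝ)) ^ n * ((2 / (D : ℝ)) ^ n * (C * (D : ℝ) ^ n)) := by
        apply mul_le_mul h3 _ (mul_nonneg h4 (ip_self_nonneg _)) (by positivity)
        exact mul_le_mul h3 (h1.trans h2) (ip_self_nonneg _) (by positivity)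
    _ = 4 ^ n * C / (D : ℝ) ^ n := by
        rw [div_pow, show (4 : ℝ) ^ n = 2 ^ n * 2 ^ n by rw [← mul_pow]; norm_num]
        field_simp

lemma B_late (h : Num hf D g C t) (z : V) {i n : ℕ} (hin : i ≤ n) :
    ip (useq hf (D - 1) t z n) (useq hf (D - 1) t z n) ≤
      4 * D / g * (ip (useq hf (D - 1) t z (i + 1)) (useq hf (D - 1) t z (i + 1)) +
        ip (useq hf (D - 1) t z i) (useq hf (D - 1) t z i)) := by
  have h1 := Lya_lower hf h.tpos.le z h.spec (q := (D : ℝ) - 1) n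
  have h2 := Lya_anti hf z h.hb hin
  have h3 := Lya_upper hf h.tpos.le h.hq z i
  set Bn := ip (useq hf ((D : ℝ) - 1) t z n) (useq hf (D - 1) t z n)
  set Bn1 := ip (useq hf ((D : ℝ) - 1) t z (n + 1)) (useq hf (D - 1) t z (n + 1))
  set Bi := ip (useq hf ((D : ℝ) - 1) t z i) (useq hf (D - 1) t z i)
  set Bi1 := ip (useq hf ((D : ℝ) - 1) t z (i + 1)) (useq hf (D - 1) t z (i + 1))
  have hBn : 0 ≤ Bn := ip_self_nonneg _
  have hBn1 : 0 ≤ Bn1 := ip_self_nonneg _
  have hBi : 0 ≤ Bi := ip_self_nonneg _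
  have hBi1 : 0 ≤ Bi1 := ip_self_nonneg _
  have hgm := h.gamma
  have h4 : t * g / 2 * Bn ≤ (1 + (D - 1) * t ^ 2 - t * (D - g)) * (Bn1 + Bn) := by
    have hnn : 0 ≤ t * g / 2 := by have := mul_pos h.tpos h.hg; linarith
    calc t * g / 2 * Bn ≤ t * g / 2 * (Bn1 + Bn) := by
          apply mul_le_mul_of_nonneg_left _ hnn; linarith
      _ ≤ _ := mul_le_mul_of_nonneg_right hgm (by linarith)
  have h5 : (1 + ((D : ℝ) - 1) * t ^ 2) * (Bi1 + Bi) ≤ 2 * (Bi1 + Bi) := by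
    apply mul_le_mul_of_nonneg_right _ (by linarith)
    have := h.hb; linarith
  have h6 : t * g / 2 * Bn ≤ 2 * (Bi1 + Bi) := by linarith
  have h7 : g / (2 * D) * Bn ≤ 2 * (Bi1 + Bi) := by
    refine le_trans ?_ h6
    apply mul_le_mul_of_nonneg_right _ hBn
    have := mul_le_mul_of_nonneg_right h.le_t h.hg.le
    have e : g / (2 * D) = 1 / (D : ℝ) * g / 2 := by field_simp
    rw [e]; linarith
  have hDp := h.Dpos
  have hgp := h.hg
  have e2 : Bn = 2 * D / g * (g / (2 * D) * Bn) := by field_simp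
  rw [e2]
  calc 2 * (D : ℝ) / g * (g / (2 * D) * Bn) ≤ 2 * D / g * (2 * (Bi1 + Bi)) :=
        mul_le_mul_of_nonneg_left h7 (by positivity)
    _ = 4 * D / g * (Bi1 + Bi) := by ring

lemma B_all (h : Num hf D g C t) (z : V) (n : ℕ) :
    ip (useq hf (D - 1) t z n) (useq hf (D - 1) t z n) ≤ 8 * C * D / g := by
  have h1 := h.B_late z (Nat.zero_le n)
  have h2 := h.B_small z 0 (by norm_num)
  have h3 := h.B_small z 1 (by norm_num)
  have hDp := h.Dpos
  have hgp := h.hg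
  refine h1.trans ?_
  have h4 : 4 ^ 1 * C / (D : ℝ) ^ 1 ≤ C := by
    rw [pow_one, pow_one, div_le_iff₀ hDp]
    have := h.hD4; have := h.hC; nlinarith
  have h5 : 4 ^ 0 * C / (D : ℝ) ^ 0 = C := by simp
  calc _ ≤ 4 * D / g * (C + C) := by
        apply mul_le_mul_of_nonneg_left _ (by positivity)
        simp only [zero_add]
        linarith
    _ = _ := by ring

lemma B_eleven (h : Num hf D g C t) (z : V) {n : ℕ} (hn : 11 ≤ n) :
    ip (useq hf (D - 1) t z n) (useq hf (D - 1) t z n) ≤ 2 ^ 25 * C / (g * (D : ℝ) ^ 10) := by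
  have h1 := h.B_late z hn
  have h2 := h.B_small z 11 (by norm_num)
  have h3 := h.B_small z 12 (by norm_num)
  have hDp := h.Dpos
  have hgp := h.hg
  have hCp : 0 < C := by have := h.hC; linarith
  refine h1.trans ?_
  have h4 : 4 ^ 12 * C / (D : ℝ) ^ 12 ≤ 4 ^ 11 * C / (D : ℝ) ^ 11 := by
    rw [div_le_div_iff₀ (by positivity) (by positivity)]
    have h5 := h.hD4
    have h6 : (4 : ℝ) ^ 12 * C * D ^ 11 = 4 ^ 11 * C * (D ^ 11 * 4) := by ring
    rw [h6, pow_succ (D : ℝ) 11]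
    apply mul_le_mul_of_nonneg_left _ (by positivity)
    apply mul_le_mul_of_nonneg_left h5 (by positivity)
  calc _ ≤ 4 * D / g * (4 ^ 11 * C / (D : ℝ) ^ 11 + 4 ^ 11 * C / (D : ℝ) ^ 11) := by
        apply mul_le_mul_of_nonneg_left _ (by positivity)
        linarith
    _ = _ := by
        field_simp
        norm_num

lemma cross (h : Num hf D g C t) (z : V) {i j : ℕ} (hij : 11 ≤ i ∨ 11 ≤ j) :
    ip (useq hf (D - 1) t z i) (adjOp hf (useq hf (D - 1) t z j)) ≤
      2 ^ 25 * C / (g * (D : ℝ) ^ 3) := by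
  wlog hj : 11 ≤ j generalizing i j
  · have h1 := this (i := j) (j := i) hij.symm (by tauto)
    rwa [ip_comm, adjOp_symm]
  have hDp := h.Dpos
  have hgp := h.hg
  have hCp : 0 < C := by have := h.hC; linarith
  have h1 := h.spec.two (((D : ℝ) ^ 3) • useq hf (D - 1) t z j)
    ((1 / (D : ℝ) ^ 3) • useq hf (D - 1) t z i)
  rw [map_smul, ip_smul_left, ip_smul_left, ip_smul_left, ip_smul_right, ip_smul_right,
    ip_smul_right] at h1
  have h2 := h.B_all z i
  have h3 := h.B_eleven z hj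
  rw [ip_comm]
  set Bi := ip (useq hf ((D : ℝ) - 1) t z i) (useq hf (D - 1) t z i)
  set Bj := ip (useq hf ((D : ℝ) - 1) t z j) (useq hf (D - 1) t z j)
  set X := ip (adjOp hf (useq hf ((D : ℝ) - 1) t z j)) (useq hf (D - 1) t z i)
  have hBi : 0 ≤ Bi := ip_self_nonneg _
  have hBj : 0 ≤ Bj := ip_self_nonneg _
  have e1 : 2 * ((D : ℝ) ^ 3 * (1 / (D : ℝ) ^ 3 * X)) = 2 * X := by field_simp
  rw [e1] at h1
  have h4 : 2 * X ≤ D * ((D : ℝ) ^ 6 * Bj + Bi / (D : ℝ) ^ 6) := by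
    refine h1.trans ?_
    have e2 : (D : ℝ) ^ 3 * ((D : ℝ) ^ 3 * Bj) + 1 / (D : ℝ) ^ 3 * (1 / (D : ℝ) ^ 3 * Bi) =
        (D : ℝ) ^ 6 * Bj + Bi / (D : ℝ) ^ 6 := by field_simp
    rw [e2]
    apply mul_le_mul_of_nonneg_right (by linarith) (by positivity)
  have h5 : (D : ℝ) ^ 6 * Bj ≤ 2 ^ 25 * C / (g * (D : ℝ) ^ 4) := by
    calc (D : ℝ) ^ 6 * Bj ≤ (D : ℝ) ^ 6 * (2 ^ 25 * C / (g * (D : ℝ) ^ 10)) :=
          mul_le_mul_of_nonneg_left h3 (by positivity)
      _ = _ := by field_simp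
  have h6 : Bi / (D : ℝ) ^ 6 ≤ 2 ^ 25 * C / (g * (D : ℝ) ^ 4) := by
    calc Bi / (D : ℝ) ^ 6 ≤ (8 * C * D / g) / (D : ℝ) ^ 6 :=
          div_le_div_of_nonneg_right h2 (by positivity)
      _ = 8 * (C / (g * (D : ℝ) ^ 5)) := by field_simp
      _ ≤ 2 ^ 25 * (C / (g * (D : ℝ) ^ 4)) := by
          apply mul_le_mul (by norm_num) _ (by positivity) (by norm_num)
          apply div_le_div_of_nonneg_left hCp.le (by positivity)
          apply mul_le_mul_of_nonneg_left _ hgp.le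
          apply pow_le_pow_right₀ _ (by norm_num)
          have := h.hD4; linarith
      _ = _ := by ring
  have h7 : (D : ℝ) * (2 ^ 25 * C / (g * (D : ℝ) ^ 4) + 2 ^ 25 * C / (g * (D : ℝ) ^ 4)) =
      2 * (2 ^ 25 * C / (g * (D : ℝ) ^ 3)) := by
    field_simp; norm_num
  have h8 := mul_le_mul_of_nonneg_left (add_le_add h5 h6) hDp.le
  linarith

end Num

lemma sum_geo {r : ℝ} (h0 : 0 ≤ r) (h1 : r < 1) (N : ℕ) :
    ∑ n ∈ Finset.range N, ((n : ℝ) + 1) * r ^ n ≤ 1 / (1 - r) ^ 2 := by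
  have hid : (∑ n ∈ Finset.range N, ((n : ℝ) + 1) * r ^ n) * (1 - r) ^ 2 =
      1 - (N + 1) * r ^ N + N * r ^ (N + 1) := by
    induction N with
    | zero => simp
    | succ N ih =>
      rw [Finset.sum_range_succ, add_mul, ih]
      push_cast
      ring
  rw [le_div_iff₀ (by have : 0 < 1 - r := by linarith
                      positivity), hid]
  have h2 : r ^ (N + 1) ≤ r ^ N := pow_le_pow_of_le_one h0 h1.le (by omega)
  have h3 : (0 : ℝ) ≤ r ^ N := pow_nonneg h0 N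
  have h4 : (0 : ℝ) ≤ N := Nat.cast_nonneg N
  nlinarith [mul_le_mul_of_nonneg_left h2 h4]

lemma Num.cyc_le {hf : LF G} {D : ℕ} {g C t : ℝ} (h : Num hf D g C t) {r : ℝ} (hr0 : 0 ≤ r)
    (hr : r ≤ 1 - g / (8 * D)) [DecidableEq V] (S : Finset V) (N : ℕ) (z : V) :
    cyc hf (r * t) S N z ≤ (2 ^ 30 * C + 2 ^ 31 * C / g ^ 3) / D := by
  classical
  have hDp := h.Dpos
  have hgp := h.hg
  have hCp : 0 < C := by have := h.hC; linarith
  have hg8 : 0 < g / (8 * D) := by positivity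
  have hr1 : r ≤ 1 := by linarith
  unfold cyc
  -- termwise bound
  have hterm : ∀ n ∈ Finset.Ico 2 N, (r * t) ^ n * ∑ i ∈ Finset.range (n + 1),
      ∑ x ∈ S, ∑ y ∈ S.filter (fun y => G.Adj x y), (np hf i x z : ℝ) * (np hf (n - i) z y : ℝ) ≤
      (if n < 22 then 22 * 2 ^ 21 * C / D else 0) +
        (((n : ℝ) + 1) * r ^ n) * (2 ^ 25 * C / (g * (D : ℝ) ^ 3)) := by
    intro n hn
    rw [Finset.mem_Ico] at hn
    have h1 : ∑ i ∈ Finset.range (n + 1),
      ∑ x ∈ S, ∑ y ∈ S.filter (fun y => G.Adj x y), (np hf i x z : ℝ) * (np hf (n - i) z y : ℝ) ≤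
      ∑ i ∈ Finset.range (n + 1), ip (mseq hf (D - 1) z i) (adjOp hf (mseq hf (D - 1) z (n - i))) := by
      apply Finset.sum_le_sum
      intro i _
      have := cyc_term_le hf h.hq z i (n - i) S
      convert this using 3
    have hrt : 0 ≤ (r * t) ^ n := pow_nonneg (mul_nonneg hr0 h.tpos.le) n
    refine (mul_le_mul_of_nonneg_left h1 hrt).trans ?_
    have hnn : 0 ≤ (((n : ℝ) + 1) * r ^ n) * (2 ^ 25 * C / (g * (D : ℝ) ^ 3)) := by positivity
    split_ifs with h22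
    · refine le_trans ?_ (le_add_of_nonneg_right hnn)
      have h2 : ∀ i ∈ Finset.range (n + 1),
          ip (mseq hf (D - 1) z i) (adjOp hf (mseq hf ((D : ℝ) - 1) z (n - i))) ≤
          C * (D : ℝ) ^ ((n + 1) / 2) := by
        intro i hi
        rw [Finset.mem_range] at hi
        have h3 := ip_mseq_adj_le hf h.hq0 h.hq z i (n - i)
        rw [show i + (n - i) + 1 = n + 1 by omega] at h3
        exact h3.trans (h.cw z (n + 1) (by omega))
      have h4 := Finset.sum_le_sum h2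
      rw [Finset.sum_const, Finset.card_range, nsmul_eq_mul] at h4
      have h5 : (r * t) ^ n ≤ (2 / (D : ℝ)) ^ n := by
        apply pow_le_pow_left₀ (mul_nonneg hr0 h.tpos.le)
        calc r * t ≤ 1 * t := mul_le_mul_of_nonneg_right hr1 h.tpos.le
          _ ≤ 2 / D := by rw [one_mul]; exact h.t_le
      have h6 : (D : ℝ) ^ ((n + 1) / 2) * D ≤ (D : ℝ) ^ n := by
        rw [← pow_succ]
        apply pow_le_pow_right₀
        · have := h.hD4; linarith
        · omega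
      have h7 : (2 : ℝ) ^ n ≤ 2 ^ 21 := pow_le_pow_right₀ (by norm_num) (by omega)
      have h8 : ((n + 1 : ℕ) : ℝ) ≤ 22 := by
        have : n + 1 ≤ 22 := by omega
        exact_mod_cast this
      calc (r * t) ^ n * ∑ i ∈ Finset.range (n + 1),
            ip (mseq hf (D - 1) z i) (adjOp hf (mseq hf ((D : ℝ) - 1) z (n - i)))
          ≤ (2 / (D : ℝ)) ^ n * (((n + 1 : ℕ) : ℝ) * (C * (D : ℝ) ^ ((n + 1) / 2))) := by
            apply (mul_le_mul_of_nonneg_left h4 hrt).trans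
            exact mul_le_mul_of_nonneg_right h5 (by positivity)
        _ = ((n + 1 : ℕ) : ℝ) * C * (2 : ℝ) ^ n * ((D : ℝ) ^ ((n + 1) / 2) / (D : ℝ) ^ n) := by
            rw [div_pow]; ring
        _ ≤ 22 * C * 2 ^ 21 * (1 / D) := by
            apply mul_le_mul _ _ (by positivity) (by positivity)
            · apply mul_le_mul _ h7 (by positivity) (by positivity)
              exact mul_le_mul_of_nonneg_right h8 hCp.le
            · rw [div_le_div_iff₀ (by positivity) hDp, one_mul]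
              exact h6
        _ = 22 * 2 ^ 21 * C / D := by ring
    · rw [zero_add]
      have h2 : ∀ i ∈ Finset.range (n + 1), t ^ n *
          ip (mseq hf (D - 1) z i) (adjOp hf (mseq hf ((D : ℝ) - 1) z (n - i))) ≤
          2 ^ 25 * C / (g * (D : ℝ) ^ 3) := by
        intro i hi
        rw [Finset.mem_range] at hi
        have h3 := h.cross z (i := i) (j := n - i) (by omega)
        have h4 : ip (useq hf (D - 1) t z i) (adjOp hf (useq hf ((D : ℝ) - 1) t z (n - i))) =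
            t ^ n * ip (mseq hf (D - 1) z i) (adjOp hf (mseq hf ((D : ℝ) - 1) z (n - i))) := by
          unfold useq
          rw [map_smul, ip_smul_left, ip_smul_right, ← mul_assoc, ← pow_add]
          congr 2
          omega
        rw [← h4]; exact h3
      have h5 := Finset.sum_le_sum h2
      rw [Finset.sum_const, Finset.card_range, nsmul_eq_mul, ← Finset.mul_sum] at h5
      rw [mul_pow, mul_assoc]
      refine (mul_le_mul_of_nonneg_left h5 (pow_nonneg hr0 n)).trans (le_of_eq ?_)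
      push_cast; ring
  refine (Finset.sum_le_sum hterm).trans ?_
  rw [Finset.sum_add_distrib, ← Finset.sum_mul]
  have hA : ∑ n ∈ Finset.Ico 2 N, (if n < 22 then 22 * 2 ^ 21 * C / (D : ℝ) else 0) ≤
      2 ^ 30 * C / D := by
    have h1 : ∑ n ∈ Finset.Ico 2 N, (if n < 22 then 22 * 2 ^ 21 * C / (D : ℝ) else 0) ≤
        ∑ n ∈ Finset.range 22, 22 * 2 ^ 21 * C / (D : ℝ) := by
      rw [← Finset.sum_filter]
      apply Finset.sum_le_sum_of_subset_of_nonneg
      · intro n hn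
        rw [Finset.mem_filter] at hn
        exact Finset.mem_range.2 hn.2
      · intro n _ _; positivity
    refine h1.trans ?_
    rw [Finset.sum_const, Finset.card_range, nsmul_eq_mul]
    have h2 : ((22 : ℕ) : ℝ) * (22 * 2 ^ 21 * C / (D : ℝ)) = (22 * 22 * 2 ^ 21) * (C / D) := by
      push_cast; ring
    rw [h2, show (2 : ℝ) ^ 30 * C / D = 2 ^ 30 * (C / D) by ring]
    apply mul_le_mul_of_nonneg_right (by norm_num) (by positivity)
  have hB : ∑ n ∈ Finset.Ico 2 N, ((n : ℝ) + 1) * r ^ n ≤ 64 * (D : ℝ) ^ 2 / g ^ 2 := by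
    have h1 : ∑ n ∈ Finset.Ico 2 N, ((n : ℝ) + 1) * r ^ n ≤
        ∑ n ∈ Finset.range N, ((n : ℝ) + 1) * r ^ n := by
      apply Finset.sum_le_sum_of_subset_of_nonneg
      · intro n hn
        rw [Finset.mem_Ico] at hn
        exact Finset.mem_range.2 hn.2
      · intro n _ _; positivity
    refine h1.trans ((sum_geo hr0 (by linarith) N).trans ?_)
    have h2 : g / (8 * D) ≤ 1 - r := by linarith
    have h3 : (g / (8 * D)) ^ 2 ≤ (1 - r) ^ 2 := pow_le_pow_left₀ hg8.le h2 2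
    calc 1 / (1 - r) ^ 2 ≤ 1 / (g / (8 * D)) ^ 2 := one_div_le_one_div_of_le (by positivity) h3
      _ = 64 * (D : ℝ) ^ 2 / g ^ 2 := by field_simp; norm_num
  have hC3 : 0 ≤ 2 ^ 25 * C / (g * (D : ℝ) ^ 3) := by positivity
  calc _ ≤ 2 ^ 30 * C / D + 64 * (D : ℝ) ^ 2 / g ^ 2 * (2 ^ 25 * C / (g * (D : ℝ) ^ 3)) :=
        add_le_add hA (mul_le_mul_of_nonneg_right hB hC3)
    _ = (2 ^ 30 * C + 2 ^ 31 * C / g ^ 3) / D := by
        field_simp
        ring

end Vale.Agent.P165
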