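import Vale.Agent.Lib.P165.Cluster

/-!
# Lower bound for the Duminil-Copin–Tassion functional by counting cycles
-/

open MeasureTheory ProbabilityTheory

namespace Vale.Agent.P165

variable {V : Type*}

/-- local finiteness, as a proposition -/
def LF (G : SimpleGraph V) : Prop := ∀ v, (G.neighborSet v).Finite

lemma finite_walks {G : SimpleGraph V} (hf : LF G) (n : ℕ) (x y : V) :
    {π : G.Walk x y | π.length = n}.Finite := by
  classical
  have : G.LocallyFinite := fun v => (hf v).fintype
  exact Set.toFinite _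

lemma finite_paths {G : SimpleGraph V} (hf : LF G) (n : ℕ) (x y : V) :
    {π : G.Walk x y | π.IsPath ∧ π.length = n}.Finite :=
  (finite_walks hf n x y).subset fun _ h => h.2

/-- simple paths of length `n` from `x` to `y` -/
noncomputable def paths {G : SimpleGraph V} (hf : LF G) (n : ℕ) (x y : V) :
    Finset (G.Walk x y) := (finite_paths hf n x y).toFinset

lemma mem_paths {G : SimpleGraph V} {hf : LF G} {n : ℕ} {x y : V} {π : G.Walk x y} :
    π ∈ paths hf n x y ↔ π.IsPath ∧ π.length = n := by
  simp [paths]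

/-- number of simple paths of length `n` from `x` to `y` -/
noncomputable def np {G : SimpleGraph V} (hf : LF G) (n : ℕ) (x y : V) : ℕ :=
  (paths hf n x y).card

lemma np_symm {G : SimpleGraph V} (hf : LF G) (n : ℕ) (x y : V) :
    np hf n x y = np hf n y x := by
  unfold np
  refine Finset.card_bij' (fun π _ => π.reverse) (fun π _ => π.reverse) ?_ ?_ ?_ ?_
  · intro π h
    rw [mem_paths] at h ⊢
    exact ⟨h.1.reverse, by simpa using h.2⟩
  · intro π h
    rw [mem_paths] at h ⊢
    exact ⟨h.1.reverse, by simpa using h.2⟩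
  · intro π _; simp
  · intro π _; simp

section
variable [DecidableEq V]

lemma card_through {G : SimpleGraph V} (hf : LF G) (n : ℕ) (x y z : V) :
    ((paths hf n x y).filter (fun π => z ∈ π.support)).card ≤
      ∑ i ∈ Finset.range (n + 1), np hf i x z * np hf (n - i) z y := by
  have hsub : (paths hf n x y).filter (fun π => z ∈ π.support) ⊆
      (Finset.range (n + 1)).biUnion (fun i =>
        ((paths hf i x z) ×ˢ (paths hf (n - i) z y)).image (fun ab => ab.1.append ab.2)) := by
    intro π hπ
    rw [Finset.mem_filter, mem_paths] at hπ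
    obtain ⟨⟨hp, hl⟩, hz⟩ := hπ
    rw [Finset.mem_biUnion]
    have hlen : (π.takeUntil z hz).length + (π.dropUntil z hz).length = n := by
      rw [← SimpleGraph.Walk.length_append, SimpleGraph.Walk.take_spec, hl]
    refine ⟨(π.takeUntil z hz).length, ?_, ?_⟩
    · rw [Finset.mem_range]; omega
    · rw [Finset.mem_image]
      refine ⟨(π.takeUntil z hz, π.dropUntil z hz), ?_, ?_⟩
      · rw [Finset.mem_product, mem_paths, mem_paths]
        refine ⟨⟨hp.takeUntil hz, rfl⟩, hp.dropUntil hz, ?_⟩
        simp only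
        omega
      · simp
  refine (Finset.card_le_card hsub).trans (Finset.card_biUnion_le.trans ?_)
  apply Finset.sum_le_sum
  intro i _
  refine Finset.card_image_le.trans ?_
  rw [Finset.card_product]
  rfl


lemma depOn_cl {A : Set (Sym2 V → Bool)} {T F : Finset (Sym2 V)} (h : DepOn A (T : Set (Sym2 V))) :
    DepOn {ω | cl F ω ∈ A} ((T \ F : Finset (Sym2 V)) : Set (Sym2 V)) := by
  intro ω ω' h'
  apply h
  intro e he
  unfold cl
  by_cases hF : e ∈ F
  · simp [hF]
  · simp only [hF, if_false]
    apply h'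
    rw [Finset.coe_sdiff]
    exact ⟨he, hF⟩

lemma prob_path_conn (G : SimpleGraph V) (S : Finset V) (o z : V) {x y : V} (π : G.Walk x y)
    (hπ : π.IsPath) (p : unitInterval) :
    (bm (Sym2 V) p).real (allOpen π.edges.toFinset ∩
      {ω | cl π.edges.toFinset ω ∈ conn G (S : Set V) o z}) ≤
      (p : ℝ) ^ π.length * (bm (Sym2 V) p).real (conn G (S : Set V) o z) := by
  have h1 := (depOn_allOpen π.edges.toFinset).indep
    (depOn_cl (F := π.edges.toFinset) (depOn_conn G S o z)) Finset.disjoint_sdiff p
  rw [h1, prob_allOpen, List.toFinset_card_of_nodup hπ.isTrail.edges_nodup,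
    SimpleGraph.Walk.length_edges]
  apply mul_le_mul_of_nonneg_left _ (pow_nonneg p.2.1 _)
  apply measureReal_mono
  · intro ω hω
    exact SimpleGraph.Reachable.mono (restr_mono (og_cl_le G _ ω) _) hω
  · exact measure_ne_top _ _

/-- E1 -/
def E1 (G : SimpleGraph V) (S : Set V) (o x y : V) : Set (Sym2 V → Bool) :=
  setB (conn G S o x) s(x, y) false \ setB (conn G S o y) s(x, y) false

/-- E2 -/
def E2 (G : SimpleGraph V) (S : Set V) (o x y : V) : Set (Sym2 V → Bool) :=
  setB (conn G S o x) s(x, y) false ∩ setB (conn G S o y) s(x, y) false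

lemma depOn_E1 (G : SimpleGraph V) (S : Finset V) (o x y : V) :
    DepOn (E1 G (S : Set V) o x y) ((S.sym2.erase s(x, y) : Finset (Sym2 V)) : Set (Sym2 V)) :=
  ((depOn_conn G S o x).setB' _ _).diff ((depOn_conn G S o y).setB' _ _)

lemma prob_E1_open (G : SimpleGraph V) (S : Finset V) (o x y : V) (p : unitInterval) :
    (bm (Sym2 V) p).real (E1 G (S : Set V) o x y ∩ {ω | ω s(x, y) = true}) =
      (bm (Sym2 V) p).real (E1 G (S : Set V) o x y) * p :=
  prob_inter_true (depOn_E1 G S o x y) _ (Finset.notMem_erase _ _) p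

lemma prob_E2 {G : SimpleGraph V} (hf : LF G) (S : Finset V) {o x y : V} (hadj : G.Adj x y)
    (ho : o ∈ S) (p : unitInterval) :
    (bm (Sym2 V) p).real (E2 G (S : Set V) o x y) ≤
      ∑ z ∈ S, (bm (Sym2 V) p).real (conn G (S : Set V) o z) *
        ∑ n ∈ Finset.Ico 2 S.card, (p : ℝ) ^ n *
          ∑ i ∈ Finset.range (n + 1), (np hf i x z : ℝ) * (np hf (n - i) z y : ℝ) := by
  classical
  have hsub : E2 G (S : Set V) o x y ⊆ ⋃ n ∈ Finset.Ico 2 S.card, ⋃ π ∈ paths hf n x y,
      ⋃ z ∈ S.filter (fun z => z ∈ π.support), (allOpen π.edges.toFinset ∩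
      {ω | cl π.edges.toFinset ω ∈ conn G (S : Set V) o z}) := by
    rintro ω ⟨h1, h2⟩
    obtain ⟨π, hp, hl2, hl, hop, z, hz, hzs, hc⟩ := lemC hadj ho h1 h2
    simp only [Set.mem_iUnion]
    exact ⟨π.length, Finset.mem_Ico.2 ⟨hl2, hl⟩, π, mem_paths.2 ⟨hp, rfl⟩, z,
      Finset.mem_filter.2 ⟨hz, hzs⟩, hop, hc⟩
  calc (bm (Sym2 V) p).real (E2 G (S : Set V) o x y)
      ≤ (bm (Sym2 V) p).real (⋃ n ∈ Finset.Ico 2 S.card, ⋃ π ∈ paths hf n x y,
      ⋃ z ∈ S.filter (fun z => z ∈ π.support), (allOpen π.edges.toFinset ∩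
      {ω | cl π.edges.toFinset ω ∈ conn G (S : Set V) o z})) :=
        measureReal_mono hsub (measure_ne_top _ _)
    _ ≤ ∑ n ∈ Finset.Ico 2 S.card, ∑ π ∈ paths hf n x y,
      ∑ z ∈ S.filter (fun z => z ∈ π.support), (p : ℝ) ^ n * (bm (Sym2 V) p).real (conn G (S : Set V) o z) := by
        refine (measureReal_biUnion_finset_le _ _).trans (Finset.sum_le_sum fun n _ => ?_)
        refine (measureReal_biUnion_finset_le _ _).trans (Finset.sum_le_sum fun π hπ => ?_)
        refine (measureReal_biUnion_finset_le _ _).trans (Finset.sum_le_sum fun z _ => ?_)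
        have h := prob_path_conn G S o z π (mem_paths.1 hπ).1 p
        rwa [(mem_paths.1 hπ).2] at h
    _ = ∑ z ∈ S, (bm (Sym2 V) p).real (conn G (S : Set V) o z) *
        ∑ n ∈ Finset.Ico 2 S.card, (p : ℝ) ^ n *
          (((paths hf n x y).filter (fun π => z ∈ π.support)).card : ℝ) := by
        simp_rw [Finset.mul_sum]
        rw [Finset.sum_comm]
        apply Finset.sum_congr rfl
        intro n _
        rw [Finset.sum_comm' (t' := S) (s' := fun z => (paths hf n x y).filter (fun π => z ∈ π.support))]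
        · apply Finset.sum_congr rfl
          intro z _
          rw [Finset.sum_const, nsmul_eq_mul]
          ring
        · intro π z
          simp only [Finset.mem_filter]
          tauto
    _ ≤ _ := by
        apply Finset.sum_le_sum
        intro z _
        apply mul_le_mul_of_nonneg_left _ measureReal_nonneg
        apply Finset.sum_le_sum
        intro n _
        apply mul_le_mul_of_nonneg_left _ (pow_nonneg p.2.1 _)
        exact_mod_cast card_through hf n x y z

omit [DecidableEq V] in
lemma prob_conn_self (G : SimpleGraph V) (S : Set V) (o : V) (p : unitInterval) :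
    (bm (Sym2 V) p).real (conn G S o o) = 1 := by
  have : conn G S o o = Set.univ := by
    ext ω; simp [mem_conn]
  rw [this]; simp

open Classical in
lemma sum_E1 {G : SimpleGraph V} (S : Finset V) (o : V) {y : V} (hy : y ∈ S)
    (p : unitInterval) :
    ∑ x ∈ S.filter (fun x => G.Adj x y), (bm (Sym2 V) p).real (E1 G (S : Set V) o x y) * p ≤
      (bm (Sym2 V) p).real (conn G (S : Set V) o y) - (if y = o then 1 else 0) := by
  by_cases hyo : y = o
  · subst hyo
    rw [if_pos rfl, prob_conn_self, sub_self]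
    apply le_of_eq
    apply Finset.sum_eq_zero
    intro x _
    have : E1 G (S : Set V) y x y = ∅ := by
      ext ω
      simp only [E1, Set.mem_sdiff, Set.mem_empty_iff_false, iff_false, not_and, not_not]
      intro _
      exact SimpleGraph.Reachable.refl _
    rw [this]; simp
  · rw [if_neg hyo, sub_zero]
    have h1 : ∑ x ∈ S.filter (fun x => G.Adj x y), (bm (Sym2 V) p).real (E1 G (S : Set V) o x y) * p
        = ∑ x ∈ S.filter (fun x => G.Adj x y),
          (bm (Sym2 V) p).real (E1 G (S : Set V) o x y ∩ {ω | ω s(x, y) = true}) :=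
      Finset.sum_congr rfl fun x _ => (prob_E1_open G S o x y p).symm
    rw [h1, ← measureReal_biUnion_finset]
    · apply measureReal_mono _ (measure_ne_top _ _)
      intro ω hω
      simp only [Set.mem_iUnion] at hω
      obtain ⟨x, hx, ⟨h2, h3⟩, h4⟩ := hω
      rw [Finset.mem_filter] at hx
      have h5 : ω ∈ conn G (S : Set V) o x := conn_upd_sub h2
      refine SimpleGraph.Reachable.trans h5 (SimpleGraph.Adj.reachable ?_)
      exact ⟨⟨hx.2, h4⟩, hx.1, hy⟩
    · intro x hx x' hx' hne
      rw [Function.onFun, Set.disjoint_left]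
      rintro ω ⟨⟨h2, h3⟩, h4⟩ ⟨⟨h2', h3'⟩, h4'⟩
      rw [Finset.mem_coe, Finset.mem_filter] at hx hx'
      exact hne (lemB h3 h2' h3' hx'.2 h4' hx'.1 hy)
    · intro x _
      apply (depOn_E1 G S o x y).measurableSet.inter
      have h2 : DepOn {ω : Sym2 V → Bool | ω s(x, y) = true} (({s(x, y)} : Finset (Sym2 V)) : Set (Sym2 V)) := by
        simpa using depOn_coord s(x, y) true
      exact h2.measurableSet

lemma E1_swap (G : SimpleGraph V) (S : Set V) (o x y : V) :
    conn G S o x ⊆ (E1 G S o x y ∪ E2 G S o x y) ∪ (E1 G S o y x ∩ {ω | ω s(y, x) = true}) := by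
  intro ω h
  by_cases h1 : ω ∈ setB (conn G S o x) s(x, y) false
  · left
    by_cases h2 : ω ∈ setB (conn G S o y) s(x, y) false
    · right; exact ⟨h1, h2⟩
    · left; exact ⟨h1, h2⟩
  · right
    have h3 := lemA h h1
    unfold E1
    rw [Sym2.eq_swap (a := y) (b := x)]
    exact ⟨⟨h3.1, h1⟩, h3.2⟩

lemma prob_conn_le (G : SimpleGraph V) (S : Finset V) (o x y : V) (p : unitInterval) :
    (bm (Sym2 V) p).real (conn G (S : Set V) o x) ≤
      (bm (Sym2 V) p).real (E1 G (S : Set V) o x y) + (bm (Sym2 V) p).real (E2 G (S : Set V) o x y)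
        + (bm (Sym2 V) p).real (E1 G (S : Set V) o y x) * p := by
  calc (bm (Sym2 V) p).real (conn G (S : Set V) o x)
      ≤ _ := measureReal_mono (E1_swap G (S : Set V) o x y) (measure_ne_top _ _)
    _ ≤ _ := measureReal_union_le _ _
    _ ≤ _ := by
      rw [prob_E1_open]
      apply add_le_add_left
      exact measureReal_union_le _ _

end

end Vale.Agent.P165
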