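import Vale.Agent.Lib.P165.Phi

/-!
# The bound `phi_p(S) ≥ 1`
-/

open MeasureTheory ProbabilityTheory

namespace Vale.Agent.P165

variable {V : Type*} [DecidableEq V]

/-- connection probability inside `S` -/
noncomputable def tau (G : SimpleGraph V) (p : unitInterval) (S : Finset V) (o x : V) : ℝ :=
  (bm (Sym2 V) p).real (conn G (S : Set V) o x)

/-- the cycle sum -/
noncomputable def cyc {G : SimpleGraph V} (hf : LF G) (p : ℝ) (S : Finset V) (N : ℕ) (z : V) : ℝ :=
  by classical exact
  ∑ n ∈ Finset.Ico 2 N, p ^ n * ∑ i ∈ Finset.range (n + 1),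
    ∑ x ∈ S, ∑ y ∈ S.filter (fun y => G.Adj x y), (np hf i x z : ℝ) * (np hf (n - i) z y : ℝ)

open Classical in
lemma sum_E2 {G : SimpleGraph V} (hf : LF G) (S : Finset V) {o : V} (ho : o ∈ S)
    (p : unitInterval) (κ : ℝ) (hκ : ∀ z, cyc hf p S S.card z ≤ κ) :
    ∑ x ∈ S, ∑ y ∈ S.filter (fun y => G.Adj x y), (bm (Sym2 V) p).real (E2 G (S : Set V) o x y) ≤
      κ * ∑ z ∈ S, tau G p S o z := by
  calc ∑ x ∈ S, ∑ y ∈ S.filter (fun y => G.Adj x y), (bm (Sym2 V) p).real (E2 G (S : Set V) o x y)
      ≤ ∑ x ∈ S, ∑ y ∈ S.filter (fun y => G.Adj x y), ∑ z ∈ S, tau G p S o z *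
        ∑ n ∈ Finset.Ico 2 S.card, (p : ℝ) ^ n *
          ∑ i ∈ Finset.range (n + 1), (np hf i x z : ℝ) * (np hf (n - i) z y : ℝ) := by
        apply Finset.sum_le_sum
        intro x _
        apply Finset.sum_le_sum
        intro y hy
        exact prob_E2 hf S (Finset.mem_filter.1 hy).2 ho p
    _ = ∑ z ∈ S, tau G p S o z * cyc hf p S S.card z := by
        have h1 : ∀ x ∈ S, (∑ y ∈ S.filter (fun y => G.Adj x y), ∑ z ∈ S, tau G p S o z *
          ∑ n ∈ Finset.Ico 2 S.card, (p : ℝ) ^ n *
            ∑ i ∈ Finset.range (n + 1), (np hf i x z : ℝ) * (np hf (n - i) z y : ℝ)) =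
            ∑ z ∈ S, tau G p S o z * ∑ y ∈ S.filter (fun y => G.Adj x y),
          ∑ n ∈ Finset.Ico 2 S.card, (p : ℝ) ^ n *
            ∑ i ∈ Finset.range (n + 1), (np hf i x z : ℝ) * (np hf (n - i) z y : ℝ) := by
          intro x _
          rw [Finset.sum_comm]
          simp_rw [← Finset.mul_sum]
        rw [Finset.sum_congr rfl h1, Finset.sum_comm]
        apply Finset.sum_congr rfl
        intro z _
        rw [← Finset.mul_sum]
        congr 1
        unfold cyc
        simp_rw [Finset.mul_sum]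
        have h2 : ∀ x ∈ S, (∑ y ∈ S.filter (fun y => G.Adj x y), ∑ n ∈ Finset.Ico 2 S.card,
            ∑ i ∈ Finset.range (n + 1), (p : ℝ) ^ n * ((np hf i x z : ℝ) * (np hf (n - i) z y : ℝ)))
            = ∑ n ∈ Finset.Ico 2 S.card, ∑ i ∈ Finset.range (n + 1),
              ∑ y ∈ S.filter (fun y => G.Adj x y),
              (p : ℝ) ^ n * ((np hf i x z : ℝ) * (np hf (n - i) z y : ℝ)) := by
          intro x _
          rw [Finset.sum_comm]
          apply Finset.sum_congr rfl
          intro n _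
          rw [Finset.sum_comm]
        rw [Finset.sum_congr rfl h2, Finset.sum_comm]
        apply Finset.sum_congr rfl
        intro n _
        rw [Finset.sum_comm]
    _ ≤ ∑ z ∈ S, tau G p S o z * κ := by
        apply Finset.sum_le_sum
        intro z _
        exact mul_le_mul_of_nonneg_left (hκ z) measureReal_nonneg
    _ = _ := by rw [← Finset.sum_mul, mul_comm]


open Classical in
theorem phi_bound {G : SimpleGraph V} (hf : LF G) (S : Finset V) {o : V} (ho : o ∈ S)
    (p : unitInterval) (κ : ℝ) (hκ : ∀ z, cyc hf p S S.card z ≤ κ) :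
    p * ∑ x ∈ S, ((S.filter (fun y => G.Adj x y)).card : ℝ) * tau G p S o x ≤
      (1 + p) * (∑ z ∈ S, tau G p S o z - 1) + p * (κ * ∑ z ∈ S, tau G p S o z) := by
  have hp0 : (0 : ℝ) ≤ p := p.2.1
  set a : ℝ := ∑ x ∈ S, ∑ y ∈ S.filter (fun y => G.Adj x y),
    (bm (Sym2 V) p).real (E1 G (S : Set V) o x y) with ha
  have h1 : a * p ≤ ∑ y ∈ S, tau G p S o y - 1 := by
    have hsw : a = ∑ y ∈ S, ∑ x ∈ S.filter (fun x => G.Adj x y),
        (bm (Sym2 V) p).real (E1 G (S : Set V) o x y) := by
      rw [ha]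
      apply Finset.sum_comm'
      intro x y
      simp only [Finset.mem_filter]
      tauto
    rw [hsw, Finset.sum_mul]
    calc ∑ y ∈ S, (∑ x ∈ S.filter (fun x => G.Adj x y),
        (bm (Sym2 V) p).real (E1 G (S : Set V) o x y)) * (p : ℝ)
        ≤ ∑ y ∈ S, (tau G p S o y - (if y = o then 1 else 0)) := by
          apply Finset.sum_le_sum
          intro y hy
          rw [Finset.sum_mul]
          exact sum_E1 S o hy p
      _ = _ := by
          rw [Finset.sum_sub_distrib]
          simp [ho]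
  have h2 : ∑ x ∈ S, ((S.filter (fun y => G.Adj x y)).card : ℝ) * tau G p S o x ≤
      a + κ * ∑ z ∈ S, tau G p S o z + a * p := by
    calc ∑ x ∈ S, ((S.filter (fun y => G.Adj x y)).card : ℝ) * tau G p S o x
        = ∑ x ∈ S, ∑ y ∈ S.filter (fun y => G.Adj x y), tau G p S o x := by
          apply Finset.sum_congr rfl
          intro x _
          rw [Finset.sum_const, nsmul_eq_mul]
      _ ≤ ∑ x ∈ S, ∑ y ∈ S.filter (fun y => G.Adj x y),
          ((bm (Sym2 V) p).real (E1 G (S : Set V) o x y)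
            + (bm (Sym2 V) p).real (E2 G (S : Set V) o x y)
            + (bm (Sym2 V) p).real (E1 G (S : Set V) o y x) * p) := by
          apply Finset.sum_le_sum
          intro x _
          apply Finset.sum_le_sum
          intro y _
          exact prob_conn_le G S o x y p
      _ = a + ∑ x ∈ S, ∑ y ∈ S.filter (fun y => G.Adj x y),
            (bm (Sym2 V) p).real (E2 G (S : Set V) o x y) + a * p := by
          simp_rw [Finset.sum_add_distrib]
          congr 1
          rw [ha, Finset.sum_mul]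
          simp_rw [Finset.sum_mul]
          apply Finset.sum_comm'
          intro x y
          simp only [Finset.mem_filter]
          constructor
          · rintro ⟨h1, h2, h3⟩; exact ⟨⟨h1, h3.symm⟩, h2⟩
          · rintro ⟨⟨h1, h2⟩, h3⟩; exact ⟨h1, h3, h2.symm⟩
      _ ≤ _ := by
          have := sum_E2 hf S ho p κ hκ
          linarith
  nlinarith [h1, h2, mul_le_mul_of_nonneg_left h2 hp0, mul_le_mul_of_nonneg_left h1 hp0]

end Vale.Agent.P165
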