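import Mathlib

/-!
# Product Bernoulli measures and finite-dependence events
-/

open MeasureTheory ProbabilityTheory

namespace Vale.Agent.P165

variable {E : Type*}

/-- The product Bernoulli(p) measure on `E → Bool`. -/
noncomputable def bm (E : Type*) (p : unitInterval) : Measure (E → Bool) :=
  Measure.infinitePi fun _ => bernoulliMeasure true false p

instance instProbBm (p : unitInterval) : IsProbabilityMeasure (bm E p) := by
  unfold bm; infer_instance

/-- The event `A` only depends on the coordinates in `T`. -/
def DepOn (A : Set (E → Bool)) (T : Set E) : Prop :=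
  ∀ ω ω' : E → Bool, (∀ e ∈ T, ω e = ω' e) → (ω ∈ A ↔ ω' ∈ A)

lemma DepOn.mono {A : Set (E → Bool)} {T T' : Set E} (h : DepOn A T) (hT : T ⊆ T') :
    DepOn A T' := fun ω ω' h' => h ω ω' fun e he => h' e (hT he)

lemma DepOn.compl {A : Set (E → Bool)} {T : Set E} (h : DepOn A T) : DepOn Aᶜ T :=
  fun ω ω' h' => not_congr (h ω ω' h')

lemma DepOn.inter {A B : Set (E → Bool)} {T : Set E} (h : DepOn A T) (h2 : DepOn B T) :
    DepOn (A ∩ B) T :=
  fun ω ω' h' => and_congr (h ω ω' h') (h2 ω ω' h')

lemma DepOn.diff {A B : Set (E → Bool)} {T : Set E} (h : DepOn A T) (h2 : DepOn B T) :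
    DepOn (A \ B) T :=
  fun ω ω' h' => and_congr (h ω ω' h') (not_congr (h2 ω ω' h'))

lemma DepOn.eq_preimage {A : Set (E → Bool)} {T : Finset E} (h : DepOn A T) :
    A = (fun (ω : E → Bool) (i : T) => ω i) ⁻¹' ((fun (ω : E → Bool) (i : T) => ω i) '' A) := by
  ext ω
  constructor
  · intro hω
    exact ⟨ω, hω, rfl⟩
  · rintro ⟨ω', hω', he⟩
    refine (h ω ω' ?_).2 hω'
    intro e hT
    exact (congrFun he ⟨e, hT⟩).symm

lemma DepOn.measurableSet {A : Set (E → Bool)} {T : Finset E} (h : DepOn A T) :
    MeasurableSet A := by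
  rw [h.eq_preimage]
  apply measurableSet_preimage
  · fun_prop
  · exact (Set.toFinite _).measurableSet

lemma iIndep_coord (p : unitInterval) :
    iIndepFun (fun (i : E) (ω : E → Bool) => ω i) (bm E p) :=
  iIndepFun_infinitePi (X := fun _ b => b) (fun _ => measurable_id)

lemma DepOn.indep {A B : Set (E → Bool)} {T T' : Finset E} (hA : DepOn A T) (hB : DepOn B T')
    (hd : Disjoint T T') (p : unitInterval) :
    (bm E p).real (A ∩ B) = (bm E p).real A * (bm E p).real B := by
  have h1 := (iIndep_coord (E := E) p).indepFun_finset T T' hd (fun i => measurable_pi_apply i)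
  have h2 := h1.measure_inter_preimage_eq_mul
    ((fun (ω : E → Bool) (i : T) => ω i) '' A) ((fun (ω : E → Bool) (i : T') => ω i) '' B)
    (Set.toFinite _).measurableSet (Set.toFinite _).measurableSet
  rw [← hA.eq_preimage, ← hB.eq_preimage] at h2
  simp only [measureReal_def, h2, ENNReal.toReal_mul]

/-- all coordinates in `F` are open -/
def allOpen (F : Finset E) : Set (E → Bool) := {ω | ∀ e ∈ F, ω e = true}

lemma depOn_allOpen (F : Finset E) : DepOn (allOpen F) (F : Set E) := by
  intro ω ω' h
  simp only [allOpen, Set.mem_ofPred_eq]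
  exact forall₂_congr fun e he => by rw [h e he]

lemma bern_true (p : unitInterval) :
    (bernoulliMeasure true false p) {true} = (unitInterval.toNNReal p : ENNReal) := by
  classical
  rw [bernoulliMeasure_apply p (MeasurableSet.singleton _)]
  simp

lemma prob_allOpen (F : Finset E) (p : unitInterval) :
    (bm E p).real (allOpen F) = (p : ℝ) ^ F.card := by
  have h : allOpen F = Set.pi (F : Set E) (fun _ => ({true} : Set Bool)) := by
    ext ω; simp [allOpen, Set.mem_pi]
  rw [h, measureReal_def, bm, Measure.infinitePi_pi _ (fun i _ => MeasurableSet.singleton _)]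
  simp only [bern_true, Finset.prod_const]
  rw [ENNReal.toReal_pow]
  simp

lemma prob_open (e : E) (p : unitInterval) :
    (bm E p).real {ω | ω e = true} = p := by
  have := prob_allOpen ({e} : Finset E) p
  simpa [allOpen] using this

lemma depOn_coord (e : E) (b : Bool) : DepOn {ω : E → Bool | ω e = b} ({e} : Set E) := by
  intro ω ω' h
  simp only [Set.mem_ofPred_eq]
  rw [h e rfl]

lemma prob_closed (e : E) (p : unitInterval) :
    (bm E p).real {ω | ω e = false} = 1 - p := by
  have h : {ω : E → Bool | ω e = false} = {ω | ω e = true}ᶜ := by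
    ext ω; simp
  rw [h, probReal_compl_eq_one_sub, prob_open]
  have := (depOn_coord e true)
  exact DepOn.measurableSet (T := {e}) (by simpa using this)

end Vale.Agent.P165
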