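import Vale.Agent.Lib.P165.Prob

/-!
# Conditioning on one coordinate and the derivative of the probability of a local event
-/

open MeasureTheory ProbabilityTheory

namespace Vale.Agent.P165

variable {E : Type*} [DecidableEq E]

/-- the event that `A` holds once the coordinate `e` is set to `b` -/
def setB (A : Set (E → Bool)) (e : E) (b : Bool) : Set (E → Bool) :=
  {ω | Function.update ω e b ∈ A}

lemma mem_setB {A : Set (E → Bool)} {e : E} {b : Bool} {ω : E → Bool} :
    ω ∈ setB A e b ↔ Function.update ω e b ∈ A := Iff.rfl

lemma DepOn.setB {A : Set (E → Bool)} {T : Set E} (h : DepOn A T) (e : E) (b : Bool) :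
    DepOn (setB A e b) (T \ {e}) := by
  intro ω ω' h'
  rw [mem_setB, mem_setB]
  apply h
  intro e' he'
  by_cases hee : e' = e
  · subst hee; simp
  · rw [Function.update_of_ne hee, Function.update_of_ne hee]
    exact h' e' ⟨he', hee⟩

lemma DepOn.setB' {A : Set (E → Bool)} {T : Finset E} (h : DepOn A (T : Set E)) (e : E) (b : Bool) :
    DepOn (Vale.Agent.P165.setB A e b) ((T.erase e : Finset E) : Set E) := by
  rw [Finset.coe_erase]
  exact h.setB e b

lemma setB_comm (A : Set (E → Bool)) {e e' : E} (h : e ≠ e') (b b' : Bool) :
    setB (setB A e' b') e b = setB (setB A e b) e' b' := by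
  ext ω
  simp only [mem_setB]
  rw [Function.update_comm h]

lemma inter_coord (A : Set (E → Bool)) (e : E) (b : Bool) :
    A ∩ {ω | ω e = b} = setB A e b ∩ {ω | ω e = b} := by
  ext ω
  simp only [Set.mem_inter_iff, Set.mem_ofPred_eq, mem_setB]
  constructor
  · rintro ⟨h1, h2⟩
    refine ⟨?_, h2⟩
    rw [← h2, Function.update_eq_self]; exact h1
  · rintro ⟨h1, h2⟩
    refine ⟨?_, h2⟩
    rw [← h2, Function.update_eq_self] at h1; exact h1

omit [DecidableEq E] in
lemma prob_inter_true {A : Set (E → Bool)} {T : Finset E} (h : DepOn A (T : Set E)) (e : E)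
    (he : e ∉ T) (p : unitInterval) :
    (bm E p).real (A ∩ {ω | ω e = true}) = (bm E p).real A * p := by
  have h1 : DepOn {ω : E → Bool | ω e = true} (({e} : Finset E) : Set E) := by
    simpa using depOn_coord e true
  rw [h.indep h1 (by simpa using he) p, prob_open]

omit [DecidableEq E] in
lemma prob_inter_false {A : Set (E → Bool)} {T : Finset E} (h : DepOn A (T : Set E)) (e : E)
    (he : e ∉ T) (p : unitInterval) :
    (bm E p).real (A ∩ {ω | ω e = false}) = (bm E p).real A * (1 - p) := by
  have h1 : DepOn {ω : E → Bool | ω e = false} (({e} : Finset E) : Set E) := by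
    simpa using depOn_coord e false
  rw [h.indep h1 (by simpa using he) p, prob_closed]

lemma prob_split {A : Set (E → Bool)} {T : Finset E} (h : DepOn A (T : Set E)) (e : E)
    (p : unitInterval) :
    (bm E p).real A = p * (bm E p).real (setB A e true)
      + (1 - p) * (bm E p).real (setB A e false) := by
  have h1 : A = (A ∩ {ω | ω e = true}) ∪ (A ∩ {ω | ω e = false}) := by
    rw [← Set.inter_union_distrib_left]
    ext ω
    simp
  have hm : MeasurableSet (A ∩ {ω : E → Bool | ω e = false}) := by
    apply h.measurableSet.inter
    have h2 : DepOn {ω : E → Bool | ω e = false} (({e} : Finset E) : Set E) := by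
      simpa using depOn_coord e false
    exact h2.measurableSet
  have hd : Disjoint (A ∩ {ω | ω e = true}) (A ∩ {ω : E → Bool | ω e = false}) := by
    rw [Set.disjoint_left]
    rintro ω ⟨_, h1⟩ ⟨_, h2⟩
    simp only [Set.mem_ofPred_eq] at h1 h2
    rw [h1] at h2
    exact absurd h2 (by simp)
  conv_lhs => rw [h1]
  rw [measureReal_union hd hm, inter_coord A e true, inter_coord A e false,
    prob_inter_true (h.setB' e true) e (Finset.notMem_erase e T) p,
    prob_inter_false (h.setB' e false) e (Finset.notMem_erase e T) p]
  ring

/-- projection of a real to the unit interval -/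
noncomputable def pr (t : ℝ) : unitInterval := Set.projIcc 0 1 zero_le_one t

lemma coe_pr {t : ℝ} (h0 : 0 ≤ t) (h1 : t ≤ 1) : ((pr t : unitInterval) : ℝ) = t := by
  unfold pr
  rw [Set.projIcc_of_mem zero_le_one ⟨h0, h1⟩]

theorem russo {T : Finset E} : ∀ {A : Set (E → Bool)}, DepOn A (T : Set E) →
    ∀ {x : ℝ}, 0 < x → x < 1 →
    HasDerivAt (fun t => (bm E (pr t)).real A)
      (∑ e ∈ T, ((bm E (pr x)).real (setB A e true) - (bm E (pr x)).real (setB A e false))) x := by
  induction T using Finset.induction_on with
  | empty =>
    intro A hA x hx0 hx1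
    simp only [Finset.sum_empty]
    have hc : ∃ c : ℝ, (fun t => (bm E (pr t)).real A) = fun _ => c := by
      by_cases h : (fun _ => false : E → Bool) ∈ A
      · have : A = Set.univ := by
          ext ω
          simp only [Set.mem_univ, iff_true]
          exact (hA ω _ (by simp)).2 h
        refine ⟨1, ?_⟩
        funext t
        rw [this]; simp
      · have : A = ∅ := by
          ext ω
          simp only [Set.mem_empty_iff_false, iff_false]
          exact fun h' => h ((hA ω _ (by simp)).1 h')
        refine ⟨0, ?_⟩
        funext t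
        rw [this]; simp
    obtain ⟨c, hc⟩ := hc
    rw [hc]
    exact hasDerivAt_const x c
  | insert e T' he ih =>
    intro A hA x hx0 hx1
    have hdep : ∀ b, DepOn (setB A e b) (T' : Set E) := by
      intro b
      have := hA.setB' e b
      rwa [Finset.erase_insert he] at this
    have h1 := ih (hdep true) hx0 hx1
    have h0 := ih (hdep false) hx0 hx1
    have hder : HasDerivAt (fun t : ℝ => t * (bm E (pr t)).real (setB A e true)
        + (1 - t) * (bm E (pr t)).real (setB A e false)) 
        ((1 * (bm E (pr x)).real (setB A e true) + x * (∑ e' ∈ T', ((bm E (pr x)).real (setB (setB A e true) e' true) - (bm E (pr x)).real (setB (setB A e true) e' false))))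
        + ((0 - 1) * (bm E (pr x)).real (setB A e false) + (1 - x) * (∑ e' ∈ T', ((bm E (pr x)).real (setB (setB A e false) e' true) - (bm E (pr x)).real (setB (setB A e false) e' false))))) x :=
      ((hasDerivAt_id x).mul h1).add (((hasDerivAt_const x (1:ℝ)).sub (hasDerivAt_id x)).mul h0)
    have heq : (fun t => (bm E (pr t)).real A) =ᶠ[nhds x] (fun t : ℝ => t * (bm E (pr t)).real (setB A e true)
        + (1 - t) * (bm E (pr t)).real (setB A e false)) := by
      filter_upwards [Ioo_mem_nhds hx0 hx1] with t ht
      rw [prob_split hA e (pr t), coe_pr ht.1.le ht.2.le]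
    refine (hder.congr_of_eventuallyEq heq).congr_deriv ?_
    rw [Finset.sum_insert he]
    have hsum : ∑ e' ∈ T', ((bm E (pr x)).real (setB A e' true) - (bm E (pr x)).real (setB A e' false))
        = x * (∑ e' ∈ T', ((bm E (pr x)).real (setB (setB A e true) e' true) - (bm E (pr x)).real (setB (setB A e true) e' false)))
        + (1 - x) * (∑ e' ∈ T', ((bm E (pr x)).real (setB (setB A e false) e' true) - (bm E (pr x)).real (setB (setB A e false) e' false))) := by
      rw [Finset.mul_sum, Finset.mul_sum, ← Finset.sum_add_distrib]
      apply Finset.sum_congr rfl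
      intro e' he'
      have hne : e ≠ e' := by rintro rfl; exact he he'
      rw [prob_split (hA.setB' e' true) e (pr x), prob_split (hA.setB' e' false) e (pr x),
        coe_pr hx0.le hx1.le, setB_comm A hne, setB_comm A hne, setB_comm A hne, setB_comm A hne]
      ring
    rw [hsum]
    ring

end Vale.Agent.P165
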