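import Vale.Agent.Lib.P165.Uniq

/-!
# Non-uniqueness
-/

open MeasureTheory ProbabilityTheory

namespace Vale.Agent.P165

variable {V : Type*}

/-- exactly one infinite cluster -/
def uniq (G : SimpleGraph V) : Set (Sym2 V → Bool) :=
  {ω | ∃! C : (og G ω).ConnectedComponent, C.supp.Infinite}

lemma supp_infinite_iff {G : SimpleGraph V} {ω : Sym2 V → Bool} {x : V} :
    ((og G ω).connectedComponentMk x).supp.Infinite ↔ ω ∈ infc G x := by
  unfold infc
  have : ((og G ω).connectedComponentMk x).supp = {y | (og G ω).Reachable x y} := by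
    ext y
    rw [SimpleGraph.ConnectedComponent.mem_supp_iff, SimpleGraph.ConnectedComponent.eq]
    exact ⟨fun h => h.symm, fun h => h.symm⟩
  rw [this]; rfl

lemma uniq_eq (G : SimpleGraph V) :
    uniq G = (⋃ x, infc G x) ∩ ⋂ x, ⋂ y, ((infc G x ∩ infc G y)ᶜ ∪ fconn G x y) := by
  ext ω
  constructor
  · rintro ⟨C, hC, huniq⟩
    refine ⟨?_, ?_⟩
    · induction C using SimpleGraph.ConnectedComponent.ind with | h x =>
      exact Set.mem_iUnion.2 ⟨x, supp_infinite_iff.1 hC⟩
    · simp only [Set.mem_iInter]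
      intro x y
      by_cases h : ω ∈ infc G x ∩ infc G y
      · right
        have h1 := huniq _ (supp_infinite_iff.2 h.1)
        have h2 := huniq _ (supp_infinite_iff.2 h.2)
        exact SimpleGraph.ConnectedComponent.exact (h1.trans h2.symm)
      · left; exact h
  · rintro ⟨h1, h2⟩
    obtain ⟨x, hx⟩ := Set.mem_iUnion.1 h1
    refine ⟨(og G ω).connectedComponentMk x, supp_infinite_iff.2 hx, ?_⟩
    intro C hC
    induction C using SimpleGraph.ConnectedComponent.ind with | h y =>
    have hy := supp_infinite_iff.1 hC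
    have h3 := Set.mem_iInter.1 (Set.mem_iInter.1 h2 x) y
    rcases h3 with h3 | h3
    · exact absurd ⟨hx, hy⟩ h3
    · exact (SimpleGraph.ConnectedComponent.sound h3).symm

lemma meas_uniq [Countable V] {G : SimpleGraph V} (hf : LF G) : MeasurableSet (uniq G) := by
  rw [uniq_eq]
  apply MeasurableSet.inter
  · exact MeasurableSet.iUnion fun x => meas_infc hf x
  · refine MeasurableSet.iInter fun x => MeasurableSet.iInter fun y => ?_
    exact ((meas_infc hf x).inter (meas_infc hf y)).compl.union (meas_fconn G x y)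

lemma prob_fconn_le {G : SimpleGraph V} (hf : LF G) {p : unitInterval} {K r : ℝ} (hK : 0 ≤ K)
    (hr0 : 0 ≤ r) (hr1 : r < 1)
    (hdec : ∀ n x y, (np hf n x y : ℝ) * (p : ℝ) ^ n ≤ K * r ^ n) {n : ℕ} {x y : V}
    (hy : y ∉ ball hf n x) :
    (bm (Sym2 V) p).real (fconn G x y) ≤ K * r ^ (n + 1) / (1 - r) := by
  classical
  have hsub : fconn G x y ⊆ ⋃ m : ℕ, ⋃ π ∈ paths hf (m + (n + 1)) x y, allOpen π.edges.toFinset := by
    intro ω hω
    obtain ⟨q, hq⟩ := SimpleGraph.Reachable.exists_isPath hω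
    have hle : og G ω ≤ G := fun _ _ h => h.1
    have hlen : n + 1 ≤ q.length := by
      by_contra hlt
      push Not at hlt
      exact hy (mem_ball.2 ⟨q.mapLe hle, by simpa using Nat.lt_succ_iff.1 hlt⟩)
    simp only [Set.mem_iUnion]
    refine ⟨q.length - (n + 1), q.mapLe hle, ?_, ?_⟩
    · rw [mem_paths]
      refine ⟨(SimpleGraph.Walk.isPath_mapLe hle).2 hq, ?_⟩
      simp only [SimpleGraph.Walk.mapLe, SimpleGraph.Walk.length_map]
      omega
    · intro e he
      rw [List.mem_toFinset, SimpleGraph.Walk.edges_mapLe_eq_edges] at he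
      have := SimpleGraph.Walk.edges_subset_edgeSet _ he
      induction e with | h a b =>
      rw [SimpleGraph.mem_edgeSet] at this
      exact this.2
  have hterm : ∀ m : ℕ, (bm (Sym2 V) p) (⋃ π ∈ paths hf (m + (n + 1)) x y, allOpen π.edges.toFinset) ≤
      ENNReal.ofReal (K * r ^ (n + 1) * r ^ m) := by
    intro m
    rw [← ENNReal.ofReal_toReal (measure_ne_top (bm (Sym2 V) p)
      (⋃ π ∈ paths hf (m + (n + 1)) x y, allOpen π.edges.toFinset))]
    apply ENNReal.ofReal_le_ofReal
    calc (bm (Sym2 V) p).real (⋃ π ∈ paths hf (m + (n + 1)) x y, allOpen π.edges.toFinset)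
        ≤ ∑ π ∈ paths hf (m + (n + 1)) x y, (bm (Sym2 V) p).real (allOpen π.edges.toFinset) :=
          measureReal_biUnion_finset_le _ _
      _ = ∑ π ∈ paths hf (m + (n + 1)) x y, (p : ℝ) ^ (m + (n + 1)) := by
          apply Finset.sum_congr rfl
          intro π hπ
          rw [mem_paths] at hπ
          rw [prob_allOpen, List.toFinset_card_of_nodup hπ.1.isTrail.edges_nodup,
            SimpleGraph.Walk.length_edges, hπ.2]
      _ = (np hf (m + (n + 1)) x y : ℝ) * (p : ℝ) ^ (m + (n + 1)) := by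
          rw [Finset.sum_const, nsmul_eq_mul]; rfl
      _ ≤ K * r ^ (m + (n + 1)) := hdec _ x y
      _ = K * r ^ (n + 1) * r ^ m := by rw [pow_add]; ring
  have h1 : (bm (Sym2 V) p) (fconn G x y) ≤ ENNReal.ofReal (K * r ^ (n + 1) / (1 - r)) := by
    calc (bm (Sym2 V) p) (fconn G x y) ≤ _ := measure_mono hsub
      _ ≤ ∑' m : ℕ, (bm (Sym2 V) p) (⋃ π ∈ paths hf (m + (n + 1)) x y, allOpen π.edges.toFinset) :=
          measure_iUnion_le _
      _ ≤ ∑' m : ℕ, ENNReal.ofReal (K * r ^ (n + 1) * r ^ m) := ENNReal.tsum_le_tsum hterm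
      _ = ENNReal.ofReal (∑' m : ℕ, K * r ^ (n + 1) * r ^ m) := by
          rw [ENNReal.ofReal_tsum_of_nonneg]
          · intro m; positivity
          · exact (summable_geometric_of_lt_one hr0 hr1).mul_left _
      _ = _ := by
          rw [tsum_mul_left, tsum_geometric_of_lt_one hr0 hr1]
          rfl
  exact ENNReal.toReal_le_of_le_ofReal (div_nonneg (by positivity) (by linarith)) h1

lemma ball_map {G : SimpleGraph V} {hf : LF G} (φ : G ≃g G) {n : ℕ} {x y : V}
    (h : y ∈ ball hf n x) : φ y ∈ ball hf n (φ x) := by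
  rw [mem_ball] at h ⊢
  obtain ⟨w, hw⟩ := h
  exact ⟨w.map φ.toHom, by simpa using hw⟩

lemma orbit_far [Infinite V] {G : SimpleGraph V} (hf : LF G) (hconn : G.Connected) (hqt : QT G)
    (x : V) (B : Finset V) : ∃ φ : G ≃g G, φ x ∉ B := by
  classical
  by_contra hcon
  push Not at hcon
  obtain ⟨F, hF⟩ := hqt
  have h1 : ∃ R, ∀ f ∈ F, f ∈ ball hf R x := by
    have h2 : ∀ f, ∃ w : G.Walk x f, True := fun f => by
      obtain ⟨w⟩ := hconn.preconnected x f
      exact ⟨w, trivial⟩
    choose w _ using h2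
    refine ⟨F.sup fun f => (w f).length, fun f hf' => ?_⟩
    rw [mem_ball]
    exact ⟨w f, Finset.le_sup (f := fun f => (w f).length) hf'⟩
  obtain ⟨R, hR⟩ := h1
  have h3 : ∀ v, v ∈ B.biUnion (fun b => ball hf R b) := by
    intro v
    obtain ⟨φ, hφ⟩ := hF v
    have h4 := ball_map φ.symm (hR _ hφ)
    rw [Finset.mem_biUnion]
    refine ⟨φ.symm x, hcon φ.symm, ?_⟩
    simpa using h4
  have h5 : (Set.univ : Set V).Finite :=
    (B.biUnion (fun b => ball hf R b)).finite_toSet.subset fun v _ => h3 v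
  exact Set.infinite_univ h5

theorem not_uniq [Countable V] [Infinite V] {G : SimpleGraph V} (hf : LF G) (hconn : G.Connected)
    (hqt : QT G) {p : unitInterval} {K r : ℝ} (hK : 0 ≤ K) (hr0 : 0 ≤ r) (hr1 : r < 1)
    (hdec : ∀ n x y, (np hf n x y : ℝ) * (p : ℝ) ^ n ≤ K * r ^ n) :
    (bm (Sym2 V) p) (uniq G) ≠ 1 := by
  classical
  intro hU
  have hUc : (bm (Sym2 V) p) (uniq G)ᶜ = 0 := by
    rw [prob_compl_eq_zero_iff (meas_uniq hf)]; exact hU
  -- some vertex has positive probability
  have hex : ∃ x, 0 < (bm (Sym2 V) p).real (infc G x) := by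
    by_contra hcon
    push Not at hcon
    have h0 : ∀ x, (bm (Sym2 V) p) (infc G x) = 0 := by
      intro x
      have h1 := le_antisymm (hcon x) measureReal_nonneg
      exact (measureReal_eq_zero_iff (measure_ne_top _ _)).1 h1
    have h2 : (bm (Sym2 V) p) (⋃ x, infc G x) = 0 := measure_iUnion_null h0
    have h3 : (bm (Sym2 V) p) (uniq G) ≤ (bm (Sym2 V) p) (⋃ x, infc G x) := by
      apply measure_mono
      rw [uniq_eq]
      exact Set.inter_subset_left
    rw [hU, h2] at h3
    exact absurd h3 (by simp)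
  obtain ⟨x, hx⟩ := hex
  set θ := (bm (Sym2 V) p).real (infc G x) with hθ
  set ρ : ℕ → ℝ := fun n => (bm (Sym2 V) p).real (Rn G n x) with hρ
  have key : ∀ n, ρ n ^ 2 - 2 * (ρ n - θ) ≤ K * r ^ (n + 1) / (1 - r) := by
    intro n
    obtain ⟨φ, hφ⟩ := orbit_far hf hconn hqt x (ball hf (2 * n) x)
    have hdisj : Disjoint (ball hf n x) (ball hf n (φ x)) := by
      rw [Finset.disjoint_left]
      intro z hz hz'
      apply hφ
      rw [mem_ball] at hz hz' ⊢
      obtain ⟨w, hw⟩ := hz
      obtain ⟨w', hw'⟩ := hz'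
      refine ⟨w.append w'.reverse, ?_⟩
      rw [SimpleGraph.Walk.length_append, SimpleGraph.Walk.length_reverse]
      omega
    have hnot : φ x ∉ ball hf n x := by
      intro h
      rw [Finset.disjoint_left] at hdisj
      exact hdisj h (mem_ball.2 ⟨SimpleGraph.Walk.nil, by simp⟩)
    have h1 := prob_fconn_le hf hK hr0 hr1 hdec hnot
    -- independence
    have hind : (bm (Sym2 V) p).real (Rn G n x ∩ Rn G n (φ x)) = ρ n ^ 2 := by
      have hd2 : Disjoint (ball hf n x).sym2 (ball hf n (φ x)).sym2 := by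
        rw [Finset.disjoint_left] at hdisj ⊢
        intro e he he'
        induction e with | h a b =>
        rw [Finset.mk_mem_sym2_iff] at he he'
        exact hdisj he.1 he'.1
      rw [(depOn_Rn hf n x).indep (depOn_Rn hf n (φ x)) hd2 p, prob_Rn_act hf φ n x, sq]
    have h2 : (bm (Sym2 V) p).real (Rn G n x \ infc G x) = ρ n - θ := by
      rw [measureReal_sdiff (infc_sub_Rn hf n x) (meas_infc hf x)]
    have h3 : (bm (Sym2 V) p).real (Rn G n (φ x) \ infc G (φ x)) = ρ n - θ := by
      rw [measureReal_sdiff (infc_sub_Rn hf n (φ x)) (meas_infc hf (φ x)), prob_Rn_act hf φ n x,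
        prob_infc_act hf φ x]
    have h4 : Rn G n x ∩ Rn G n (φ x) ⊆
        (((fconn G x (φ x)) ∪ (uniq G)ᶜ) ∪ (Rn G n x \ infc G x)) ∪ (Rn G n (φ x) \ infc G (φ x)) := by
      rintro ω ⟨ha, hb⟩
      by_cases hc : ω ∈ infc G x
      · by_cases hd : ω ∈ infc G (φ x)
        · left; left
          by_cases hu : ω ∈ uniq G
          · left
            rw [uniq_eq] at hu
            have h5 := Set.mem_iInter.1 (Set.mem_iInter.1 hu.2 x) (φ x)
            rcases h5 with h5 | h5
            · exact absurd ⟨hc, hd⟩ h5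
            · exact h5
          · right; exact hu
        · right; exact ⟨hb, hd⟩
      · left; right; exact ⟨ha, hc⟩
    have h5 : (bm (Sym2 V) p).real (Rn G n x ∩ Rn G n (φ x)) ≤
        (bm (Sym2 V) p).real (fconn G x (φ x)) + 0 + (ρ n - θ) + (ρ n - θ) := by
      refine (measureReal_mono h4 (measure_ne_top _ _)).trans ?_
      refine (measureReal_union_le _ _).trans ?_
      rw [h3]
      apply add_le_add_left
      refine (measureReal_union_le _ _).trans ?_
      rw [h2]
      apply add_le_add_left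
      refine (measureReal_union_le _ _).trans ?_
      have : (bm (Sym2 V) p).real (uniq G)ᶜ = 0 := by
        rw [measureReal_def, hUc]; simp
      rw [this]
    rw [hind] at h5
    linarith
  have hl1 : Filter.Tendsto (fun n => ρ n ^ 2 - 2 * (ρ n - θ)) Filter.atTop
      (nhds (θ ^ 2 - 2 * (θ - θ))) := by
    have ht := tendsto_Rn hf x p
    exact (ht.pow 2).sub ((ht.sub tendsto_const_nhds).const_mul 2)
  have hl2 : Filter.Tendsto (fun n : ℕ => K * r ^ (n + 1) / (1 - r)) Filter.atTop (nhds 0) := by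
    have h1 : Filter.Tendsto (fun n : ℕ => r ^ (n + 1)) Filter.atTop (nhds 0) :=
      (tendsto_pow_atTop_nhds_zero_of_lt_one hr0 hr1).comp (Filter.tendsto_add_atTop_nat 1)
    have h2 := (h1.const_mul K).div_const (1 - r)
    simpa using h2
  have hfin := le_of_tendsto_of_tendsto' hl1 hl2 key
  nlinarith [hx]

end Vale.Agent.P165
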