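import Vale.Agent.Lib.P165.Defs
import Vale.Agent.Lib.P165.Uniq2

/-!
# Transfer between labels on `Sym2 V` and labels on the edge set
-/

open MeasureTheory ProbabilityTheory

namespace Vale.Agent.P165

variable {V : Type*}

/-- restriction of labels -/
def rho (G : SimpleGraph V) (ω : Sym2 V → Bool) : G.edgeSet → Bool := fun e => ω e.1

/-- extension of labels by `false` -/
noncomputable def sig (G : SimpleGraph V) (ω : G.edgeSet → Bool) : Sym2 V → Bool := by
  classical exact fun e => if h : e ∈ G.edgeSet then ω ⟨e, h⟩ else false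

lemma meas_rho (G : SimpleGraph V) : Measurable (rho G) := by
  unfold rho; fun_prop

lemma meas_sig (G : SimpleGraph V) : Measurable (sig G) := by
  classical
  rw [measurable_pi_iff]
  intro e
  unfold sig
  by_cases h : e ∈ G.edgeSet
  · simp only [h, dite_true]; fun_prop
  · simp only [h, dite_false]; fun_prop

lemma rho_sig (G : SimpleGraph V) (ω : G.edgeSet → Bool) : rho G (sig G ω) = ω := by
  classical
  funext e
  unfold rho sig
  simp

lemma map_rho (G : SimpleGraph V) (p : unitInterval) :
    (bm (Sym2 V) p).map (rho G) = percolation G p :=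
  Measure.map_infinitePi_infinitePi_of_inj (P := fun _ : Sym2 V => bernoulliMeasure true false p)
    (Subtype.val_injective (p := fun e => e ∈ G.edgeSet))

lemma openGraph_rho (G : SimpleGraph V) (ω : Sym2 V → Bool) : openGraph G (rho G ω) = og G ω := by
  ext x y
  unfold openGraph
  rw [SimpleGraph.fromEdgeSet_adj, og_adj]
  simp only [Set.mem_ofPred_eq, SimpleGraph.mem_edgeSet]
  constructor
  · rintro ⟨⟨h, h2⟩, _⟩; exact ⟨h, h2⟩
  · rintro ⟨h, h2⟩; exact ⟨⟨h, h2⟩, h.ne⟩

lemma rho_unique (G : SimpleGraph V) : rho G ⁻¹' (uniqueInfiniteCluster G) = uniq G := by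
  ext ω
  unfold uniqueInfiniteCluster uniq
  rw [Set.mem_preimage, Set.mem_ofPred_eq, Set.mem_ofPred_eq, openGraph_rho]

lemma sig_unique (G : SimpleGraph V) : sig G ⁻¹' (uniq G) = uniqueInfiniteCluster G := by
  rw [← rho_unique, ← Set.preimage_comp]
  ext ω
  rw [Set.mem_preimage, Function.comp_apply, rho_sig]

lemma meas_unique [Countable V] {G : SimpleGraph V} (hf : LF G) :
    MeasurableSet (uniqueInfiniteCluster G) := by
  rw [← sig_unique]
  exact meas_sig G (meas_uniq hf)

lemma perc_unique [Countable V] {G : SimpleGraph V} (hf : LF G) (p : unitInterval) :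
    percolation G p (uniqueInfiniteCluster G) = (bm (Sym2 V) p) (uniq G) := by
  rw [← map_rho, Measure.map_apply (meas_rho G) (meas_unique hf), rho_unique]

lemma perc_some_pos {G : SimpleGraph V} {p : unitInterval} {o : V}
    (h : 0 < (bm (Sym2 V) p).real (infc G o)) : 0 < percolation G p (someInfiniteCluster G) := by
  have h1 : 0 < (bm (Sym2 V) p) (infc G o) := by
    rw [measureReal_def] at h
    exact (ENNReal.toReal_pos_iff.1 h).1
  have h2 : infc G o ⊆ rho G ⁻¹' (someInfiniteCluster G) := by
    intro ω hω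
    rw [Set.mem_preimage]
    unfold someInfiniteCluster
    rw [Set.mem_ofPred_eq, openGraph_rho]
    exact ⟨(og G ω).connectedComponentMk o, supp_infinite_iff.2 hω⟩
  rw [← map_rho]
  exact (h1.trans_le (measure_mono h2)).trans_le (Measure.le_map_apply (meas_rho G).aemeasurable _)

lemma pc_le {G : SimpleGraph V} {p : ℝ} (hp : p ∈ unitInterval) {o : V}
    (h : 0 < (bm (Sym2 V) ⟨p, hp⟩).real (infc G o)) : pc G ≤ p := by
  unfold pc
  apply csInf_le
  · exact ⟨0, fun q hq => hq.1.1⟩
  · exact ⟨hp, perc_some_pos h⟩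

lemma uniq_one [Countable V] [Infinite V] {G : SimpleGraph V} (hf : LF G) (hconn : G.Connected) :
    (bm (Sym2 V) 1) (uniq G) = 1 := by
  have h1 : (bm (Sym2 V) 1) (uniq G)ᶜ = 0 := by
    have h2 : (uniq G)ᶜ ⊆ ⋃ e : Sym2 V, {ω : Sym2 V → Bool | ω e = false} := by
      intro ω hω
      by_contra hcon
      apply hω
      simp only [Set.mem_iUnion, Set.mem_ofPred_eq, not_exists, Bool.not_eq_false] at hcon
      have h3 : og G ω = G := by
        ext x y
        rw [og_adj]
        exact ⟨fun h => h.1, fun h => ⟨h, hcon _⟩⟩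
      unfold uniq
      rw [Set.mem_ofPred_eq, h3]
      obtain ⟨x⟩ := hconn.nonempty
      refine ⟨G.connectedComponentMk x, ?_, ?_⟩
      · have h4 : (G.connectedComponentMk x).supp = Set.univ := by
          ext y
          rw [SimpleGraph.ConnectedComponent.mem_supp_iff, SimpleGraph.ConnectedComponent.eq]
          exact ⟨fun _ => trivial, fun _ => hconn.preconnected y x⟩
        simp only [h4]
        exact Set.infinite_univ
      · intro C _
        induction C using SimpleGraph.ConnectedComponent.ind with | h y =>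
        exact SimpleGraph.ConnectedComponent.sound (hconn.preconnected y x)
    refine measure_mono_null h2 (measure_iUnion_null fun e => ?_)
    have h5 := prob_closed e (1 : unitInterval)
    rw [measureReal_def] at h5
    have h6 : ((1 : unitInterval) : ℝ) = 1 := rfl
    rw [h6, sub_self, ENNReal.toReal_eq_zero_iff] at h5
    exact h5.resolve_right (measure_ne_top _ _)
  rwa [prob_compl_eq_zero_iff (meas_uniq hf)] at h1

lemma le_pu [Countable V] [Infinite V] {G : SimpleGraph V} (hf : LF G) (hconn : G.Connected)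
    {t : ℝ} (h : ∀ p : unitInterval, (p : ℝ) < t → (bm (Sym2 V) p) (uniq G) ≠ 1) : t ≤ pu G := by
  unfold pu
  apply le_csInf
  · refine ⟨1, ⟨zero_le_one, le_refl _⟩, ?_⟩
    rw [perc_unique hf]
    exact uniq_one hf hconn
  · rintro q ⟨hq, hq1⟩
    rw [perc_unique hf] at hq1
    by_contra hcon
    push Not at hcon
    exact h ⟨q, hq⟩ hcon hq1

lemma countable_of_connected {G : SimpleGraph V} (hf : LF G) (hconn : G.Connected) :
    Countable V := by
  obtain ⟨x⟩ := hconn.nonempty
  have h1 : (Set.univ : Set V) ⊆ ⋃ n, (ball hf n x : Set V) := by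
    intro y _
    obtain ⟨w⟩ := hconn.preconnected x y
    rw [Set.mem_iUnion]
    exact ⟨w.length, Finset.mem_coe.2 (mem_ball.2 ⟨w, le_refl _⟩)⟩
  have h2 : (Set.univ : Set V).Countable :=
    (Set.countable_iUnion fun n => (ball hf n x).countable_toSet).mono h1
  exact Set.countable_univ_iff.1 h2

end Vale.Agent.P165
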