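import Vale.Agent.Lib.P165.Infinite

/-!
# Non-uniqueness from decay of path counts
-/

open MeasureTheory ProbabilityTheory

namespace Vale.Agent.P165

variable {V : Type*}

/-- finitely many automorphism orbits -/
def QT (G : SimpleGraph V) : Prop := ∃ F : Finset V, ∀ v, ∃ φ : G ≃g G, φ v ∈ F

lemma fin_ball {G : SimpleGraph V} (hf : LF G) (n : ℕ) : ∀ x, {y | ∃ w : G.Walk x y, w.length ≤ n}.Finite := by
  induction n with
  | zero =>
    intro x
    apply (Set.finite_singleton x).subset
    rintro y ⟨w, hw⟩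
    exact (SimpleGraph.Walk.eq_of_length_eq_zero (Nat.le_zero.1 hw)).symm
  | succ n ih =>
    intro x
    have h1 : ({x} ∪ ⋃ z ∈ (nb hf x : Set V), {y | ∃ w : G.Walk z y, w.length ≤ n}).Finite :=
      (Set.finite_singleton x).union ((nb hf x).finite_toSet.biUnion fun z _ => ih z)
    apply h1.subset
    rintro y ⟨w, hw⟩
    cases w with
    | nil => left; rfl
    | @cons _ z _ h w' =>
      right
      simp only [Set.mem_iUnion]
      refine ⟨z, by rw [Finset.mem_coe, mem_nb]; exact h, w', ?_⟩
      simp only [SimpleGraph.Walk.length_cons] at hw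
      omega

/-- ball in the graph -/
noncomputable def ball {G : SimpleGraph V} (hf : LF G) (n : ℕ) (x : V) : Finset V :=
  (fin_ball hf n x).toFinset

lemma mem_ball {G : SimpleGraph V} {hf : LF G} {n : ℕ} {x y : V} :
    y ∈ ball hf n x ↔ ∃ w : G.Walk x y, w.length ≤ n := by
  simp [ball]

/-- there is an open simple path of length `n` from `x` -/
def Rn (G : SimpleGraph V) (n : ℕ) (x : V) : Set (Sym2 V → Bool) :=
  {ω | ∃ y, ∃ π : G.Walk x y, π.IsPath ∧ π.length = n ∧ ∀ e ∈ π.edges, ω e = true}

lemma depOn_Rn {G : SimpleGraph V} (hf : LF G) (n : ℕ) (x : V) :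
    DepOn (Rn G n x) ((ball hf n x).sym2 : Set (Sym2 V)) := by
  classical
  have key : ∀ ω ω' : Sym2 V → Bool, (∀ e ∈ ((ball hf n x).sym2 : Set (Sym2 V)), ω e = ω' e) →
      ω ∈ Rn G n x → ω' ∈ Rn G n x := by
    rintro ω ω' h ⟨y, π, hp, hl, ho⟩
    refine ⟨y, π, hp, hl, fun e he => ?_⟩
    rw [← h e, ho e he]
    rw [Finset.mem_coe, Finset.mem_sym2_iff]
    intro v hv
    rw [mem_ball]
    have hvs : v ∈ π.support := by
      induction e with | h a b =>
      rw [Sym2.mem_iff] at hv
      rcases hv with rfl | rfl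
      · exact SimpleGraph.Walk.fst_mem_support_of_mem_edges π he
      · exact SimpleGraph.Walk.snd_mem_support_of_mem_edges π he
    exact ⟨π.takeUntil v hvs, (SimpleGraph.Walk.length_takeUntil_le_length π hvs).trans hl.le⟩
  exact fun ω ω' h => ⟨key ω ω' h, key ω' ω fun e he => (h e he).symm⟩

lemma Rn_anti (G : SimpleGraph V) (x : V) : Antitone (fun n => Rn G n x) := by
  apply antitone_nat_of_succ_le
  rintro n ω ⟨y, π, hp, hl, ho⟩
  refine ⟨_, π.take n, hp.take n, ?_, ?_⟩
  · rw [SimpleGraph.Walk.take_length]; omega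
  · intro e he
    rw [SimpleGraph.Walk.edges_take] at he
    exact ho e (List.mem_of_mem_take he)

lemma infc_sub_Rn {G : SimpleGraph V} (hf : LF G) (n : ℕ) (x : V) : infc G x ⊆ Rn G n x := by
  classical
  intro ω hω
  have h1 : ∃ y, (og G ω).Reachable x y ∧ y ∉ ball hf n x := by
    by_contra hcon
    push Not at hcon
    exact hω ((ball hf n x).finite_toSet.subset fun y hy => hcon y hy)
  obtain ⟨y, hy, hyb⟩ := h1
  obtain ⟨q, hq⟩ := hy.exists_isPath
  have hle : og G ω ≤ G := fun _ _ h => h.1
  have hlen : n ≤ q.length := by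
    by_contra hlt
    push Not at hlt
    exact hyb (mem_ball.2 ⟨q.mapLe hle, by simpa using hlt.le⟩)
  refine ⟨_, (q.take n).mapLe hle, (SimpleGraph.Walk.isPath_mapLe hle).2 (hq.take n), ?_, ?_⟩
  · simp only [SimpleGraph.Walk.mapLe, SimpleGraph.Walk.length_map]
    rw [SimpleGraph.Walk.take_length]; omega
  · intro e he
    rw [SimpleGraph.Walk.edges_mapLe_eq_edges] at he
    have := SimpleGraph.Walk.edges_subset_edgeSet _ he
    induction e with | h a b =>
    rw [SimpleGraph.mem_edgeSet] at this
    exact this.2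

lemma reach_of_open {G : SimpleGraph V} {ω : Sym2 V → Bool} {x y : V} (π : G.Walk x y)
    (h : ∀ e ∈ π.edges, ω e = true) : ∀ v ∈ π.support, (og G ω).Reachable x v := by
  induction π with
  | nil =>
    intro v hv
    simp only [SimpleGraph.Walk.support_nil, List.mem_singleton] at hv
    subst hv
    exact SimpleGraph.Reachable.refl _
  | @cons a b c hab π ih =>
    intro v hv
    rw [SimpleGraph.Walk.support_cons, List.mem_cons] at hv
    rcases hv with rfl | hv
    · exact SimpleGraph.Reachable.refl _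
    · have h1 : (og G ω).Adj a b := ⟨hab, h _ (by simp)⟩
      exact (SimpleGraph.Adj.reachable h1).trans
        (ih (fun e he => h e (by rw [SimpleGraph.Walk.edges_cons]; exact List.mem_cons_of_mem _ he)) v hv)

lemma infc_eq {G : SimpleGraph V} (hf : LF G) (x : V) : infc G x = ⋂ n, Rn G n x := by
  classical
  apply Set.Subset.antisymm
  · exact Set.subset_iInter fun n => infc_sub_Rn hf n x
  · intro ω hω hfin
    obtain ⟨y, π, hp, hl, ho⟩ := Set.mem_iInter.1 hω hfin.toFinset.card
    have h1 : π.support.toFinset ⊆ hfin.toFinset := by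
      intro v hv
      rw [Set.Finite.mem_toFinset]
      exact reach_of_open π ho v (List.mem_toFinset.1 hv)
    have h2 := Finset.card_le_card h1
    rw [List.toFinset_card_of_nodup hp.support_nodup, SimpleGraph.Walk.length_support] at h2
    omega

lemma meas_infc {G : SimpleGraph V} (hf : LF G) (x : V) : MeasurableSet (infc G x) := by
  classical
  rw [infc_eq hf]
  exact MeasurableSet.iInter fun n => (depOn_Rn hf n x).measurableSet

lemma tendsto_Rn {G : SimpleGraph V} (hf : LF G) (x : V) (p : unitInterval) :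
    Filter.Tendsto (fun n => (bm (Sym2 V) p).real (Rn G n x)) Filter.atTop
      (nhds ((bm (Sym2 V) p).real (infc G x))) := by
  classical
  rw [infc_eq hf]
  have hlim := tendsto_measure_iInter_atTop (μ := bm (Sym2 V) p)
    (fun n => (depOn_Rn hf n x).measurableSet.nullMeasurableSet) (Rn_anti G x)
    ⟨0, measure_ne_top _ _⟩
  exact (ENNReal.tendsto_toReal (measure_ne_top _ _)).comp hlim

/-! ### automorphisms -/

/-- action of an automorphism on labels -/
def act {G : SimpleGraph V} (φ : G ≃g G) (ω : Sym2 V → Bool) : Sym2 V → Bool :=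
  fun e => ω (Sym2.map φ e)

lemma map_act {G : SimpleGraph V} (φ : G ≃g G) (p : unitInterval) :
    (bm (Sym2 V) p).map (act φ) = bm (Sym2 V) p := by
  have hinj : Function.Injective (Sym2.map φ) := Sym2.map.injective φ.injective
  exact Measure.map_infinitePi_infinitePi_of_inj (P := fun _ : Sym2 V => bernoulliMeasure true false p) hinj

lemma meas_act {G : SimpleGraph V} (φ : G ≃g G) : Measurable (act φ) := by
  unfold act
  fun_prop

lemma Rn_act_sub {G : SimpleGraph V} (φ : G ≃g G) (n : ℕ) (x : V) {ω : Sym2 V → Bool}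
    (h : act φ ω ∈ Rn G n x) : ω ∈ Rn G n (φ x) := by
  obtain ⟨y, π, hp, hl, ho⟩ := h
  refine ⟨φ y, π.map φ.toHom, ?_, ?_, ?_⟩
  · exact SimpleGraph.Walk.IsPath.map φ.injective hp
  · simpa using hl
  · intro e he
    rw [SimpleGraph.Walk.edges_map, List.mem_map] at he
    obtain ⟨e', he', rfl⟩ := he
    exact ho e' he'

lemma Rn_act {G : SimpleGraph V} (φ : G ≃g G) (n : ℕ) (x : V) :
    act φ ⁻¹' (Rn G n x) = Rn G n (φ x) := by
  apply Set.Subset.antisymm
  · intro ω h; exact Rn_act_sub φ n x h
  · intro ω h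
    rw [Set.mem_preimage]
    have h1 : act φ.symm (act φ ω) = ω := by
      funext e
      unfold act
      rw [Sym2.map_map]
      congr 1
      have : (φ : V → V) ∘ (φ.symm : V → V) = id := by
        funext v; simp
      rw [this, Sym2.map_id]; rfl
    have h2 : act φ.symm (act φ ω) ∈ Rn G n (φ x) := by rw [h1]; exact h
    have h3 := Rn_act_sub φ.symm n (φ x) h2
    simpa using h3

lemma prob_Rn_act {G : SimpleGraph V} (hf : LF G) (φ : G ≃g G) (n : ℕ) (x : V) (p : unitInterval) :
    (bm (Sym2 V) p).real (Rn G n (φ x)) = (bm (Sym2 V) p).real (Rn G n x) := by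
  classical
  conv_rhs => rw [← map_act φ p]
  rw [measureReal_def, measureReal_def, Measure.map_apply (meas_act φ) (depOn_Rn hf n x).measurableSet,
    Rn_act]

lemma prob_infc_act {G : SimpleGraph V} (hf : LF G) (φ : G ≃g G) (x : V) (p : unitInterval) :
    (bm (Sym2 V) p).real (infc G (φ x)) = (bm (Sym2 V) p).real (infc G x) := by
  apply tendsto_nhds_unique (tendsto_Rn hf (φ x) p)
  simp_rw [prob_Rn_act hf φ]
  exact tendsto_Rn hf x p

end Vale.Agent.P165
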